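import Crest.Agent.R350.QLib

set_option autoImplicit false

open Finset Classical

namespace Crest.Agent.R350

open QL in
theorem realizable_read_aux {V W : Type} [Fintype V] [Fintype W] [Unique W] (v : V) :
    Realizable (fun (x : V → Bool) (b : Bool) => if b = x v then (1 : ℝ) else 0) 1 := by
  refine ⟨W, inferInstance, fun _ => 1, fun e => if e = (v, false, default) then 1 else 0,
    fun e => e.2.1, fun _ => ?_, ?_, ?_⟩
  · exact (Matrix.unitaryGroup (V × Bool × W) ℂ).one_mem
  · rw [Finset.sum_eq_single (v, false, default)]
    · simp
    · intro e _ he
      simp [he]
    · intro h; exact absurd (Finset.mem_univ _) h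
  · intro x b
    simp only [runState, Matrix.one_mulVec]
    rw [Finset.sum_eq_single (v, x v, default)]
    · simp only [orac, Bool.xor_self, if_true, norm_one, one_pow]
      by_cases h : b = x v
      · simp [h]
      · simp [h, Ne.symm h]
    · rintro ⟨v', b', u⟩ _ he
      have : ¬ ((v', xor b' (x v'), u) = (v, false, default)) := by
        intro h
        apply he
        simp only [Prod.mk.injEq] at h ⊢
        obtain ⟨h1, h2, _⟩ := h
        subst h1
        refine ⟨rfl, ?_, Subsingleton.elim _ _⟩
        cases b' <;> cases hx : x v' <;> simp [hx] at h2 ⊢
      simp only [orac, this, if_false]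
      simp
    · intro h; exact absurd (Finset.mem_univ _) h

theorem realizable_read {V : Type} [Fintype V] (v : V) :
    Realizable (fun (x : V → Bool) (b : Bool) => if b = x v then (1 : ℝ) else 0) 1 :=
  realizable_read_aux (W := Unit) v

open QL in
/-- A1 -/
theorem realBasic : RealBasic where
  pure := by
    intro V α _ _ _ μ q h0 h1
    exact realizable_of_preal (PReal.pure μ q h0 h1)
  read := by
    intro V _ v
    exact realizable_read v
  map := by
    intro V α β _ _ f P q h
    haveI := nonempty_of_realizable h
    exact realizable_of_preal (PReal.map f (preal_of_realizable h))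
  nonneg := by
    intro V α _ P q h x a
    exact (preal_of_realizable h).nonneg x a
  sum_one := by
    intro V α _ _ P q h x
    exact (preal_of_realizable h).sum_one x

end Crest.Agent.R350
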