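import Crest.Agent.R350.Defs

/-!
# Row 350 (S0554), task A10: decoding the hidden pointers

`CandGen` of `Defs.lean` is false for `L = 0` (the variable type is empty, and nothing is
realizable over an empty variable type); `CandGen'` has the extra hypothesis `1 ≤ L`.
-/

set_option autoImplicit false

open Finset Classical

namespace Crest.Agent.R350

/-- A10 (corrected: `1 ≤ L`). -/
def CandGen' : Prop :=
  ∀ (k s L e Kt : ℕ) (θ₁ θ₀ : ℝ), 1 ≤ L → 0 ≤ θ₁ → θ₁ ≤ 1 → 0 ≤ θ₀ →
    (L : ℝ) * (1 - θ₁ ^ 2) ^ Kt ≤ 1 / 4 → (L : ℝ) * 2 ^ e * Kt * θ₀ ^ 2 ≤ 1 / 4 →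
    ∃ PA : (B s × Zb k s L e → Bool) → B L → ℝ, Realizable PA (L * 2 ^ e * Kt * (k + 1)) ∧
      ∀ X b r, good θ₁ θ₀ r (fun v => X (b, v)) → 1 ≤ PA X r * (2 * 2 ^ s)

namespace A10

section
variable {V : Type} [Fintype V]

/-- a test with success probability `f x` -/
noncomputable def tst (f : (V → Bool) → ℝ) (x : V → Bool) (b : Bool) : ℝ := if b then f x else 1 - f x

theorem tst_or (hC : RealBind) (hP : RealBasic) [Nonempty V] (f g : (V → Bool) → ℝ) (q₁ q₂ : ℕ)
    (hf : Realizable (tst f) q₁) (hg : Realizable (tst g) q₂) :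
    Realizable (tst (fun x => 1 - (1 - f x) * (1 - g x))) (q₁ + q₂) := by
  have h1 : Realizable (fun (_ : V → Bool) (b : Bool) => if b then (1 : ℝ) else 0) q₂ := by
    refine hP.pure V Bool (fun b => if b then (1 : ℝ) else 0) q₂ (fun b => by cases b <;> simp) ?_
    simp
  have h2 := hC V Bool Bool (tst f) q₁
    (fun a => if a then (fun _ b => if b then (1 : ℝ) else 0) else tst g) q₂ hf
    (fun a => by cases a <;> simp [h1, hg])
  convert h2 using 1
  funext x b
  rw [Fintype.sum_bool]
  cases b <;> simp [tst] <;> ring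

theorem tst_orn (hC : RealBind) (hP : RealBasic) [Nonempty V] (q : ℕ) : ∀ (n : ℕ)
    (f : Fin n → (V → Bool) → ℝ), (∀ i, Realizable (tst (f i)) q) →
    Realizable (tst (fun x => 1 - ∏ i, (1 - f i x))) (n * q)
  | 0, f, _ => by
    have h1 := hP.pure V Bool (fun b => if b then (0 : ℝ) else 1) (0 * q)
      (fun b => by cases b <;> simp) (by simp)
    convert h1 using 1
    funext x b
    cases b <;> simp [tst]
  | n + 1, f, hf => by
    have h1 := tst_orn hC hP q n (fun i => f i.succ) (fun i => hf i.succ)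
    have h2 := tst_or hC hP _ _ _ _ (hf 0) h1
    have e : (n + 1) * q = q + n * q := by ring
    rw [e]
    convert h2 using 2
    funext x
    rw [Fin.prod_univ_succ]
    ring

theorem bits (hC : RealBind) (hP : RealBasic) [Nonempty V] (q : ℕ) : ∀ (L : ℕ)
    (p : Fin L → (V → Bool) → ℝ), (∀ l, Realizable (tst (p l)) q) →
    Realizable (fun x (r : B L) => ∏ l, tst (p l) x (r l)) (L * q)
  | 0, p, _ => by
    have h1 := hP.pure V (B 0) (fun _ => (1 : ℝ)) (0 * q) (fun _ => zero_le_one) (by simp)
    convert h1 using 1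
    funext x b
    simp
  | L + 1, p, hp => by
    have h1 := bits hC hP q L (fun i => p i.succ) (fun i => hp i.succ)
    have h2 : ∀ a : Bool, Realizable (fun x (r : B (L + 1)) =>
        ∑ r' : B L, if (Fin.cons a r' : B (L + 1)) = r then ∏ l : Fin L, tst (p l.succ) x (r' l) else 0)
        (L * q) := fun a => by
      have h3 := hP.map V (B L) (B (L + 1)) (fun r' => Fin.cons a r') _ _ h1
      convert h3 using 1
      funext x r
      refine Finset.sum_congr rfl fun r' _ => ?_
      congr
    have h4 := hC V Bool (B (L + 1)) (tst (p 0)) q _ (L * q) (hp 0) h2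
    have e : (L + 1) * q = q + L * q := by ring
    rw [e]
    convert h4 using 1
    funext x r
    rw [Fin.prod_univ_succ]
    rw [Finset.sum_eq_single (r 0)]
    · congr 1
      rw [Finset.sum_eq_single (fun l : Fin L => r l.succ)]
      · have : (Fin.cons (r 0) (fun l : Fin L => r l.succ) : B (L + 1)) = r := Fin.cons_self_tail r
        rw [if_pos this]
      · intro r' _ hr'
        rw [if_neg]
        intro h
        apply hr'
        funext l
        rw [← h, Fin.cons_succ]
      · intro h; exact absurd (Finset.mem_univ _) h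
    · intro a _ ha
      rw [Finset.sum_eq_zero, mul_zero]
      intro r' _
      rw [if_neg]
      intro h
      apply ha
      rw [← h, Fin.cons_zero]
    · intro h; exact absurd (Finset.mem_univ _) h

end

theorem one_sub_sum_le_prod {ι : Type} (s : Finset ι) (a : ι → ℝ) (h0 : ∀ i ∈ s, 0 ≤ a i)
    (h1 : ∀ i ∈ s, a i ≤ 1) : 1 - ∑ i ∈ s, (1 - a i) ≤ ∏ i ∈ s, a i := by
  induction s using Finset.induction_on with
  | empty => simp
  | insert b s hb ih =>
    rw [Finset.sum_insert hb, Finset.prod_insert hb]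
    have ih' := ih (fun i hi => h0 i (Finset.mem_insert_of_mem hi))
      (fun i hi => h1 i (Finset.mem_insert_of_mem hi))
    have hp1 : ∏ i ∈ s, a i ≤ 1 := Finset.prod_le_one (fun i hi => h0 i (Finset.mem_insert_of_mem hi))
      (fun i hi => h1 i (Finset.mem_insert_of_mem hi))
    have hb0 := h0 b (Finset.mem_insert_self _ _)
    have hb1 := h1 b (Finset.mem_insert_self _ _)
    nlinarith

end A10

theorem candGen' (hP : RealBasic) (hC : RealBind) (_hM : RealMono) (hR : RealReindex)
    (hF : RealForr) : CandGen' := by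
  intro k s L e Kt θ₁ θ₀ hL hθ1 hθ1' hθ0 hA hBd
  have : NeZero L := ⟨by omega⟩
  set V := B s × Zb k s L e with hV
  have hne : Nonempty V := ⟨((fun _ => false), ((0, fun _ => false), (0, fun _ => false)))⟩
  -- single tests
  set ph : B s → Fin L → B e → (V → Bool) → ℝ :=
    fun b l c X => phi (fun v => X (b, ((l, c), v))) with hph
  have h1 : ∀ b l c, Realizable (A10.tst (fun X : V → Bool => ph b l c X ^ 2)) (k + 1) := by
    intro b l c
    exact hR V (FV k s) Bool (fun v => (b, ((l, c), v))) _ _ (hF k s)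
  have hph1 : ∀ b l c X, ph b l c X ^ 2 ≤ 1 := by
    intro b l c X
    have := hP.nonneg V Bool _ _ (h1 b l c) X false
    simp only [A10.tst, Bool.false_eq_true, if_false] at this
    linarith
  have h2 : ∀ b l c, Realizable (A10.tst (fun X : V → Bool => 1 - (1 - ph b l c X ^ 2) ^ Kt))
      (Kt * (k + 1)) := by
    intro b l c
    have := A10.tst_orn hC hP (k + 1) Kt (fun _ => fun X => ph b l c X ^ 2) (fun _ => h1 b l c)
    simpa using this
  have hcardB : Fintype.card (B e) = 2 ^ e := by simp [B]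
  set eqv : Fin (2 ^ e) ≃ B e := (Fintype.equivFinOfCardEq hcardB).symm
  have h3 : ∀ b l, Realizable (A10.tst (fun X : V → Bool => 1 - ∏ c : B e, (1 - ph b l c X ^ 2) ^ Kt))
      (2 ^ e * (Kt * (k + 1))) := by
    intro b l
    have := A10.tst_orn hC hP (Kt * (k + 1)) (2 ^ e)
      (fun i => fun X => 1 - (1 - ph b l (eqv i) X ^ 2) ^ Kt) (fun i => h2 b l (eqv i))
    convert this using 2
    funext X
    congr 1
    rw [← Equiv.prod_comp eqv]
    refine Finset.prod_congr rfl fun i _ => ?_
    ring
  set bt : B s → Fin L → (V → Bool) → ℝ :=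
    fun b l X => 1 - ∏ c : B e, (1 - ph b l c X ^ 2) ^ Kt with hbt
  have h4 : ∀ b, Realizable (fun (X : V → Bool) (r : B L) => ∏ l, A10.tst (bt b l) X (r l))
      (L * (2 ^ e * (Kt * (k + 1)))) := fun b => A10.bits hC hP _ L _ (fun l => h3 b l)
  have h5 := hP.pure V (B s) (fun _ => 1 / 2 ^ s) 0 (fun _ => by positivity) (by simp [B])
  have h6 := hC V (B s) (B L) _ 0 (fun b (X : V → Bool) (r : B L) => ∏ l, A10.tst (bt b l) X (r l))
    _ h5 h4
  have hprod0 : ∀ b l X, 0 ≤ ∏ c : B e, (1 - ph b l c X ^ 2) ^ Kt := by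
    intro b l X
    refine Finset.prod_nonneg fun c _ => ?_
    have := hph1 b l c X
    exact pow_nonneg (by linarith) _
  have hprod1 : ∀ b l X, ∏ c : B e, (1 - ph b l c X ^ 2) ^ Kt ≤ 1 := by
    intro b l X
    refine Finset.prod_le_one (fun c _ => ?_) (fun c _ => ?_)
    · have := hph1 b l c X
      exact pow_nonneg (by linarith) _
    · have := hph1 b l c X
      exact pow_le_one₀ (by linarith) (by nlinarith [sq_nonneg (ph b l c X)])
  have htst0 : ∀ b l X t, 0 ≤ A10.tst (bt b l) X t := by
    intro b l X t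
    have := hprod0 b l X
    have := hprod1 b l X
    cases t <;> simp [A10.tst, hbt] <;> linarith
  have htst1 : ∀ b l X t, A10.tst (bt b l) X t ≤ 1 := by
    intro b l X t
    have := hprod0 b l X
    have := hprod1 b l X
    cases t <;> simp [A10.tst, hbt] <;> linarith
  refine ⟨fun X r => ∑ b, 1 / 2 ^ s * ∏ l, A10.tst (bt b l) X (r l), ?_, ?_⟩
  · convert h6 using 1
    ring
  · intro X b r hg
    have h7 : 1 / 2 ^ s * ∏ l, A10.tst (bt b l) X (r l) ≤
        ∑ b, 1 / 2 ^ s * ∏ l, A10.tst (bt b l) X (r l) :=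
      Finset.single_le_sum (f := fun b => 1 / 2 ^ s * ∏ l, A10.tst (bt b l) X (r l))
        (fun b _ => mul_nonneg (by positivity) (Finset.prod_nonneg fun l _ => htst0 b l X (r l)))
        (Finset.mem_univ b)
    have h8 : 1 / 2 ≤ ∏ l, A10.tst (bt b l) X (r l) := by
      refine le_trans ?_ (A10.one_sub_sum_le_prod univ _ (fun l _ => htst0 b l X (r l))
        (fun l _ => htst1 b l X (r l)))
      have h9 : ∀ l, 1 - A10.tst (bt b l) X (r l) ≤ (1 - θ₁ ^ 2) ^ Kt + 2 ^ e * Kt * θ₀ ^ 2 := by
        intro l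
        obtain ⟨hg1, hg0⟩ := hg l
        cases hr : r l with
        | true =>
          obtain ⟨c, hc⟩ := hg1 hr
          simp only [A10.tst, if_true, hbt]
          have h10 : ∏ c : B e, (1 - ph b l c X ^ 2) ^ Kt ≤ (1 - ph b l c X ^ 2) ^ Kt := by
            rw [← Finset.mul_prod_erase univ _ (Finset.mem_univ c)]
            have hc0 : 0 ≤ (1 - ph b l c X ^ 2) ^ Kt := by
              have := hph1 b l c X
              exact pow_nonneg (by linarith) _
            refine mul_le_of_le_one_right hc0 ?_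
            refine Finset.prod_le_one (fun c _ => ?_) (fun c _ => ?_)
            · have := hph1 b l c X
              exact pow_nonneg (by linarith) _
            · have := hph1 b l c X
              exact pow_le_one₀ (by linarith) (by nlinarith [sq_nonneg (ph b l c X)])
          have h11 : (1 - ph b l c X ^ 2) ^ Kt ≤ (1 - θ₁ ^ 2) ^ Kt := by
            have h12 := hph1 b l c X
            have h13 : θ₁ ^ 2 ≤ ph b l c X ^ 2 := by
              have : θ₁ ≤ ph b l c X := hc
              gcongr
            exact pow_le_pow_left₀ (by linarith) (by linarith) _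
          have h12 : 0 ≤ 2 ^ e * (Kt : ℝ) * θ₀ ^ 2 := by positivity
          linarith
        | false =>
          simp only [A10.tst, Bool.false_eq_true, if_false, hbt]
          have h10 := A10.one_sub_sum_le_prod univ (fun c : B e => (1 - ph b l c X ^ 2) ^ Kt)
            (fun c _ => pow_nonneg (by have := hph1 b l c X; linarith) _)
            (fun c _ => pow_le_one₀ (by have := hph1 b l c X; linarith)
              (by nlinarith [sq_nonneg (ph b l c X)]))
          have h11 : ∀ c : B e, 1 - (1 - ph b l c X ^ 2) ^ Kt ≤ Kt * θ₀ ^ 2 := by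
            intro c
            have h12 : |ph b l c X| ≤ θ₀ := hg0 hr c
            have h13 : ph b l c X ^ 2 ≤ θ₀ ^ 2 := by
              rw [← sq_abs]; gcongr
            have h14 := one_add_mul_le_pow (a := -(ph b l c X ^ 2)) (by have := hph1 b l c X; linarith) Kt
            have h15 : (Kt : ℝ) * ph b l c X ^ 2 ≤ Kt * θ₀ ^ 2 := by gcongr
            have h16 : (1 - ph b l c X ^ 2) = (1 + -(ph b l c X ^ 2)) := by ring
            rw [h16]
            linarith
          have h12 : ∑ c : B e, (1 - (1 - ph b l c X ^ 2) ^ Kt) ≤ 2 ^ e * (Kt * θ₀ ^ 2) := by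
            refine le_trans (Finset.sum_le_sum fun c _ => h11 c) ?_
            rw [Finset.sum_const, Finset.card_univ, hcardB, nsmul_eq_mul]
            push_cast
            exact le_refl _
          have h13 : 0 ≤ (1 - θ₁ ^ 2) ^ Kt := by
            have : θ₁ ^ 2 ≤ 1 := by nlinarith
            exact pow_nonneg (by linarith) _
          linarith
      have h10 : ∑ l, (1 - A10.tst (bt b l) X (r l)) ≤ L * ((1 - θ₁ ^ 2) ^ Kt + 2 ^ e * Kt * θ₀ ^ 2) := by
        refine le_trans (Finset.sum_le_sum fun l _ => h9 l) ?_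
        rw [Finset.sum_const, Finset.card_univ, Fintype.card_fin, nsmul_eq_mul]
      have h11 : (L : ℝ) * ((1 - θ₁ ^ 2) ^ Kt + 2 ^ e * Kt * θ₀ ^ 2) =
          L * (1 - θ₁ ^ 2) ^ Kt + L * 2 ^ e * Kt * θ₀ ^ 2 := by ring
      linarith
    have h2s : (0 : ℝ) < 2 ^ s := by positivity
    calc (1 : ℝ) = 1 / 2 ^ s * (1 / 2) * (2 * 2 ^ s) := by field_simp
      _ ≤ 1 / 2 ^ s * (∏ l, A10.tst (bt b l) X (r l)) * (2 * 2 ^ s) := by gcongr
      _ ≤ _ := by gcongr

end Crest.Agent.R350
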