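import Crest.Agent.R350.Defs

/-!
# R350, A11: the cheat sheet algorithm
-/

set_option autoImplicit false

open Finset Classical

namespace Crest.Agent.R350

namespace A11

/-- independent runs -/
theorem prodReal (hB : RealBasic) (hBind : RealBind) {V β : Type} [Fintype V] [Nonempty V]
    [Fintype β] (q : ℕ) :
    ∀ (n : ℕ) (Q : Fin n → (V → Bool) → β → ℝ), (∀ i, Realizable (Q i) q) →
      Realizable (fun x (b : Fin n → β) => ∏ i, Q i x (b i)) (n * q)
  | 0, Q, _ => by
    have h := hB.pure V (Fin 0 → β) (fun _ => 1) (0 * q) (fun _ => zero_le_one) (by simp)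
    simpa using h
  | n + 1, Q, hQ => by
    have ih := prodReal hB hBind q n (fun i => Q i.succ) (fun i => hQ i.succ)
    have hb := hBind V β (Fin (n + 1) → β) (Q 0) q
      (fun b0 x b => ∑ a : Fin n → β, if (Fin.cons b0 a : Fin (n + 1) → β) = b then
        ∏ i, Q i.succ x (a i) else 0) (n * q) (hQ 0)
      (fun b0 => by
        convert hB.map V (Fin n → β) (Fin (n + 1) → β) (fun a => Fin.cons b0 a) _ _ ih)
    have hq : (n + 1) * q = q + n * q := by ring
    rw [hq]
    convert hb using 1
    funext x b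
    rw [Fin.prod_univ_succ, Finset.sum_eq_single (b 0)]
    · rw [Finset.sum_eq_single (fun i => b i.succ)]
      · rw [if_pos]
        exact Fin.cons_self_tail b
      · intro a _ ha
        rw [if_neg]
        intro hc
        apply ha
        funext i
        rw [← hc, Fin.cons_succ]
      · intro h; exact absurd (Finset.mem_univ _) h
    · intro b0 _ hb0
      rw [Finset.sum_eq_zero, mul_zero]
      intro a _
      rw [if_neg]
      intro hc
      apply hb0
      rw [← hc, Fin.cons_zero]
    · intro h; exact absurd (Finset.mem_univ _) h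

theorem one_sub_sum_le_prod {ι : Type} (s : Finset ι) (f : ι → ℝ) (h0 : ∀ i, 0 ≤ f i)
    (h1 : ∀ i, f i ≤ 1) : 1 - ∑ i ∈ s, (1 - f i) ≤ ∏ i ∈ s, f i := by
  induction s using Finset.induction_on with
  | empty => simp
  | insert a s ha ih =>
    rw [Finset.sum_insert ha, Finset.prod_insert ha]
    have hp1 : ∏ i ∈ s, f i ≤ 1 := Finset.prod_le_one (fun i _ => h0 i) (fun i _ => h1 i)
    have hp0 : 0 ≤ ∏ i ∈ s, f i := Finset.prod_nonneg (fun i _ => h0 i)
    nlinarith [h0 a, h1 a, mul_nonneg (sub_nonneg.2 (h1 a)) (sub_nonneg.2 hp1)]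

variable {V₀ E : Type} {c L : ℕ}

/-- reading the presence bit and the pointers -/
def tr (V₀ : Type) {c L : ℕ} (ℓ : B c) : Tree (VC V₀ c L) (Bool × (Fin (c * L) → Bool)) :=
  let ra : Tree (VC V₀ c L) (Fin (c * L) → Bool) := Tree.readAll (c * L) (fun m => Sum.inr (Sum.inr
    (ℓ, (finProdFinEquiv.symm m).1, (finProdFinEquiv.symm m).2)))
  Tree.node (Sum.inr (Sum.inl ℓ)) (ra.map (fun w => (false, w))) (ra.map (fun w => (true, w)))

theorem depth_tr (ℓ : B c) : (tr V₀ (L := L) ℓ).depth = c * L + 1 := by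
  simp [tr, Tree.depth, Tree.depth_map, Tree.depth_readAll]

theorem eval_tr (x : VC V₀ c L → Bool) (ℓ : B c) : (tr V₀ ℓ).eval x =
    (x (Sum.inr (Sum.inl ℓ)), fun m => x (Sum.inr (Sum.inr
      (ℓ, (finProdFinEquiv.symm m).1, (finProdFinEquiv.symm m).2)))) := by
  simp only [tr, Tree.eval, Tree.eval_map, Tree.eval_readAll]
  split_ifs with h
  · simp [h]
  · simp [h]

/-- the test of a candidate `(i, e)` -/
def tst (chk : Bool → B L → E → Tree V₀ Bool) (ℓ : B c) (r : Fin c → B L) (a : Fin c × E) :
    Tree (VC V₀ c L) Bool :=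
  ((chk (ℓ a.1) (r a.1) a.2).map not).ren (fun v => Sum.inl (a.1, v))

theorem eval_tst (chk : Bool → B L → E → Tree V₀ Bool) (ℓ : B c) (r : Fin c → B L)
    (a : Fin c × E) (x : VC V₀ c L → Bool) :
    (tst chk ℓ r a).eval x = !((chk (ℓ a.1) (r a.1) a.2).eval (fun v => x (Sum.inl (a.1, v)))) := by
  unfold tst
  rw [Tree.eval_ren, Tree.eval_map]

end A11

open A11

theorem csq : RealBasic → RealBind → RealMono → RealReindex → RealTree → RealSearch → CSQ := by
  intro hB hBind _ hRe hTree hSearch
  intro V₀ E _ _ _ _ c L D q T err chk P hc hD hP hval herr hcE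
  have hcard : 1 ≤ Fintype.card E := Fintype.card_pos
  have hT : 1 ≤ T := by
    rcases Nat.eq_zero_or_pos T with h | h
    · subst h
      have : 1 * 1 ≤ c * Fintype.card E := Nat.mul_le_mul hc hcard
      omega
    · exact h
  have : Nonempty (Fin c) := ⟨⟨0, hc⟩⟩
  have : Nonempty (VC V₀ c L) := ⟨Sum.inl (Classical.arbitrary _, Classical.arbitrary _)⟩
  -- stage 1
  have hQ : ∀ i : Fin c, Realizable
      (fun (x : VC V₀ c L → Bool) => P (fun v => x (Sum.inl (i, v)))) q :=
    fun i => hRe (VC V₀ c L) V₀ Bool (fun v => Sum.inl (i, v)) P q hP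
  have h1 := prodReal hB hBind q c _ hQ
  -- stage 3: for every ℓ, r, a search
  have h3 : ∀ (ℓ : B c) (r : Fin c → B L), ∃ R : (VC V₀ c L → Bool) → Bool → ℝ,
      Realizable R (48 * T * (D + 1)) ∧
      (∀ x, (∀ i, valid chk (ℓ i) (r i) (fun v => x (Sum.inl (i, v)))) → 1 ≤ R x true) ∧
      (∀ x, ¬ (∀ i, valid chk (ℓ i) (r i) (fun v => x (Sum.inl (i, v)))) →
        2 / 3 ≤ R x false) := by
    intro ℓ r
    have hcE0 : (0 : ℝ) < c * Fintype.card E := by
      have : 0 < c * Fintype.card E := Nat.mul_pos hc hcard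
      exact_mod_cast this
    have hu := hB.pure (VC V₀ c L) (Fin c × E) (fun _ => 1 / (c * Fintype.card E : ℝ)) 1
      (fun _ => by positivity) (by
        rw [Finset.sum_const, nsmul_eq_mul, Finset.card_univ, Fintype.card_prod, Fintype.card_fin]
        push_cast
        field_simp)
    obtain ⟨σ, hσ, hs, hreal⟩ := hSearch (VC V₀ c L) (Fin c × E) _ 1 D T 12 (tst chk ℓ r) hT
      (fun a => by
        unfold tst; rw [Tree.depth_ren, Tree.depth_map]; exact hD _ _ _) hu
    have hsum1 := hB.sum_one _ _ _ _ hreal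
    have hm := hB.map _ _ Bool (fun o => o.isNone) _ _ hreal
    have hcost : 4 * T * (1 + D) * 12 = 48 * T * (D + 1) := by ring
    rw [hcost] at hm
    refine ⟨_, hm, fun x hx => ?_, fun x hx => ?_⟩
    · -- all valid
      have hz : ∀ a, condDist (fun (_ : VC V₀ c L → Bool) (_ : Fin c × E) =>
          1 / (c * Fintype.card E : ℝ)) (fun x a => (tst chk ℓ r a).eval x = true) σ x (some a)
            = 0 := by
        intro a
        have hv := hx a.1 a.2
        have : ¬ ((tst chk ℓ r a).eval x = true) := by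
          rw [eval_tst, hv]; simp
        exact if_neg this
      have h1 := hsum1 x
      rw [Fintype.sum_option] at h1 ⊢
      simp only [hz, Finset.sum_const_zero, add_zero] at h1
      simp only [Option.isNone_none, if_true, hz, ite_self, Finset.sum_const_zero, add_zero]
      exact h1.ge
    · push Not at hx
      obtain ⟨i, hi⟩ := hx
      unfold valid at hi
      push Not at hi
      obtain ⟨e, he⟩ := hi
      have hsx : 1 - (3 / 4 : ℝ) ^ 12 ≤ σ x := by
        apply hs x
        have hmem : (i, e) ∈ univ.filter (fun a => (tst chk ℓ r a).eval x = true) := by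
          rw [Finset.mem_filter]
          refine ⟨Finset.mem_univ _, ?_⟩
          rw [eval_tst]
          simpa using he
        have hge : 1 / (c * Fintype.card E : ℝ) ≤
            ∑ a ∈ univ.filter (fun a => (tst chk ℓ r a).eval x = true),
              1 / (c * Fintype.card E : ℝ) :=
          Finset.single_le_sum (f := fun _ => 1 / (c * Fintype.card E : ℝ))
            (fun a _ => by positivity) hmem
        have hT2 : (c * Fintype.card E : ℝ) ≤ (T : ℝ) ^ 2 := by exact_mod_cast hcE
        calc (1 : ℝ) = 1 / (c * Fintype.card E : ℝ) * (c * Fintype.card E : ℝ) := by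
              field_simp
          _ ≤ _ := mul_le_mul hge hT2 hcE0.le (by positivity)
      have h1 := hsum1 x
      rw [Fintype.sum_option] at h1 ⊢
      have hn : condDist (fun (_ : VC V₀ c L → Bool) (_ : Fin c × E) =>
          1 / (c * Fintype.card E : ℝ)) (fun x a => (tst chk ℓ r a).eval x = true) σ x none
            = 1 - σ x := rfl
      rw [hn] at h1
      simp only [Option.isNone_none, Option.isNone_some, if_true, if_false,
        Bool.true_eq_false, zero_add]
      have h2 : (2 : ℝ) / 3 ≤ σ x := by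
        refine le_trans ?_ hsx
        norm_num
      linarith
  choose R hR hRt hRf using h3
  -- stage 2
  let ptr : (Fin (c * L) → Bool) → Fin c → B L := fun w i l => w (finProdFinEquiv (i, l))
  have h2 : ∀ ℓ : B c, Realizable (fun x b => if x (Sum.inr (Sum.inl ℓ)) = true then
      R ℓ (fun i l => x (Sum.inr (Sum.inr (ℓ, i, l)))) x b else if b = false then (1 : ℝ) else 0)
      ((c * L + 1) + 48 * T * (D + 1)) := by
    intro ℓ
    have ht := hTree (VC V₀ c L) (Bool × (Fin (c * L) → Bool)) (tr V₀ ℓ) (c * L + 1)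
      (depth_tr ℓ).le
    have hb := hBind _ _ Bool _ _ (fun pw x b => if pw.1 = true then R ℓ (ptr pw.2) x b else
      if b = false then (1 : ℝ) else 0) (48 * T * (D + 1)) ht (fun pw => by
        rcases pw with ⟨p, w⟩
        cases p with
        | true => simpa using hR ℓ (ptr w)
        | false =>
          have := hB.pure (VC V₀ c L) Bool (fun b => if b = false then (1 : ℝ) else 0)
            (48 * T * (D + 1)) (fun b => by split_ifs <;> norm_num) (by simp)
          simpa using this)
    convert hb using 1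
    funext x b
    rw [Finset.sum_eq_single ((tr V₀ ℓ).eval x)]
    · rw [if_pos rfl, one_mul, eval_tr]
      have : ptr (fun m => x (Sum.inr (Sum.inr
          (ℓ, (finProdFinEquiv.symm m).1, (finProdFinEquiv.symm m).2)))) =
          fun i l => x (Sum.inr (Sum.inr (ℓ, i, l))) := by
        funext i l
        show x (Sum.inr (Sum.inr (ℓ, (finProdFinEquiv.symm (finProdFinEquiv (i, l))).1,
          (finProdFinEquiv.symm (finProdFinEquiv (i, l))).2))) = _
        rw [Equiv.symm_apply_apply]
      simp only [this]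
    · intro pw _ hpw
      rw [if_neg (fun h => hpw h.symm), zero_mul]
    · intro h; exact absurd (Finset.mem_univ _) h
  have hfin := hBind _ _ Bool _ _ _ _ h1 h2
  have hcost : c * q + c * L + 1 + 48 * T * (D + 1) =
      c * q + ((c * L + 1) + 48 * T * (D + 1)) := by ring
  rw [hcost]
  refine ⟨_, hfin, fun x => ?_⟩
  have hpr1 : ∑ ℓ : B c, ∏ i, P (fun v => x (Sum.inl (i, v))) (ℓ i) = 1 := hB.sum_one _ _ _ _ h1 x
  have hpr0 : ∀ ℓ : B c, 0 ≤ ∏ i, P (fun v => x (Sum.inl (i, v))) (ℓ i) :=
    fun ℓ => hB.nonneg _ _ _ _ h1 x ℓ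
  have hst0 := fun ℓ => hB.nonneg _ _ _ _ (h2 ℓ) x
  by_cases hF : ∃ ℓ : B c, x (Sum.inr (Sum.inl ℓ)) = true ∧
    ∀ i, valid chk (ℓ i) (fun l => x (Sum.inr (Sum.inr (ℓ, i, l)))) (fun v => x (Sum.inl (i, v)))
  · have hFv : FCS (c := c) chk x = true := by
      unfold FCS; exact decide_eq_true hF
    rw [hFv]
    obtain ⟨ℓ, hpres, hv⟩ := hF
    have hP0 : ∀ X b, 0 ≤ P X b := hB.nonneg _ _ _ _ hP
    have hP1 : ∀ X b, P X b ≤ 1 := by
      intro X b
      rw [← hB.sum_one _ _ _ _ hP X]
      exact Finset.single_le_sum (f := fun b => P X b) (fun b _ => hP0 X b) (Finset.mem_univ b)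
    have hprod : 11 / 12 ≤ ∏ i, P (fun v => x (Sum.inl (i, v))) (ℓ i) := by
      refine le_trans ?_ (one_sub_sum_le_prod univ _ (fun i => hP0 _ _) (fun i => hP1 _ _))
      have : ∑ i : Fin c, (1 - P (fun v => x (Sum.inl (i, v))) (ℓ i)) ≤ ∑ _i : Fin c, err :=
        Finset.sum_le_sum (fun i _ => by linarith [hval _ _ _ (hv i)])
      rw [Finset.sum_const, nsmul_eq_mul, Finset.card_univ, Fintype.card_fin] at this
      linarith
    have hR1 := hRt ℓ (fun i l => x (Sum.inr (Sum.inr (ℓ, i, l)))) x hv
    refine le_trans ?_ (Finset.single_le_sum (f := fun ℓ : B c =>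
      (∏ i, P (fun v => x (Sum.inl (i, v))) (ℓ i)) * (if x (Sum.inr (Sum.inl ℓ)) = true then
      R ℓ (fun i l => x (Sum.inr (Sum.inr (ℓ, i, l)))) x true else
        if true = false then (1 : ℝ) else 0))
      (fun ℓ _ => mul_nonneg (hpr0 ℓ) (hst0 ℓ true)) (Finset.mem_univ ℓ))
    simp only [hpres, if_true]
    nlinarith
  · have hFv : FCS (c := c) chk x = false := by
      unfold FCS; exact decide_eq_false hF
    rw [hFv]
    push Not at hF
    calc (2 / 3 : ℝ) = ∑ ℓ : B c, (∏ i, P (fun v => x (Sum.inl (i, v))) (ℓ i)) * (2 / 3) := by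
          rw [← Finset.sum_mul, hpr1, one_mul]
      _ ≤ _ := Finset.sum_le_sum (fun ℓ _ => mul_le_mul_of_nonneg_left ?_ (hpr0 ℓ))
    split_ifs with hp
    · refine hRf ℓ _ x ?_
      push Not
      exact hF ℓ hp
    · norm_num
    · contradiction

end Crest.Agent.R350
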