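import Crest.Agent.R350.QLib

set_option autoImplicit false

open Finset Classical

namespace Crest.Agent.R350

open QL in
/-- A2 -/
theorem realBind : RealBind := by
  intro V α β _ _ P q₁ R q₂ hP hR
  haveI := nonempty_of_realizable hP
  exact realizable_of_preal ((preal_of_realizable hP).bind (fun a => preal_of_realizable (hR a)))

open QL in
theorem realMono (hb : RealBasic) (hbind : RealBind) : RealMono := by
  intro V α _ _ _ P q q' hq hP
  obtain ⟨d, rfl⟩ := Nat.exists_eq_add_of_le hq
  have h1 := hbind V α α P q (fun a _ b => if b = a then 1 else 0) d hP (fun a =>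
    hb.pure V α (fun b => if b = a then 1 else 0) d (fun b => by split_ifs <;> norm_num) (by simp))
  have h2 : (fun x b => ∑ a, P x a * (if b = a then (1:ℝ) else 0)) = P := by
    funext x b
    simp
  simpa only [h2] using h1

end Crest.Agent.R350
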