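import Crest.Agent.R350.QLib

set_option autoImplicit false

open Finset Classical

namespace Crest.Agent.R350

open QL in
/-- A3 -/
theorem realReindex : RealReindex := by
  intro V V' α _ _ ι P q hP
  haveI := nonempty_of_realizable hP
  haveI : Nonempty V := ⟨ι (Classical.arbitrary V')⟩
  exact realizable_of_preal ((preal_of_realizable hP).reindex ι)

end Crest.Agent.R350
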