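import Crest.Agent.R350.QLib

set_option autoImplicit false
set_option linter.unusedSectionVars false

open Finset Classical

namespace Crest.Agent.R350
namespace QL

section ip
variable {E : Type} [Fintype E]

/-- inner product -/
noncomputable def ipc (ψ φ : E → ℂ) : ℂ := ∑ e, (starRingEnd ℂ) (ψ e) * φ e

theorem ipc_self (ψ : E → ℂ) : ipc ψ ψ = ((nsq ψ : ℝ) : ℂ) := by
  unfold ipc nsq
  push_cast
  refine Finset.sum_congr rfl fun e _ => ?_
  rw [← Complex.conj_mul']

theorem ipc_add_right (ψ φ χ : E → ℂ) : ipc ψ (φ + χ) = ipc ψ φ + ipc ψ χ := by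
  simp [ipc, mul_add, Finset.sum_add_distrib]

theorem ipc_add_left (ψ φ χ : E → ℂ) : ipc (ψ + φ) χ = ipc ψ χ + ipc φ χ := by
  simp [ipc, add_mul, Finset.sum_add_distrib]

theorem ipc_smul_right (ψ φ : E → ℂ) (c : ℂ) : ipc ψ (c • φ) = c * ipc ψ φ := by
  simp [ipc, Finset.mul_sum, mul_left_comm]

theorem ipc_smul_left (ψ φ : E → ℂ) (c : ℂ) :
    ipc (c • ψ) φ = (starRingEnd ℂ) c * ipc ψ φ := by
  simp [ipc, Finset.mul_sum, mul_assoc]

theorem ipc_conj (ψ φ : E → ℂ) : (starRingEnd ℂ) (ipc ψ φ) = ipc φ ψ := by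
  simp [ipc, map_sum, mul_comm]

/-- norm preserving implies inner product preserving -/
theorem IsI.ipc {U : (E → ℂ) →ₗ[ℂ] (E → ℂ)} (h : IsI U) (ψ φ : E → ℂ) :
    ipc (U ψ) (U φ) = ipc ψ φ := by
  have key : ∀ c : ℂ, c * QL.ipc (U ψ) (U φ) + (starRingEnd ℂ) (c * QL.ipc (U ψ) (U φ)) =
      c * QL.ipc ψ φ + (starRingEnd ℂ) (c * QL.ipc ψ φ) := by
    intro c
    have h2 : ((nsq (U (ψ + c • φ)) : ℝ) : ℂ) = ((nsq (ψ + c • φ) : ℝ) : ℂ) := by rw [h]
    rw [← ipc_self, ← ipc_self] at h2
    rw [map_add, map_smul] at h2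
    simp only [ipc_add_left, ipc_add_right, ipc_smul_left, ipc_smul_right] at h2
    have h3 : ((nsq (U ψ) : ℝ) : ℂ) = ((nsq ψ : ℝ) : ℂ) := by rw [h]
    have h4 : ((nsq (U φ) : ℝ) : ℂ) = ((nsq φ : ℝ) : ℂ) := by rw [h]
    rw [← ipc_self, ← ipc_self] at h3 h4
    rw [h3, h4] at h2
    rw [map_mul, map_mul, ipc_conj, ipc_conj]
    linear_combination h2
  have h1 := key 1
  have h2 := key Complex.I
  simp only [map_mul, Complex.conj_I, one_mul, map_one] at h1 h2
  have h3 : Complex.I * (QL.ipc (U ψ) (U φ) - (starRingEnd ℂ) (QL.ipc (U ψ) (U φ)) -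
      (QL.ipc ψ φ - (starRingEnd ℂ) (QL.ipc ψ φ))) = 0 := by
    linear_combination h2
  have h4 := (mul_eq_zero.1 h3).resolve_left Complex.I_ne_zero
  linear_combination (1 / 2) * h1 + (1 / 2) * h4

/-- the reflection `2|ψ⟩⟨ψ| - 1` -/
noncomputable def refl (ψ : E → ℂ) : (E → ℂ) →ₗ[ℂ] (E → ℂ) where
  toFun φ := (2 * ipc ψ φ) • ψ - φ
  map_add' φ χ := by
    rw [ipc_add_right]
    funext e
    simp only [Pi.sub_apply, Pi.smul_apply, Pi.add_apply, smul_eq_mul]
    ring
  map_smul' c φ := by
    rw [ipc_smul_right]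
    funext e
    simp only [Pi.sub_apply, Pi.smul_apply, smul_eq_mul, RingHom.id_apply]
    ring

theorem refl_apply (ψ φ : E → ℂ) : refl ψ φ = (2 * ipc ψ φ) • ψ - φ := rfl

theorem isI_refl {ψ : E → ℂ} (h : nsq ψ = 1) : IsI (refl ψ) := by
  intro φ
  have h1 : ((nsq (refl ψ φ) : ℝ) : ℂ) = ((nsq φ : ℝ) : ℂ) := by
    rw [← ipc_self, ← ipc_self, refl_apply]
    have h2 : (2 * ipc ψ φ) • ψ - φ = (2 * ipc ψ φ) • ψ + (-1 : ℂ) • φ := by
      funext e; simp [sub_eq_add_neg]
    rw [h2]
    simp only [ipc_add_left, ipc_add_right, ipc_smul_left, ipc_smul_right]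
    simp only [ipc_self, h]
    have h3 : (starRingEnd ℂ) (2 * ipc ψ φ) = 2 * ipc φ ψ := by
      rw [map_mul, ipc_conj, map_ofNat]
    rw [h3]
    simp
    ring
  exact_mod_cast h1

/-- the reflection in the good set -/
noncomputable def sG (S : E → Prop) : (E → ℂ) →ₗ[ℂ] (E → ℂ) where
  toFun φ := fun e => if S e then - φ e else φ e
  map_add' φ χ := by
    funext e
    simp only [Pi.add_apply]
    split_ifs <;> ring
  map_smul' c φ := by
    funext e
    simp only [Pi.smul_apply, RingHom.id_apply, smul_eq_mul]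
    split_ifs <;> ring

theorem sG_apply (S : E → Prop) (φ : E → ℂ) (e : E) : sG S φ e = if S e then - φ e else φ e := rfl

theorem isI_sG (S : E → Prop) : IsI (sG S) := by
  intro φ
  unfold nsq
  refine Finset.sum_congr rfl fun e _ => ?_
  rw [sG_apply]
  split_ifs <;> simp

end ip

/-! ### the amplitudes -/

/-- amplitude factors of the good and of the bad part after `j` iterations -/
noncomputable def ab (p : ℝ) : ℕ → ℝ × ℝ
  | 0 => (1, 1)
  | j + 1 => ((ab p j).1 * (1 - 2 * p) + 2 * (ab p j).2 * (1 - p),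
      (ab p j).2 * (1 - 2 * p) - 2 * (ab p j).1 * p)

theorem ab_inv (p : ℝ) (j : ℕ) : (ab p j).1 ^ 2 * p + (ab p j).2 ^ 2 * (1 - p) = 1 := by
  induction j with
  | zero => simp [ab]
  | succ j ih =>
    simp only [ab]
    linear_combination ih

theorem ab_sin (θ : ℝ) (j : ℕ) :
    (ab (Real.sin θ ^ 2) j).1 * Real.sin θ = Real.sin ((2 * j + 1) * θ) ∧
    (ab (Real.sin θ ^ 2) j).2 * Real.cos θ = Real.cos ((2 * j + 1) * θ) := by
  induction j with
  | zero => simp [ab]
  | succ j ih =>
    obtain ⟨h1, h2⟩ := ih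
    have hc : Real.cos θ ^ 2 = 1 - Real.sin θ ^ 2 := by
      have := Real.sin_sq_add_cos_sq θ; linarith
    have e1 : (2 * ((j + 1 : ℕ) : ℝ) + 1) * θ = (2 * j + 1) * θ + 2 * θ := by push_cast; ring
    rw [e1, Real.sin_add, Real.cos_add, ← h1, ← h2, Real.sin_two_mul, Real.cos_two_mul]
    simp only [ab]
    constructor
    · linear_combination (-2 * (ab (Real.sin θ ^ 2) j).1 * Real.sin θ - 2 *
        (ab (Real.sin θ ^ 2) j).2 * Real.sin θ) * hc
    · linear_combination (-2 * (ab (Real.sin θ ^ 2) j).2 * Real.cos θ) * hc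

theorem sum_sin_sq (θ : ℝ) (T : ℕ) :
    (∑ j ∈ Finset.range T, Real.sin ((2 * j + 1) * θ) ^ 2) * (4 * Real.sin (2 * θ)) =
      2 * T * Real.sin (2 * θ) - Real.sin (4 * T * θ) := by
  induction T with
  | zero => simp
  | succ T ih =>
    rw [Finset.sum_range_succ, add_mul, ih]
    have e1 : (4 * ((T + 1 : ℕ) : ℝ) * θ) = (2 * ((2 * T + 1) * θ)) + 2 * θ := by push_cast; ring
    have e2 : (4 * (T : ℝ) * θ) = (2 * ((2 * T + 1) * θ)) - 2 * θ := by ring
    rw [e1, e2, Real.sin_add, Real.sin_sub, Real.cos_two_mul ((2 * T + 1) * θ)]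
    have h := Real.sin_sq_add_cos_sq ((2 * T + 1) * θ)
    push_cast
    linear_combination (4 * Real.sin (2 * θ)) * h

/-- the averaging lemma -/
theorem avg_lower (p : ℝ) (T : ℕ) (hT : 1 ≤ T) (hp : p < 1 / 4) (hpT : 1 ≤ p * (T : ℝ) ^ 2) :
    1 / 4 * (T : ℝ) ≤ ∑ j ∈ Finset.range T, (ab p j).1 ^ 2 * p := by
  have hT0 : (0 : ℝ) < T := by exact_mod_cast hT
  have hp0 : 0 < p := by
    by_contra h
    push Not at h
    nlinarith [sq_nonneg (T : ℝ)]
  set θ := Real.arcsin (Real.sqrt p) with hθ
  have hs1 : Real.sqrt p ≤ 1 := by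
    exact Real.sqrt_le_iff.2 ⟨by norm_num, by linarith⟩
  have hsin : Real.sin θ = Real.sqrt p := Real.sin_arcsin (by linarith [Real.sqrt_nonneg p]) hs1
  have hsin2 : Real.sin θ ^ 2 = p := by rw [hsin, Real.sq_sqrt hp0.le]
  have hcos : Real.cos θ = Real.sqrt (1 - p) := by
    rw [hθ, Real.cos_arcsin, Real.sq_sqrt hp0.le]
  have hkey : ∀ j, (ab p j).1 ^ 2 * p = Real.sin ((2 * j + 1) * θ) ^ 2 := by
    intro j
    have := (ab_sin θ j).1
    rw [hsin2] at this
    rw [← this, mul_pow, hsin2]
  simp only [hkey]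
  -- sin 2θ ≥ 1/T
  have h1 : 1 ≤ Real.sin (2 * θ) * T := by
    rw [Real.sin_two_mul, hsin, hcos]
    have h2 : 1 / 2 ≤ Real.sqrt (1 - p) := by
      apply Real.le_sqrt_of_sq_le
      nlinarith
    have h3 : 1 ≤ Real.sqrt p * T := by
      have h4 : 1 ≤ (Real.sqrt p * T) ^ 2 := by
        rw [mul_pow, Real.sq_sqrt hp0.le]; exact hpT
      have h5 : 0 ≤ Real.sqrt p * T := by positivity
      nlinarith
    calc (1 : ℝ) ≤ Real.sqrt p * T := h3
      _ ≤ (2 * Real.sqrt (1 - p)) * (Real.sqrt p * T) := by
        have h5 : 0 ≤ Real.sqrt p * T := by positivity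
        nlinarith
      _ = 2 * Real.sqrt p * Real.sqrt (1 - p) * T := by ring
  have hs2 : 0 < Real.sin (2 * θ) := by
    by_contra h
    push Not at h
    nlinarith
  have h2 := sum_sin_sq θ T
  have h3 := Real.sin_le_one (4 * T * θ)
  by_contra hcon
  push Not at hcon
  have h4 := mul_lt_mul_of_pos_right hcon (by positivity : 0 < 4 * Real.sin (2 * θ))
  rw [h2] at h4
  nlinarith

/-! ### Grover iteration -/

section grover
variable {V : Type}

theorem grover {α : Type} [Fintype α] {P : (V → Bool) → α → ℝ} {q : ℕ} (h : PReal P q)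
    (G : α → Prop) (j : ℕ) :
    PReal (fun x (o : Option α) => match o with
      | none => 1 - (ab (∑ a ∈ univ.filter G, P x a) j).1 ^ 2 * (∑ a ∈ univ.filter G, P x a)
      | some a => if G a then (ab (∑ a ∈ univ.filter G, P x a) j).1 ^ 2 * P x a else 0)
      (q + j * (2 * q)) := by
  have hsum := h.sum_one
  obtain ⟨E, hE, τ, M, ψ, out, h1, h2, h3⟩ := h
  obtain ⟨M', g1, g2, g3⟩ := h1.exists_inv
  -- the iteration
  have hiter : ∀ j, ∃ N : (V → Bool) → ((E → ℂ) →ₗ[ℂ] (E → ℂ)), PQ τ (q + j * (2 * q)) N ∧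
      ∀ x, N x ψ = fun e => if G (out e) then ((ab (∑ a ∈ univ.filter G, P x a) j).1 : ℂ) * M x ψ e
        else ((ab (∑ a ∈ univ.filter G, P x a) j).2 : ℂ) * M x ψ e := by
    intro j
    induction j with
    | zero =>
      refine ⟨M, h1.congr_q (by ring), fun x => ?_⟩
      funext e
      simp [ab]
    | succ j ih =>
      obtain ⟨N, hN, hN2⟩ := ih
      refine ⟨fun x => M x ∘ₗ (refl ψ ∘ₗ (M' x ∘ₗ (sG (fun e => G (out e)) ∘ₗ N x))), ?_, ?_⟩
      · exact (h1.comp ((g1.comp (hN.left _ (isI_sG _))).left _ (isI_refl h2))).congr_q (by ring)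
      · intro x
        set p := ∑ a ∈ univ.filter G, P x a with hp
        -- the good weight
        have hgood : (∑ e, if G (out e) then ‖M x ψ e‖ ^ 2 else 0) = p := by
          rw [hp, Finset.sum_filter]
          have : ∀ a, (if G a then P x a else 0) =
              ∑ e, if out e = a then (if G (out e) then ‖M x ψ e‖ ^ 2 else 0) else 0 := by
            intro a
            by_cases ha : G a
            · rw [if_pos ha, h3]
              refine Finset.sum_congr rfl fun e _ => ?_
              by_cases he : out e = a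
              · simp [he, ha]
              · simp [he]
            · rw [if_neg ha]
              symm
              refine Finset.sum_eq_zero fun e _ => ?_
              by_cases he : out e = a
              · simp [he, ha]
              · simp [he]
          simp only [this]
          rw [Finset.sum_comm]
          refine Finset.sum_congr rfl fun e _ => ?_
          rw [Finset.sum_ite_eq Finset.univ (out e)]
          simp
        have hall : (∑ e, ‖M x ψ e‖ ^ 2) = 1 := by
          rw [← h2]; exact h1.isI x ψ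
        have hbad : (∑ e, if G (out e) then 0 else ‖M x ψ e‖ ^ 2) = 1 - p := by
          rw [← hgood, ← hall, ← Finset.sum_sub_distrib]
          refine Finset.sum_congr rfl fun e _ => ?_
          split_ifs <;> ring
        simp only [LinearMap.comp_apply]
        set χ : E → ℂ := sG (fun e => G (out e)) (N x ψ) with hχ
        have hN3 : ∀ e, N x ψ e = if G (out e) then ((ab p j).1 : ℂ) * M x ψ e
            else ((ab p j).2 : ℂ) * M x ψ e := fun e => by rw [hN2]
        have hχ2 : ∀ e, χ e = if G (out e) then (-((ab p j).1 : ℂ)) * M x ψ e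
            else ((ab p j).2 : ℂ) * M x ψ e := by
          intro e
          rw [hχ, sG_apply, hN3]
          by_cases hg : G (out e)
          · simp [hg]
          · simp [hg]
        -- inner product
        have hip0 : ipc (M x ψ) χ = (-((ab p j).1 : ℂ)) *
            ((∑ e, if G (out e) then ‖M x ψ e‖ ^ 2 else 0 : ℝ) : ℂ) + ((ab p j).2 : ℂ) *
            ((∑ e, if G (out e) then 0 else ‖M x ψ e‖ ^ 2 : ℝ) : ℂ) := by
          unfold ipc
          push_cast
          rw [Finset.mul_sum, Finset.mul_sum, ← Finset.sum_add_distrib]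
          refine Finset.sum_congr rfl fun e _ => ?_
          rw [hχ2]
          have h5 := Complex.conj_mul' (M x ψ e)
          by_cases hg : G (out e)
          · simp only [hg, if_true, Complex.ofReal_pow, Complex.ofReal_zero]
            linear_combination (-((ab p j).1 : ℂ)) * h5
          · simp only [hg, if_false, Complex.ofReal_pow, Complex.ofReal_zero]
            linear_combination (((ab p j).2 : ℂ)) * h5
        have hip : ipc ψ (M' x χ) = ((-(ab p j).1 * p + (ab p j).2 * (1 - p) : ℝ) : ℂ) := by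
          have h4 : ipc ψ (M' x χ) = ipc (M x ψ) χ := by
            rw [← (h1.isI x).ipc ψ (M' x χ), g3]
          rw [h4, hip0, hgood, hbad]
          push_cast
          ring
        rw [refl_apply, map_sub, map_smul, g3, hip]
        funext e
        simp only [Pi.sub_apply, Pi.smul_apply, smul_eq_mul, hχ2, ab]
        push_cast
        split_ifs <;> ring
  obtain ⟨N, hN, hN2⟩ := hiter j
  have hP' : ∀ x a, G a → (∑ e, if out e = a then ‖N x ψ e‖ ^ 2 else 0) =
      (ab (∑ a ∈ univ.filter G, P x a) j).1 ^ 2 * P x a := by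
    intro x a ha
    rw [h3, Finset.mul_sum]
    refine Finset.sum_congr rfl fun e _ => ?_
    by_cases he : out e = a
    · rw [if_pos he, if_pos he, hN2]
      simp only [he, ha, if_true, norm_mul, mul_pow, Complex.norm_real, Real.norm_eq_abs, sq_abs]
    · simp [he]
  have hreal : PReal (fun x (o : Option α) => ∑ e, if (if G (out e) then some (out e) else none) = o
      then ‖N x ψ e‖ ^ 2 else 0) (q + j * (2 * q)) :=
    ⟨E, hE, τ, N, ψ, fun e => if G (out e) then some (out e) else none, hN, h2, fun x a => by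
      refine Finset.sum_congr rfl fun e _ => ?_
      by_cases h : (if G (out e) then some (out e) else none) = a
      · simp only [h, if_true]
      · simp only [h, if_false]⟩
  have hs := hreal.sum_one
  refine hreal.congr ?_
  have hsome : ∀ x a, (∑ e, if (if G (out e) then some (out e) else none) = some a
      then ‖N x ψ e‖ ^ 2 else 0) =
      if G a then (ab (∑ a ∈ univ.filter G, P x a) j).1 ^ 2 * P x a else 0 := by
    intro x a
    by_cases ha : G a
    · rw [if_pos ha, ← hP' x a ha]
      refine Finset.sum_congr rfl fun e _ => ?_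
      by_cases he : out e = a
      · simp [he, ha]
      · by_cases hg : G (out e)
        · simp [he, hg]
        · simp [he, hg]
    · rw [if_neg ha]
      refine Finset.sum_eq_zero fun e _ => ?_
      by_cases he : out e = a
      · simp [he, ha]
      · by_cases hg : G (out e)
        · simp [he, hg]
        · simp [hg]
  intro x o
  rcases o with _ | a
  · have h5 := hs x
    rw [Fintype.sum_option] at h5
    simp only [hsome] at h5
    have h6 : (∑ a, if G a then (ab (∑ a ∈ univ.filter G, P x a) j).1 ^ 2 * P x a else 0) =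
        (ab (∑ a ∈ univ.filter G, P x a) j).1 ^ 2 * (∑ a ∈ univ.filter G, P x a) := by
      rw [← Finset.sum_filter, Finset.mul_sum]
    rw [h6] at h5
    simp only
    linarith
  · exact hsome x a

theorem PReal.mono {α : Type} [Fintype α] {P : (V → Bool) → α → ℝ} {q q' : ℕ} (hq : q ≤ q')
    (h : PReal P q) : PReal P q' := by
  obtain ⟨d, rfl⟩ := Nat.exists_eq_add_of_le hq
  have h1 := h.bind (R := fun a _ b => if b = a then 1 else 0) (q₂ := d) (fun a =>
    PReal.pure (fun b => if b = a then 1 else 0) d (fun b => by split_ifs <;> norm_num) (by simp))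
  refine h1.congr fun x b => ?_
  simp

theorem PReal.congr_q {α : Type} {P : (V → Bool) → α → ℝ} {q q' : ℕ} (h : PReal P q)
    (hq : q = q') : PReal P q' := hq ▸ h

end grover

end QL

open QL in
/-- A4 -/
theorem realAA (_ : RealBasic) (_ : RealBind) (_ : RealMono) : RealAA := by
  intro V α _ _ _ P q T G hT hP0
  have hP := preal_of_realizable hP0
  have hnn := hP.nonneg
  have hsum := hP.sum_one
  have hT0 : (0 : ℝ) < T := by exact_mod_cast hT
  -- notation
  set p : (V → Bool) → ℝ := fun x => ∑ a ∈ univ.filter G, P x a with hp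
  have hp0 : ∀ x, 0 ≤ p x := fun x => Finset.sum_nonneg fun a _ => hnn x a
  have hp1 : ∀ x, p x ≤ 1 := fun x => by
    rw [← hsum x]
    exact Finset.sum_le_sum_of_subset_of_nonneg (Finset.filter_subset _ _) (fun a _ _ => hnn x a)
  set A : (V → Bool) → ℝ := fun x => (∑ j ∈ Finset.range T, (ab (p x) j).1 ^ 2) / T with hA
  have hA0 : ∀ x, 0 ≤ A x := fun x => by positivity
  have hA1 : ∀ x, p x * A x ≤ 1 := by
    intro x
    rw [hA]
    simp only
    rw [mul_div_assoc', div_le_one hT0, Finset.mul_sum]
    calc ∑ j ∈ Finset.range T, p x * (ab (p x) j).1 ^ 2 ≤ ∑ j ∈ Finset.range T, (1 : ℝ) := by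
          refine Finset.sum_le_sum fun j _ => ?_
          have h1 := ab_inv (p x) j
          have h2 : 0 ≤ (ab (p x) j).2 ^ 2 * (1 - p x) :=
            mul_nonneg (sq_nonneg _) (by linarith [hp1 x])
          linarith
      _ = T := by simp
  refine ⟨fun x => p x * (1 + (1 - p x) * A x), fun x => ⟨?_, ?_⟩, fun x hx => ?_, ?_⟩
  · exact mul_nonneg (hp0 x) (by
      have := mul_nonneg (by linarith [hp1 x] : 0 ≤ 1 - p x) (hA0 x)
      linarith)
  · have h1 : 0 ≤ (1 - p x) * (1 - p x * A x) :=
      mul_nonneg (by linarith [hp1 x]) (by linarith [hA1 x])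
    nlinarith
  · by_cases h4 : p x < 1 / 4
    · have h5 := avg_lower (p x) T hT h4 hx
      have h6 : 1 / 4 ≤ p x * A x := by
        rw [hA]
        simp only
        rw [mul_div_assoc', le_div_iff₀ hT0, Finset.mul_sum]
        refine h5.trans (le_of_eq ?_)
        refine Finset.sum_congr rfl fun j _ => ?_
        ring
      have h7 : (1 - p x) * (1 / 4) ≤ (1 - p x) * (p x * A x) :=
        mul_le_mul_of_nonneg_left h6 (by linarith [hp1 x])
      have h8 := hp0 x
      nlinarith
    · push Not at h4
      have h5 : 0 ≤ p x * ((1 - p x) * A x) :=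
        mul_nonneg (hp0 x) (mul_nonneg (by linarith [hp1 x]) (hA0 x))
      nlinarith
  · -- realizability
    have hstage1 := grover hP G 0
    have hstage2 : ∀ j : Fin T, PReal (fun x (o : Option α) => match o with
        | none => 1 - (ab (∑ a ∈ univ.filter G, P x a) j).1 ^ 2 * (∑ a ∈ univ.filter G, P x a)
        | some a => if G a then (ab (∑ a ∈ univ.filter G, P x a) j).1 ^ 2 * P x a else 0)
        (q + (T - 1) * (2 * q)) := by
      intro j
      refine (grover hP G j).mono ?_
      have : (j : ℕ) ≤ T - 1 := by omega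
      nlinarith [Nat.mul_le_mul_right (2 * q) this]
    have hunif : PReal (fun (_ : V → Bool) (_ : Fin T) => (1 / T : ℝ)) 0 := by
      refine PReal.pure (fun _ => (1 / T : ℝ)) 0 (fun _ => by positivity) ?_
      simp
      field_simp
    have hst2 := hunif.bind hstage2
    have hall := hstage1.bind (R := fun o x o' => match o with
      | none => ∑ j : Fin T, (1 / T : ℝ) * (match o' with
        | none => 1 - (ab (∑ a ∈ univ.filter G, P x a) j).1 ^ 2 * (∑ a ∈ univ.filter G, P x a)
        | some a => if G a then (ab (∑ a ∈ univ.filter G, P x a) j).1 ^ 2 * P x a else 0)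
      | some a => if o' = some a then 1 else 0) (q₂ := 0 + (q + (T - 1) * (2 * q))) (by
        intro o
        rcases o with _ | a
        · exact hst2
        · exact PReal.pure (fun o' => if o' = some a then (1 : ℝ) else 0) _
            (fun b => by split_ifs <;> norm_num) (by simp))
    apply realizable_of_preal
    refine (hall.congr ?_).mono ?_
    · intro x o'
      have hsumj : ∀ a, (∑ j : Fin T, (1 / T : ℝ) * (if G a then (ab (p x) j).1 ^ 2 * P x a else 0))
          = if G a then A x * P x a else 0 := by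
        intro a
        by_cases ha : G a
        · simp only [ha, if_true]
          rw [hA]
          simp only
          rw [Finset.sum_range (fun j => (ab (p x) j).1 ^ 2), ← Finset.mul_sum, ← Finset.sum_mul]
          ring
        · simp [ha]
      have hsumn : (∑ j : Fin T, (1 / T : ℝ) * (1 - (ab (p x) j).1 ^ 2 * p x))
          = 1 - A x * p x := by
        rw [← Finset.mul_sum, Finset.sum_sub_distrib, ← Finset.sum_mul, hA]
        simp only
        rw [Finset.sum_range (fun j => (ab (p x) j).1 ^ 2)]
        simp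
        field_simp
      rw [Fintype.sum_option]
      rcases o' with _ | a
      · simp only [condDist]
        change (1 - (ab (p x) 0).1 ^ 2 * p x) * (∑ j : Fin T, (1 / T : ℝ) *
          (1 - (ab (p x) j).1 ^ 2 * p x)) + _ = _
        rw [hsumn]
        simp [ab]
        ring
      · simp only [condDist]
        change (1 - (ab (p x) 0).1 ^ 2 * p x) * (∑ j : Fin T, (1 / T : ℝ) *
          (if G a then (ab (p x) j).1 ^ 2 * P x a else 0)) + _ = _
        rw [hsumj]
        by_cases ha : G a
        · simp only [ha, if_true, ab]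
          have hpx : p x * (1 + (1 - p x) * A x) * P x a / (∑ a' ∈ univ.filter G, P x a') =
              (1 + (1 - p x) * A x) * P x a := by
            change p x * (1 + (1 - p x) * A x) * P x a / p x = _
            by_cases h0 : p x = 0
            · have h1 : P x a = 0 := by
                have := (Finset.sum_eq_zero_iff_of_nonneg (fun a _ => hnn x a)).1 h0 a (by
                  simp [ha])
                exact this
              rw [h1]; simp
            · field_simp
          rw [hpx]
          simp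
          rw [if_pos ha]
          ring
        · simp [ha]
    · rw [zero_add]
      obtain ⟨T', rfl⟩ := Nat.exists_eq_add_of_le hT
      simp only [Nat.add_sub_cancel_left, zero_mul, add_zero]
      nlinarith [Nat.zero_le (T' * q), Nat.zero_le q]

end Crest.Agent.R350
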