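import Crest.Agent.R350.Defs

set_option autoImplicit false

open Finset Classical

namespace Crest.Agent.R350

theorem chi_symm {s : ℕ} (a b : B s) : chi a b = chi b a := by
  unfold chi
  refine Finset.prod_congr rfl (fun i _ => ?_)
  rw [Bool.and_comm]

theorem Had_symm {s : ℕ} (a b : B s) : Had a b = Had b a := by
  unfold Had; rw [chi_symm]

theorem sgn_sq (b : Bool) : sgn b ^ 2 = 1 := by cases b <;> norm_num [sgn]
theorem sgn_mul_self (b : Bool) : sgn b * sgn b = 1 := by cases b <;> norm_num [sgn]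
theorem abs_sgn (b : Bool) : |sgn b| = 1 := by cases b <;> norm_num [sgn]

theorem chi_sq {s : ℕ} (a b : B s) : chi a b ^ 2 = 1 := by
  unfold chi
  rw [← Finset.prod_pow]
  refine Finset.prod_eq_one (fun i _ => ?_)
  split_ifs <;> norm_num

theorem abs_chi {s : ℕ} (a b : B s) : |chi a b| = 1 := by
  have h := chi_sq a b
  have h2 : |chi a b| ^ 2 = 1 := by rw [sq_abs]; exact h
  nlinarith [abs_nonneg (chi a b)]

/-- the sum of `chi a b * chi a' b` over `b`. -/
theorem chi_orth {s : ℕ} (a a' : B s) :
    ∑ b, chi a b * chi a' b = if a = a' then (2 : ℝ) ^ s else 0 := by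
  have h1 : ∀ b : B s, chi a b * chi a' b =
      ∏ i, ((if a i && b i then (-1 : ℝ) else 1) * (if a' i && b i then (-1 : ℝ) else 1)) := by
    intro b; unfold chi; rw [← Finset.prod_mul_distrib]
  simp_rw [h1]
  have h2 := Finset.prod_univ_sum (fun _ : Fin s => (Finset.univ : Finset Bool))
    (fun i x => ((if a i && x then (-1 : ℝ) else 1) * (if a' i && x then (-1 : ℝ) else 1)))
  rw [Fintype.piFinset_univ] at h2
  rw [← h2]
  by_cases h : a = a'
  · subst h
    rw [if_pos rfl]
    have : ∀ i : Fin s, ∑ x : Bool,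
        ((if a i && x then (-1 : ℝ) else 1) * (if a i && x then (-1 : ℝ) else 1)) = 2 := by
      intro i
      rw [Fintype.sum_bool]
      cases a i <;> norm_num
    rw [Finset.prod_congr rfl (fun i _ => this i)]
    simp
  · rw [if_neg h]
    obtain ⟨i, hi⟩ : ∃ i, a i ≠ a' i := by
      by_contra hc
      push Not at hc
      exact h (funext hc)
    refine Finset.prod_eq_zero (Finset.mem_univ i) ?_
    rw [Fintype.sum_bool]
    revert hi
    cases a i <;> cases a' i <;> norm_num

theorem sqrt_pos' (s : ℕ) : 0 < Real.sqrt (2 ^ s) := Real.sqrt_pos.mpr (by positivity)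
theorem sqrt_mul_self' (s : ℕ) : Real.sqrt (2 ^ s) * Real.sqrt (2 ^ s) = 2 ^ s :=
  Real.mul_self_sqrt (by positivity)

/-- rows of the Hadamard matrix are orthonormal. -/
theorem had_orth {s : ℕ} (a a' : B s) :
    ∑ b, Had a b * Had a' b = if a = a' then (1 : ℝ) else 0 := by
  have h : ∀ b, Had a b * Had a' b = (chi a b * chi a' b) / 2 ^ s := by
    intro b
    unfold Had
    rw [div_mul_div_comm, sqrt_mul_self']
  simp_rw [h]
  rw [← Finset.sum_div, chi_orth]
  split_ifs
  · field_simp
  · simp

/-- columns of the Hadamard matrix are orthonormal. -/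
theorem had_orth' {s : ℕ} (b b' : B s) :
    ∑ a, Had a b * Had a b' = if b = b' then (1 : ℝ) else 0 := by
  rw [← had_orth b b']
  refine Finset.sum_congr rfl (fun a _ => ?_)
  rw [Had_symm a b, Had_symm a b']

theorem Had_sq {s : ℕ} (a b : B s) : Had a b ^ 2 = 1 / 2 ^ s := by
  unfold Had
  rw [div_pow, chi_sq, sq, sqrt_mul_self']

theorem abs_Had {s : ℕ} (a b : B s) : |Had a b| = 1 / Real.sqrt (2 ^ s) := by
  unfold Had
  rw [abs_div, abs_chi, abs_of_pos (sqrt_pos' s)]

theorem pathW_sq {k s : ℕ} (p : Fin (k + 1) → B s) : pathW p ^ 2 = 1 / (2 ^ s) ^ k := by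
  unfold pathW
  rw [← Finset.prod_pow]
  rw [Finset.prod_congr rfl (fun j _ => Had_sq _ _)]
  simp

theorem abs_pathW {k s : ℕ} (p : Fin (k + 1) → B s) :
    |pathW p| = 1 / (Real.sqrt (2 ^ s)) ^ k := by
  unfold pathW
  rw [Finset.abs_prod, Finset.prod_congr rfl (fun j _ => abs_Had _ _)]
  simp

/-- orthogonality of characters. -/
theorem chr_orth {V : Type} [Fintype V] (S S' : Finset V) :
    ∑ x : V → Bool, chr S x * chr S' x = if S = S' then (2 : ℝ) ^ (Fintype.card V) else 0 := by
  have h1 : ∀ x : V → Bool, chr S x * chr S' x =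
      ∏ v, ((if v ∈ S then sgn (x v) else 1) * (if v ∈ S' then sgn (x v) else 1)) := by
    intro x
    unfold chr
    rw [Finset.prod_mul_distrib, Finset.prod_ite_mem, Finset.prod_ite_mem]
    simp
  simp_rw [h1]
  have h2 := Finset.prod_univ_sum (fun _ : V => (Finset.univ : Finset Bool))
    (fun v x => ((if v ∈ S then sgn x else 1) * (if v ∈ S' then sgn x else 1)))
  rw [Fintype.piFinset_univ] at h2
  rw [← h2]
  by_cases h : S = S'
  · subst h
    rw [if_pos rfl]
    have : ∀ v : V, ∑ x : Bool,
        ((if v ∈ S then sgn x else 1) * (if v ∈ S then sgn x else 1)) = 2 := by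
      intro v
      rw [Fintype.sum_bool]
      by_cases hv : v ∈ S <;> simp [hv, sgn] <;> norm_num
    rw [Finset.prod_congr rfl (fun i _ => this i)]
    simp
  · rw [if_neg h]
    obtain ⟨v, hv⟩ : ∃ v, ¬ (v ∈ S ↔ v ∈ S') := by
      by_contra hc
      push Not at hc
      exact h (Finset.ext hc)
    refine Finset.prod_eq_zero (Finset.mem_univ v) ?_
    rw [Fintype.sum_bool]
    by_cases h1 : v ∈ S <;> by_cases h2 : v ∈ S'
    · exact absurd (iff_of_true h1 h2) hv
    · simp [h1, h2, sgn]
    · simp [h1, h2, sgn]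
    · exact absurd (iff_of_false h1 h2) hv

/-- Fourier inversion. -/
theorem fourier_inv {V : Type} [Fintype V] (g : (V → Bool) → ℝ) (x : V → Bool) :
    g x = ∑ S, coef g S * chr S x := by
  have hdual : ∀ y : V → Bool, ∑ S : Finset V, chr S y * chr S x
      = if y = x then (2 : ℝ) ^ (Fintype.card V) else 0 := by
    intro y
    have h1 : ∀ S : Finset V, chr S y * chr S x = ∏ v ∈ S, (sgn (y v) * sgn (x v)) := by
      intro S; unfold chr; rw [Finset.prod_mul_distrib]
    simp_rw [h1]
    rw [← Finset.powerset_univ, ← Finset.prod_one_add]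
    by_cases h : y = x
    · subst h
      rw [if_pos rfl]
      rw [Finset.prod_congr rfl (fun v _ => by rw [sgn_mul_self])]
      simp [Finset.card_univ]
      norm_num
    · rw [if_neg h]
      obtain ⟨v, hv⟩ : ∃ v, y v ≠ x v := by
        by_contra hc; push Not at hc; exact h (funext hc)
      refine Finset.prod_eq_zero (Finset.mem_univ v) ?_
      revert hv
      cases y v <;> cases x v <;> norm_num [sgn]
  unfold coef avg
  have h3 : ∀ S : Finset V, (∑ y, g y * chr S y) / 2 ^ (Fintype.card V) * chr S x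
      = (∑ y, g y * (chr S y * chr S x)) / 2 ^ (Fintype.card V) := by
    intro S
    rw [div_mul_eq_mul_div, Finset.sum_mul]
    congr 1
    exact Finset.sum_congr rfl (fun y _ => by ring)
  simp_rw [h3]
  rw [← Finset.sum_div, Finset.sum_comm]
  simp_rw [← Finset.mul_sum, hdual]
  simp

end Crest.Agent.R350
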