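import Mathlib
import Crest.Prelude.Def_QueryComplexity

/-!
# Row 350 (S0554): definitions and the list of closed Props (one per task).
See the table `r350_tasks` for the proofs.
-/

set_option autoImplicit false

open Finset Classical

namespace Crest.Agent.R350

/-! ## Decision trees over an arbitrary variable type, with arbitrary leaves -/

inductive Tree (V : Type) (α : Type) : Type where
  | leaf (a : α) : Tree V α
  | node (v : V) (t₀ t₁ : Tree V α) : Tree V α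

namespace Tree
variable {V V' α β : Type}

/-- value of the tree on input `x` -/
def eval (x : V → Bool) : Tree V α → α
  | leaf a => a
  | node v t₀ t₁ => if x v then t₁.eval x else t₀.eval x

/-- depth -/
def depth : Tree V α → ℕ
  | leaf _ => 0
  | node _ t₀ t₁ => max t₀.depth t₁.depth + 1

/-- the set of variables read on input `x` -/
noncomputable def reads (x : V → Bool) : Tree V α → Finset V
  | leaf _ => ∅
  | node v t₀ t₁ => insert v (if x v then t₁.reads x else t₀.reads x)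

/-- the number of nodes labelled by a variable in `S` on the path of `x` -/
noncomputable def cnt (S : V → Prop) (x : V → Bool) : Tree V α → ℕ
  | leaf _ => 0
  | node v t₀ t₁ => (if S v then 1 else 0) + (if x v then t₁.cnt S x else t₀.cnt S x)

/-- monadic bind -/
def bind (f : α → Tree V β) : Tree V α → Tree V β
  | leaf a => f a
  | node v t₀ t₁ => node v (t₀.bind f) (t₁.bind f)

/-- change the leaves -/
def map (f : α → β) : Tree V α → Tree V β
  | leaf a => leaf (f a)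
  | node v t₀ t₁ => node v (t₀.map f) (t₁.map f)

/-- rename the variables -/
def ren (f : V → V') : Tree V α → Tree V' α
  | leaf a => leaf a
  | node v t₀ t₁ => node (f v) (t₀.ren f) (t₁.ren f)

/-- substitute fixed values for the variables with `f v = none`, keep (and rename) the others. -/
def fix (f : V → V' ⊕ Bool) : Tree V α → Tree V' α
  | leaf a => leaf a
  | node v t₀ t₁ =>
    match f v with
    | Sum.inl u => node u (t₀.fix f) (t₁.fix f)
    | Sum.inr b => if b then t₁.fix f else t₀.fix f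

theorem eval_bind (x : V → Bool) (f : α → Tree V β) (t : Tree V α) :
    (t.bind f).eval x = (f (t.eval x)).eval x := by
  induction t with
  | leaf a => rfl
  | node v t₀ t₁ h₀ h₁ => simp only [bind, eval]; split_ifs <;> simp [h₀, h₁]

theorem eval_map (x : V → Bool) (f : α → β) (t : Tree V α) :
    (t.map f).eval x = f (t.eval x) := by
  induction t with
  | leaf a => rfl
  | node v t₀ t₁ h₀ h₁ => simp only [map, eval]; split_ifs <;> simp [h₀, h₁]

theorem eval_ren (x : V' → Bool) (f : V → V') (t : Tree V α) :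
    (t.ren f).eval x = t.eval (fun v => x (f v)) := by
  induction t with
  | leaf a => rfl
  | node v t₀ t₁ h₀ h₁ => simp only [ren, eval]; split_ifs <;> simp [h₀, h₁]

theorem depth_map (f : α → β) (t : Tree V α) : (t.map f).depth = t.depth := by
  induction t with
  | leaf a => rfl
  | node v t₀ t₁ h₀ h₁ => simp [map, depth, h₀, h₁]

theorem depth_ren (f : V → V') (t : Tree V α) : (t.ren f).depth = t.depth := by
  induction t with
  | leaf a => rfl
  | node v t₀ t₁ h₀ h₁ => simp [ren, depth, h₀, h₁]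

theorem depth_bind (f : α → Tree V β) (t : Tree V α) (d : ℕ) (hd : ∀ a, (f a).depth ≤ d) :
    (t.bind f).depth ≤ t.depth + d := by
  induction t with
  | leaf a => simpa [bind, depth] using hd a
  | node v t₀ t₁ h₀ h₁ =>
    simp only [bind, depth]
    have := max_le_max h₀ h₁
    omega

/-- read `n` variables into a function -/
def readAll : (n : ℕ) → (Fin n → V) → Tree V (Fin n → Bool)
  | 0, _ => leaf (fun i => i.elim0)
  | n + 1, v => node (v 0) ((readAll n (fun i => v i.succ)).map (Fin.cons false))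
      ((readAll n (fun i => v i.succ)).map (Fin.cons true))

theorem eval_readAll (x : V → Bool) : ∀ (n : ℕ) (v : Fin n → V),
    (readAll n v).eval x = fun i => x (v i)
  | 0, v => by funext i; exact i.elim0
  | n + 1, v => by
    funext i
    simp only [readAll, eval]
    split_ifs with h
    · rw [eval_map, eval_readAll x n]
      refine Fin.cases ?_ (fun j => ?_) i
      · simp [h]
      · simp
    · rw [eval_map, eval_readAll x n]
      refine Fin.cases ?_ (fun j => ?_) i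
      · simp [Bool.not_eq_true _ ▸ h]
      · simp

theorem depth_readAll : ∀ (n : ℕ) (v : Fin n → V), (readAll n v).depth = n
  | 0, _ => rfl
  | n + 1, v => by simp [readAll, depth, depth_map, depth_readAll n]

end Tree

/-! ## Quantum query algorithms with outcomes in `α`; randomized algorithms -/

section quantum
variable {V : Type} {W : Type}

/-- the oracle -/
def orac (x : V → Bool) (ψ : V × Bool × W → ℂ) : V × Bool × W → ℂ :=
  fun e => ψ (e.1, xor e.2.1 (x e.1), e.2.2)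

/-- the state after `t` oracle calls -/
def runState [Fintype V] [Fintype W] (U : ℕ → Matrix (V × Bool × W) (V × Bool × W) ℂ)
    (x : V → Bool) (ψ₀ : V × Bool × W → ℂ) : ℕ → V × Bool × W → ℂ
  | 0 => (U 0).mulVec ψ₀
  | t + 1 => (U (t + 1)).mulVec (orac x (runState U x ψ₀ t))

/-- The family of distributions `P x` (on `α`) is the output distribution of a quantum algorithm
with exactly `q` queries. -/
def Realizable {V α : Type} [Fintype V] (P : (V → Bool) → α → ℝ) (q : ℕ) : Prop :=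
  ∃ (W : Type) (_ : Fintype W) (U : ℕ → Matrix (V × Bool × W) (V × Bool × W) ℂ)
    (ψ₀ : V × Bool × W → ℂ) (out : V × Bool × W → α),
    (∀ t, U t ∈ Matrix.unitaryGroup (V × Bool × W) ℂ) ∧ ∑ e, ‖ψ₀ e‖ ^ 2 = 1 ∧
      ∀ x a, P x a = ∑ e, if out e = a then ‖runState U x ψ₀ q e‖ ^ 2 else 0

end quantum

/-- randomized algorithms over a general variable type -/
def RComp {V : Type} (f : (V → Bool) → Bool) (r : ℕ) : Prop :=
  ∃ (s : ℕ) (p : Fin s → ℝ) (T : Fin s → Tree V Bool),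
    (∀ j, 0 ≤ p j) ∧ ∑ j, p j = 1 ∧ (∀ j, (T j).depth ≤ r) ∧
      ∀ x, 2 / 3 ≤ ∑ j, if (T j).eval x = f x then p j else 0

/-- quantum algorithms over a general variable type -/
def QComp {V : Type} [Fintype V] (f : (V → Bool) → Bool) (q : ℕ) : Prop :=
  ∃ P : (V → Bool) → Bool → ℝ, Realizable P q ∧ ∀ x, 2 / 3 ≤ P x (f x)

/-! ## Indices, signs, Hadamard matrix, forrelation -/

/-- binary strings of length `s` (there are `2^s` of them). -/
abbrev B (s : ℕ) := Fin s → Bool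

/-- sign of a bit -/
def sgn (b : Bool) : ℝ := if b then -1 else 1

/-- `(-1)^{a·b}` -/
def chi {s : ℕ} (a b : B s) : ℝ := ∏ i, if a i && b i then (-1 : ℝ) else 1

/-- Hadamard matrix entry, `± 2^{-s/2}`. -/
noncomputable def Had {s : ℕ} (a b : B s) : ℝ := chi a b / Real.sqrt (2 ^ s)

/-- variables of one forrelation instance with `k+1` layers. -/
abbrev FV (k s : ℕ) := Fin (k + 1) × B s

/-- weight of a path -/
noncomputable def pathW {k s : ℕ} (p : Fin (k + 1) → B s) : ℝ :=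
  ∏ j : Fin k, Had (p j.succ) (p j.castSucc)

/-- the forrelation of an instance (path sum) -/
noncomputable def phi {k s : ℕ} (z : FV k s → Bool) : ℝ :=
  (∑ p : Fin (k + 1) → B s, pathW p * ∏ i, sgn (z (i, p i))) / 2 ^ s

/-- layer vectors: `vec z 0 = x⁽⁰⁾`, `vec z (i+1) = x⁽ⁱ⁺¹⁾ ∘ (Had · vec z i)`. -/
noncomputable def vec {k s : ℕ} (z : FV k s → Bool) : ℕ → B s → ℝ
  | 0 => fun a => sgn (z (0, a))
  | i + 1 => fun a =>
      (if h : i + 1 < k + 1 then sgn (z (⟨i + 1, h⟩, a)) else 1) * ∑ b, Had a b * vec z i b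

/-! ## Averages, Fourier analysis -/

section fourier
variable {V : Type} [Fintype V]

/-- average over the cube -/
noncomputable def avg (g : (V → Bool) → ℝ) : ℝ := (∑ x, g x) / 2 ^ (Fintype.card V)

/-- character -/
def chr {V : Type} (S : Finset V) (x : V → Bool) : ℝ := ∏ v ∈ S, sgn (x v)

/-- Fourier coefficient -/
noncomputable def coef (g : (V → Bool) → ℝ) (S : Finset V) : ℝ := avg fun x => g x * chr S x

/-- derivative `∂_S` of the multilinear extension of `g` at the point `z`. -/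
noncomputable def dz (g : (V → Bool) → ℝ) (S : Finset V) (z : V → ℝ) : ℝ :=
  ∑ S' ∈ univ.filter (fun S' => S ⊆ S'), coef g S' * ∏ v ∈ S' \ S, z v

end fourier

/-! ## C1: Fourier weight of decision trees at inner points -/

/-- C1. -/
def L1k : Prop :=
  ∀ (k p : ℕ), 1 ≤ p → ∃ C : ℝ, 0 < C ∧ ∀ (V : Type) [Fintype V] (T : Tree V ℝ) (d : ℕ),
    T.depth ≤ d → (∀ x, |T.eval x| ≤ 1) → ∀ (c : Finset V → ℝ), (∀ S, |c S| ≤ 1) →
    ∀ x' : V → Bool,
      |∑ S ∈ univ.filter (fun S : Finset V => S.card = k),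
          c S * dz (fun x => T.eval x) S (fun v => sgn (x' v) / 2)| ^ (2 * p)
        ≤ C * (d : ℝ) ^ (k * p) * (Fintype.card V : ℝ) ^ k

/-! ## C2: the Gaussian pair -/

/-- the pair density with scales `δ₁, δ₂`. -/
noncomputable def hpair {s : ℕ} (W : Finset (B s) → Finset (B s) → ℝ) (δ₁ δ₂ : ℝ)
    (y w : B s → Bool) : ℝ :=
  ∑ S : Finset (B s), ∑ S' : Finset (B s),
    δ₁ ^ S.card * δ₂ ^ S'.card * W S S' * chr S y * chr S' w

/-- `L¹` norm (average) of a function of a pair. -/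
noncomputable def L1p {s : ℕ} (h : (B s → Bool) → (B s → Bool) → ℝ) : ℝ :=
  (∑ y, ∑ w, |h y w|) / (2 ^ (2 ^ s)) ^ 2

/-- The algebraic properties of the moment matrix `W S S' = E ∏_{b∈S} g_b ∏_{a∈S'} (Had g)_a`. -/
structure IsW {s : ℕ} (W : Finset (B s) → Finset (B s) → ℝ) : Prop where
  empty : W ∅ ∅ = 1
  lap₁ : ∀ (S S' : Finset (B s)) (a : B s), a ∈ S' →
    W S S' = ∑ b ∈ S, Had a b * W (S.erase b) (S'.erase a)
  lap₂ : ∀ (S S' : Finset (B s)) (b : B s), b ∈ S →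
    W S S' = ∑ a ∈ S', Had a b * W (S.erase b) (S'.erase a)

/-- C2. -/
def GaussPair : Prop :=
  ∀ s : ℕ, ∃ W : Finset (B s) → Finset (B s) → ℝ, IsW W ∧
    ∀ (δ₁ δ₂ : ℝ) (r : ℕ), 0 ≤ δ₁ → 0 ≤ δ₂ → 1 ≤ r →
      L1p (hpair W δ₁ δ₂) ≤
        Real.exp (2 ^ s * ((2 * r).factorial : ℝ) * (δ₁ ^ (2 * r) + δ₂ ^ (2 * r)))

/-! ## C3: the chain -/

/-- character of a layered set -/
noncomputable def chrK {k s : ℕ} (S : Fin (k + 1) → Finset (B s)) (z : FV k s → Bool) : ℝ :=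
  ∏ i, ∏ a ∈ S i, sgn (z (i, a))

/-- Fourier coefficients of a pair function. -/
noncomputable def coef2 {s : ℕ} (h : (B s → Bool) → (B s → Bool) → ℝ)
    (S S' : Finset (B s)) : ℝ :=
  (∑ y, ∑ w, h y w * chr S y * chr S' w) / (2 ^ (2 ^ s)) ^ 2

/-- the chain of `k` pair functions: a function on instances with `k+1` layers. -/
noncomputable def chain {k s : ℕ} (h : Fin k → (B s → Bool) → (B s → Bool) → ℝ)
    (z : FV k s → Bool) : ℝ :=
  ∑ S : Fin (k + 1) → Finset (B s),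
    (∏ j : Fin k, coef2 (h j) (S j.castSucc) (S j.succ)) * chrK S z

/-- C3. -/
structure ChainP : Prop where
  nonneg : ∀ (k s : ℕ) (h : Fin k → (B s → Bool) → (B s → Bool) → ℝ), 1 ≤ k →
    (∀ j y w, 0 ≤ h j y w) → ∀ z, 0 ≤ chain h z
  l1 : ∀ (k s : ℕ) (h : Fin k → (B s → Bool) → (B s → Bool) → ℝ), 1 ≤ k →
    avg (fun z => |chain h z|) ≤ ∏ j, L1p (h j)
  diff : ∀ (k s : ℕ) (h h' : Fin k → (B s → Bool) → (B s → Bool) → ℝ) (A : ℝ), 1 ≤ k → 1 ≤ A →
    (∀ j, L1p (h j) ≤ A) → (∀ j, L1p (h' j) ≤ A) →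
    avg (fun z => |chain h z - chain h' z|) ≤ A ^ k * ∑ j, L1p (fun y w => h j y w - h' j y w)
  mean : ∀ (k s : ℕ) (h : Fin k → (B s → Bool) → (B s → Bool) → ℝ), 1 ≤ k →
    avg (fun z => chain h z) = ∏ j, coef2 (h j) ∅ ∅

/-! ## C4: the derivative identity -/

/-- the vertex set of a path -/
noncomputable def pset {k s : ℕ} (p : Fin (k + 1) → B s) : Finset (FV k s) :=
  univ.image (fun i => (i, p i))

/-- C4. -/
def DerivBound : Prop :=
  ∀ (k s : ℕ) (W : Finset (B s) → Finset (B s) → ℝ) (δ Λ G : ℝ) (g : (FV k s → Bool) → ℝ),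
    1 ≤ k → IsW W → 0 ≤ δ → 0 ≤ G →
    (∀ δ₁ δ₂ : ℝ, 0 ≤ δ₁ → δ₁ ≤ 2 * δ → 0 ≤ δ₂ → δ₂ ≤ 2 * δ → L1p (hpair W δ₁ δ₂) ≤ Λ) →
    (∀ x' : FV k s → Bool,
      |∑ p : Fin (k + 1) → B s, pathW p * dz g (pset p) (fun v => sgn (x' v) / 2)| ≤ G) →
    |avg (fun z => chain (fun _ : Fin k => hpair W δ δ) z * g z) - avg g| ≤ δ ^ (2 * k) * Λ ^ k * G

/-! ## C5: forrelation formulas -/

/-- C5. -/
structure PhiP : Prop where
  recu : ∀ (k s : ℕ) (z : FV k s → Bool), phi z = (∑ a, vec z k a) / 2 ^ s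
  abs_le : ∀ (k s : ℕ) (z : FV k s → Bool), |phi z| ≤ 1
  null : ∀ (k s : ℕ), avg (fun z : FV k s → Bool => phi z ^ 2) = 1 / 2 ^ s
  planted : ∀ (k s : ℕ) (W : Finset (B s) → Finset (B s) → ℝ) (δ : ℝ), 1 ≤ k → IsW W →
    avg (fun z : FV k s → Bool => chain (fun _ : Fin k => hpair W δ δ) z * phi z) = δ ^ (2 * k)

/-! ## C6: hardness of one instance -/

/-- C6. -/
def ForrHard : Prop :=
  ∀ (k : ℕ) (η₁ ε₀ : ℝ), 1 ≤ k → 4 ≤ η₁ * (k + 1) → 0 < ε₀ →
    ∃ s₀ : ℕ, ∀ s, s₀ ≤ s → ∀ g : ℕ, 1 ≤ g → ε₀ * s ≤ g → 8 * g * k ≤ s →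
      ∃ μ : (FV k s → Bool) → ℝ, (∀ z, 0 ≤ μ z) ∧ ∑ z, μ z = 1 ∧
        1 / 2 * (1 / 4 : ℝ) ^ (g * k) ≤ ∑ z, μ z * phi z ∧
        ∀ T : Tree (FV k s) ℝ, (∀ z, |T.eval z| ≤ 1) →
          (T.depth : ℝ) ≤ (2 : ℝ) ^ ((s : ℝ) * (1 - η₁)) →
          |∑ z, μ z * T.eval z - avg (fun z => T.eval z)| ≤ (2 : ℝ) ^ (-(s : ℝ) / 2)

/-! ## A1 - A8: quantum subroutines -/

/-- A1. (`pure` holds with any number of (idle) queries.) -/
structure RealBasic : Prop where
  pure : ∀ (V α : Type) [Fintype V] [Nonempty V] [Fintype α] (μ : α → ℝ) (q : ℕ),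
    (∀ a, 0 ≤ μ a) → ∑ a, μ a = 1 → Realizable (fun _ : V → Bool => μ) q
  read : ∀ (V : Type) [Fintype V] (v : V),
    Realizable (fun (x : V → Bool) (b : Bool) => if b = x v then (1 : ℝ) else 0) 1
  map : ∀ (V α β : Type) [Fintype V] [Fintype α] (f : α → β) (P : (V → Bool) → α → ℝ) (q : ℕ),
    Realizable P q → Realizable (fun x b => ∑ a, if f a = b then P x a else 0) q
  nonneg : ∀ (V α : Type) [Fintype V] (P : (V → Bool) → α → ℝ) (q : ℕ),
    Realizable P q → ∀ x a, 0 ≤ P x a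
  sum_one : ∀ (V α : Type) [Fintype V] [Fintype α] (P : (V → Bool) → α → ℝ) (q : ℕ),
    Realizable P q → ∀ x, ∑ a, P x a = 1

/-- A2. -/
def RealBind : Prop :=
  ∀ (V α β : Type) [Fintype V] [Fintype α] (P : (V → Bool) → α → ℝ) (q₁ : ℕ)
    (R : α → (V → Bool) → β → ℝ) (q₂ : ℕ),
    Realizable P q₁ → (∀ a, Realizable (R a) q₂) →
      Realizable (fun x b => ∑ a, P x a * R a x b) (q₁ + q₂)

/-- monotonicity in the number of queries (follows from A1 and A2). -/
def RealMono : Prop :=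
  ∀ (V α : Type) [Fintype V] [Nonempty V] [Fintype α] (P : (V → Bool) → α → ℝ) (q q' : ℕ),
    q ≤ q' → Realizable P q → Realizable P q'

/-- A3. -/
def RealReindex : Prop :=
  ∀ (V V' α : Type) [Fintype V] [Fintype V'] (ι : V' → V) (P : (V' → Bool) → α → ℝ) (q : ℕ),
    Realizable P q → Realizable (fun (x : V → Bool) => P (fun v => x (ι v))) q

/-- distribution of a search: success probability `σ x`, and given success the outcome is
distributed as `P x` conditioned on `G x`. -/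
noncomputable def condDist {X α : Type} [Fintype α] (P : X → α → ℝ) (G : X → α → Prop) (σ : X → ℝ)
    (x : X) (o : Option α) : ℝ :=
  match o with
  | none => 1 - σ x
  | some a => if G x a then σ x * P x a / (∑ a' ∈ univ.filter (G x), P x a') else 0

/-- A4: amplitude amplification. -/
def RealAA : Prop :=
  ∀ (V α : Type) [Fintype V] [Nonempty V] [Fintype α] (P : (V → Bool) → α → ℝ) (q T : ℕ)
    (G : α → Prop), 1 ≤ T → Realizable P q →
    ∃ σ : (V → Bool) → ℝ, (∀ x, 0 ≤ σ x ∧ σ x ≤ 1) ∧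
      (∀ x, 1 ≤ (∑ a ∈ univ.filter G, P x a) * (T : ℝ) ^ 2 → 1 / 4 ≤ σ x) ∧
      Realizable (condDist P (fun _ => G) σ) (4 * T * q)

/-- A5: the forrelation test. -/
def RealForr : Prop :=
  ∀ (k s : ℕ), Realizable
    (fun (z : FV k s → Bool) (b : Bool) => if b then phi z ^ 2 else 1 - phi z ^ 2) (k + 1)

/-- A6: transport to the frozen definitions. -/
structure Transport : Prop where
  q : ∀ (V : Type) [Fintype V] (F : (V → Bool) → Bool) (q n : ℕ) (e : Fin n ≃ V), QComp F q →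
    Crest.MathPhysics.Query.QuantumComputes
      (fun x : Fin n → Bool => F (fun v => x (e.symm v))) q
  r : ∀ (V : Type) [Fintype V] (F : (V → Bool) → Bool) (r n : ℕ) (e : Fin n ≃ V),
    Crest.MathPhysics.Query.RandomizedComputes
      (fun x : Fin n → Bool => F (fun v => x (e.symm v))) r → RComp F r

/-- A7. -/
def RealTree : Prop :=
  ∀ (V α : Type) [Fintype V] [Nonempty V] [Fintype α] (T : Tree V α) (d : ℕ), T.depth ≤ d →
    Realizable (fun x a => if T.eval x = a then (1 : ℝ) else 0) d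

/-- A8: search (amplified), over the candidates proposed by a quantum algorithm, with a test given
by decision trees. -/
def RealSearch : Prop :=
  ∀ (V α : Type) [Fintype V] [Nonempty V] [Fintype α] (P : (V → Bool) → α → ℝ) (q D T u : ℕ)
    (t : α → Tree V Bool), 1 ≤ T → (∀ a, (t a).depth ≤ D) → Realizable P q →
    ∃ σ : (V → Bool) → ℝ, (∀ x, 0 ≤ σ x ∧ σ x ≤ 1) ∧
      (∀ x, 1 ≤ (∑ a ∈ univ.filter (fun a => (t a).eval x = true), P x a) * (T : ℝ) ^ 2 →
        1 - (3 / 4 : ℝ) ^ u ≤ σ x) ∧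
      Realizable (condDist P (fun x a => (t a).eval x = true) σ) (4 * T * (q + D) * u)

/-! ## A9: the halving search -/

/-- error of the halving search. -/
noncomputable def errF (m L u : ℕ) : ℝ := (m + 1) * (L + u + 2) * (1 / 2 : ℝ) ^ u

/-- cost of the halving search. -/
def costF (m L u T D qA : ℕ) : ℕ :=
  (m + 1) * ((L + u) * (12 * T * ((m + 1) * D) * u) + 12 * T * (qA + (L + u) * D) * u)

/-- A9. -/
def StageAlg : Prop :=
  ∀ (V J R : Type) [Fintype V] [Nonempty V] [Fintype J] [Nonempty J] [Fintype R] [Nonempty R]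
    (cov : R → J → Tree V Bool) (PA : (V → Bool) → R → ℝ) (D qA m L T u : ℕ),
    (∀ r j, (cov r j).depth ≤ D) → Realizable PA qA → Fintype.card J ≤ 2 ^ m →
    Fintype.card R ≤ 2 ^ L → 2 * 2 ^ m ≤ T ^ 2 →
    ∃ P : (V → Bool) → Bool → ℝ, Realizable P (costF m L u T D qA) ∧
      (∀ x, (∃ r, (∀ j, (cov r j).eval x = true) ∧ 1 ≤ PA x r * (2 * 2 ^ m)) →
        P x false ≤ errF m L u) ∧
      (∀ x, (∃ j, ∀ r, (cov r j).eval x = false) → P x true ≤ errF m L u)

/-! ## A10: decoding the hidden pointers -/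

/-- variables of the forrelation part of one block: instances `(l, copy)`, `l < L`, `copy ∈ B e`. -/
abbrev Zb (k s L e : ℕ) := (Fin L × B e) × FV k s

/-- block content encodes the pointer `r`. -/
def good {k s L e : ℕ} (θ₁ θ₀ : ℝ) (r : B L) (z : Zb k s L e → Bool) : Prop :=
  ∀ l, (r l = true → ∃ c : B e, θ₁ ≤ phi (fun v => z ((l, c), v))) ∧
    (r l = false → ∀ c : B e, |phi (fun v => z ((l, c), v))| ≤ θ₀)

/-- A10. -/
def CandGen : Prop :=
  ∀ (k s L e Kt : ℕ) (θ₁ θ₀ : ℝ), 0 ≤ θ₁ → θ₁ ≤ 1 → 0 ≤ θ₀ →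
    (L : ℝ) * (1 - θ₁ ^ 2) ^ Kt ≤ 1 / 4 → (L : ℝ) * 2 ^ e * Kt * θ₀ ^ 2 ≤ 1 / 4 →
    ∃ PA : (B s × Zb k s L e → Bool) → B L → ℝ, Realizable PA (L * 2 ^ e * Kt * (k + 1)) ∧
      ∀ X b r, good θ₁ θ₀ r (fun v => X (b, v)) → 1 ≤ PA X r * (2 * 2 ^ s)

/-! ## A11 / B1: the cheat sheet function -/

/-- variables of the cheat sheet function: `c` instances, presence bits and pointers. -/
abbrev VC (V₀ : Type) (c L : ℕ) := (Fin c × V₀) ⊕ (B c ⊕ (B c × Fin c × Fin L))

section cs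
variable {V₀ E : Type} {c L : ℕ}

/-- all checks pass -/
def valid (chk : Bool → B L → E → Tree V₀ Bool) (β : Bool) (r : B L) (X : V₀ → Bool) : Prop :=
  ∀ e, (chk β r e).eval X = true

/-- the cheat sheet function -/
noncomputable def FCS (chk : Bool → B L → E → Tree V₀ Bool) (x : VC V₀ c L → Bool) : Bool :=
  decide (∃ ℓ : B c, x (Sum.inr (Sum.inl ℓ)) = true ∧
    ∀ i, valid chk (ℓ i) (fun l => x (Sum.inr (Sum.inr (ℓ, i, l)))) (fun v => x (Sum.inl (i, v))))

end cs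

/-- A11. -/
def CSQ : Prop :=
  ∀ (V₀ E : Type) [Fintype V₀] [Nonempty V₀] [Fintype E] [Nonempty E] (c L D q T : ℕ) (err : ℝ)
    (chk : Bool → B L → E → Tree V₀ Bool) (P : (V₀ → Bool) → Bool → ℝ),
    1 ≤ c → (∀ β r e, (chk β r e).depth ≤ D) → Realizable P q →
    (∀ X β r, valid chk β r X → 1 - err ≤ P X β) → (c : ℝ) * err ≤ 1 / 12 →
    c * Fintype.card E ≤ T ^ 2 →
    QComp (FCS (c := c) chk) (c * q + c * L + 1 + 48 * T * (D + 1))

/-- B1. -/
def CSR : Prop :=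
  ∀ (V₀ E : Type) [Fintype V₀] (c L R : ℕ) (chk : Bool → B L → E → Tree V₀ Bool)
    (Ω : Bool → Type) [∀ β, Fintype (Ω β)] (w : ∀ β, Ω β → ℝ) (Xr : ∀ β, Ω β → V₀ → Bool)
    (pt : ∀ β, Ω β → B L) (ν : (V₀ → Bool) → ℝ) (δ₁ δ₂ : ℝ),
    (∀ β ω, 0 ≤ w β ω) → (∀ β, ∑ ω, w β ω = 1) → (∀ X, 0 ≤ ν X) → ∑ X, ν X = 1 →
    0 ≤ δ₁ → 0 ≤ δ₂ →
    (∀ β, ∑ ω, (if valid chk β (pt β ω) (Xr β ω) then 0 else w β ω) ≤ δ₁) →
    (∀ (β : Bool) (T : Tree V₀ ℝ), (∀ X, 0 ≤ T.eval X ∧ T.eval X ≤ 1) → T.depth ≤ R →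
      |∑ ω, w β ω * T.eval (Xr β ω) - ∑ X, ν X * T.eval X| ≤ δ₂) →
    (c : ℝ) * (δ₁ + δ₂) + (R : ℝ) / 2 ^ c < 1 / 3 →
    ¬ RComp (FCS (c := c) chk) R

/-! ## The instances `X` -/

/-- memory of one root: the list, the block index, the certificate. -/
abbrev Mem (s : ℕ) (CM : Type) := (B s × Fin s) ⊕ (Fin s ⊕ CM)

/-- variables of one instance: blocks, marks, roots. -/
abbrev VX (k s L e : ℕ) (CM : Type) :=
  (B s × Zb k s L e) ⊕ ((B s × B s) ⊕ (B L × Mem s CM))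

/-- certification of block contents by local checks. -/
structure Cert (k s L e : ℕ) (θ₁ θ₀ : ℝ) (CM CE : Type) (D : ℕ) where
  chk : B L → CE → Tree (Zb k s L e ⊕ CM) Bool
  depth_le : ∀ r ce, (chk r ce).depth ≤ D
  sound : ∀ (r : B L) (z : Zb k s L e → Bool) (y : CM → Bool),
    (∀ ce, (chk r ce).eval (Sum.elim z y) = true) → good θ₁ θ₀ r z
  complete : ∀ (r : B L) (z : Zb k s L e → Bool), good θ₁ θ₀ r z →
    ∃ y : CM → Bool, ∀ ce, (chk r ce).eval (Sum.elim z y) = true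

/-- D1: certification exists. -/
def CertExists : Prop :=
  ∀ k : ℕ, ∃ c₁ : ℕ, ∀ (s L e : ℕ) (θ₁ θ₀ : ℝ), 1 ≤ s →
    ∃ (CM CE : Type) (_ : Fintype CM) (_ : Fintype CE),
      Fintype.card CE ≤ c₁ * (s + 1) * (L + 1) * 2 ^ e * 2 ^ s ∧
      Nonempty (Cert k s L e θ₁ θ₀ CM CE (c₁ * (s + e + 1)))

section inst
variable {k s L e : ℕ} {CM CE : Type} {θ₁ θ₀ : ℝ} {D : ℕ}

def zblk (X : VX k s L e CM → Bool) (b : B s) : Zb k s L e → Bool := fun v => X (Sum.inl (b, v))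
def mark (X : VX k s L e CM → Bool) (j a : B s) : Bool := X (Sum.inr (Sum.inl (j, a)))
def rho (X : VX k s L e CM → Bool) (r : B L) (j : B s) : B s :=
  fun i => X (Sum.inr (Sum.inr (r, Sum.inl (j, i))))
def beta (X : VX k s L e CM → Bool) (r : B L) : B s :=
  fun i => X (Sum.inr (Sum.inr (r, Sum.inr (Sum.inl i))))
def cmem (X : VX k s L e CM → Bool) (r : B L) : CM → Bool :=
  fun m => X (Sum.inr (Sum.inr (r, Sum.inr (Sum.inr m))))

/-- first `s` bits of the pointer -/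
def dec (s : ℕ) {L : ℕ} (r : B L) : B s := fun i => if h : i.1 < L then r ⟨i.1, h⟩ else false

/-- the tree computing "root `r` covers block `j`". -/
def covT (k s L e : ℕ) (CM : Type) (r : B L) (j : B s) : Tree (VX k s L e CM) Bool :=
  (Tree.readAll s (fun i => Sum.inr (Sum.inr (r, Sum.inl (j, i))))).bind
    (fun a => Tree.node (Sum.inr (Sum.inl (j, a))) (Tree.leaf false) (Tree.leaf true))

/-- the checks for one instance -/
def chkX (C : Cert k s L e θ₁ θ₀ CM CE D) : Bool → B L → (B s ⊕ CE) → Tree (VX k s L e CM) Bool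
  | true, r, Sum.inl j => covT k s L e CM r j
  | true, r, Sum.inr ce =>
      (Tree.readAll s (fun i => Sum.inr (Sum.inr (r, Sum.inr (Sum.inl i))))).bind
        (fun b => (C.chk r ce).ren (Sum.elim (fun v => Sum.inl (b, v))
          (fun m => Sum.inr (Sum.inr (r, Sum.inr (Sum.inr m))))))
  | false, r, Sum.inl a =>
      Tree.node (Sum.inr (Sum.inl (dec s r, a))) (Tree.leaf true) (Tree.leaf false)
  | false, _, Sum.inr _ => Tree.leaf true

theorem depth_covT (r : B L) (j : B s) : (covT k s L e CM r j).depth ≤ s + 1 := by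
  unfold covT
  refine le_trans (Tree.depth_bind _ _ 1 (fun a => ?_)) ?_
  · simp [Tree.depth]
  · rw [Tree.depth_readAll]

theorem eval_covT (X : VX k s L e CM → Bool) (r : B L) (j : B s) :
    (covT k s L e CM r j).eval X = mark X j (rho X r j) := by
  unfold covT
  rw [Tree.eval_bind, Tree.eval_readAll]
  simp only [Tree.eval]
  show (if X (Sum.inr (Sum.inl (j, rho X r j))) = true then true else false) = _
  unfold mark
  split_ifs with h
  · exact h.symm
  · exact (Bool.not_eq_true _ ▸ h : X (Sum.inr (Sum.inl (j, rho X r j))) = false).symm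

theorem depth_chkX (C : Cert k s L e θ₁ θ₀ CM CE D) (β : Bool) (r : B L) (x : B s ⊕ CE) :
    (chkX C β r x).depth ≤ s + 1 + D := by
  cases β with
  | true =>
    cases x with
    | inl j => exact le_trans (depth_covT r j) (by omega)
    | inr ce =>
      unfold chkX
      refine le_trans (Tree.depth_bind _ _ D (fun a => ?_)) ?_
      · rw [Tree.depth_ren]; exact C.depth_le r ce
      · rw [Tree.depth_readAll]; omega
  | false =>
    cases x with
    | inl a => simp [chkX, Tree.depth]; omega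
    | inr ce => simp [chkX, Tree.depth]

theorem valid_true_iff (C : Cert k s L e θ₁ θ₀ CM CE D) (r : B L) (X : VX k s L e CM → Bool) :
    valid (chkX C) true r X ↔ (∀ j, mark X j (rho X r j) = true) ∧
      ∀ ce, (C.chk r ce).eval (Sum.elim (zblk X (beta X r)) (cmem X r)) = true := by
  have key : ∀ ce, (chkX C true r (Sum.inr ce)).eval X =
      (C.chk r ce).eval (Sum.elim (zblk X (beta X r)) (cmem X r)) := by
    intro ce
    unfold chkX
    rw [Tree.eval_bind, Tree.eval_readAll, Tree.eval_ren]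
    congr 1
    funext v
    rcases v with v | m <;> rfl
  constructor
  · intro h
    refine ⟨fun j => ?_, fun ce => ?_⟩
    · have := h (Sum.inl j)
      rwa [show (chkX C true r (Sum.inl j)) = covT k s L e CM r j from rfl, eval_covT] at this
    · rw [← key]; exact h (Sum.inr ce)
  · rintro ⟨h1, h2⟩ x
    cases x with
    | inl j =>
      rw [show (chkX C true r (Sum.inl j)) = covT k s L e CM r j from rfl, eval_covT]; exact h1 j
    | inr ce => rw [key]; exact h2 ce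

theorem valid_false_iff (C : Cert k s L e θ₁ θ₀ CM CE D) (r : B L) (X : VX k s L e CM → Bool) :
    valid (chkX C) false r X ↔ ∀ a, mark X (dec s r) a = false := by
  constructor
  · intro h a
    have := h (Sum.inl a)
    simp only [chkX, Tree.eval] at this
    unfold mark
    by_contra hc
    rw [Bool.not_eq_false] at hc
    simp [hc] at this
  · intro h x
    cases x with
    | inl a =>
      have := h a
      unfold mark at this
      simp [chkX, Tree.eval, this]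
    | inr ce => simp [chkX, Tree.eval]

end inst

/-- D3: the algorithm for one instance. -/
def XAlg : Prop :=
  ∀ (k s L e Kt T u D : ℕ) (θ₁ θ₀ : ℝ) (CM CE : Type) [Fintype CM] [Fintype CE]
    (C : Cert k s L e θ₁ θ₀ CM CE D), 0 ≤ θ₁ → θ₁ ≤ 1 → 0 ≤ θ₀ →
    (L : ℝ) * (1 - θ₁ ^ 2) ^ Kt ≤ 1 / 4 → (L : ℝ) * 2 ^ e * Kt * θ₀ ^ 2 ≤ 1 / 4 →
    2 * 2 ^ s ≤ T ^ 2 →
    ∃ P : (VX k s L e CM → Bool) → Bool → ℝ,
      Realizable P (costF s L u T (s + 1) (L * 2 ^ e * Kt * (k + 1))) ∧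
      ∀ X β r, valid (chkX C) β r X → 1 - errF s L u ≤ P X β

/-! ## B: hard distributions -/

/-- product weight -/
noncomputable def prodW {V : Type} [Fintype V] (pr : V → ℝ) (x : V → Bool) : ℝ :=
  ∏ v, if x v then pr v else 1 - pr v

section hard
variable {k s L e : ℕ} {CM : Type}

/-- null probabilities of the bits -/
noncomputable def prX (k s L e : ℕ) (CM : Type) (p : ℝ) : VX k s L e CM → ℝ
  | Sum.inl _ => 1 / 2
  | Sum.inr (Sum.inl _) => p
  | Sum.inr (Sum.inr _) => 0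

/-- erase the marks of block `j`. -/
noncomputable def eraseM (j : B s) (X : VX k s L e CM → Bool) : VX k s L e CM → Bool
  | Sum.inl v => X (Sum.inl v)
  | Sum.inr (Sum.inl (j', a)) => if j' = j then false else X (Sum.inr (Sum.inl (j', a)))
  | Sum.inr (Sum.inr m) => X (Sum.inr (Sum.inr m))

/-- the weight of `X` in the planted distribution (block `b`, pointer `r`). -/
noncomputable def plW [Fintype CM] (μ : (FV k s → Bool) → ℝ) (p : ℝ) (b : B s) (r : B L)
    (X : VX k s L e CM → Bool) : ℝ :=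
  (∏ j : B s, ∏ i : Fin L × B e,
      if j = b ∧ r i.1 = true then μ (fun v => X (Sum.inl (j, (i, v))))
      else 1 / 2 ^ (Fintype.card (FV k s))) *
    (∏ ja : B s × B s, if X (Sum.inr (Sum.inl ja)) then p else 1 - p) *
    (∏ m : B L × Mem s CM, if X (Sum.inr (Sum.inr m)) then 0 else 1)

/-- agree outside the memory of root `r` -/
def AgreeOff (r : B L) (X Y : VX k s L e CM → Bool) : Prop :=
  (∀ v, X (Sum.inl v) = Y (Sum.inl v)) ∧ (∀ v, X (Sum.inr (Sum.inl v)) = Y (Sum.inr (Sum.inl v))) ∧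
    ∀ r' m, r' ≠ r → X (Sum.inr (Sum.inr (r', m))) = Y (Sum.inr (Sum.inr (r', m)))

end hard

/-- B2: erasing marks is not noticed. -/
def Adv0 : Prop :=
  ∀ (k s L e R : ℕ) (CM : Type) [Fintype CM] (p : ℝ) (T : Tree (VX k s L e CM) ℝ),
    s ≤ L → 0 ≤ p → p ≤ 1 → (∀ X, 0 ≤ T.eval X ∧ T.eval X ≤ 1) → T.depth ≤ R →
    |∑ rX : B L × (VX k s L e CM → Bool),
        (1 / 2 ^ L : ℝ) * prodW (prX k s L e CM p) rX.2 * T.eval (eraseM (dec s rX.1) rX.2)
      - ∑ X, prodW (prX k s L e CM p) X * T.eval X| ≤ R * p / 2 ^ s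

/-- B3a: planting is not noticed (average over the block `b`). -/
def AdvPl : Prop :=
  ∀ (k s L e R d₀ : ℕ) (CM : Type) [Fintype CM] (p adv : ℝ) (μ : (FV k s → Bool) → ℝ)
    (r : B L) (T : Tree (VX k s L e CM) ℝ),
    0 ≤ p → p ≤ 1 → (∀ z, 0 ≤ μ z) → ∑ z, μ z = 1 → 1 ≤ d₀ → 0 ≤ adv →
    (∀ T' : Tree (FV k s) ℝ, (∀ z, |T'.eval z| ≤ 1) → T'.depth ≤ d₀ →
      |∑ z, μ z * T'.eval z - avg (fun z => T'.eval z)| ≤ adv) →
    (∀ X, |T.eval X| ≤ 1) → T.depth ≤ R →
    (∑ b : B s, |∑ X, plW μ p b r X * T.eval X - ∑ X, prodW (prX k s L e CM p) X * T.eval X|)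
        / 2 ^ s ≤ 4 * (L * 2 ^ e) * adv + 4 * R / (2 ^ s * d₀)

/-- B3b: the planted distribution together with the contents of the root is not noticed. -/
def Adv1 : Prop :=
  ∀ (k s L e R d₀ : ℕ) (CM : Type) [Fintype CM] (p adv : ℝ) (μ : (FV k s → Bool) → ℝ)
    (Y : B s → B L → (VX k s L e CM → Bool) → (VX k s L e CM → Bool))
    (T : Tree (VX k s L e CM) ℝ),
    0 ≤ p → p ≤ 1 → (∀ z, 0 ≤ μ z) → ∑ z, μ z = 1 → 1 ≤ d₀ → 0 ≤ adv →
    (∀ T' : Tree (FV k s) ℝ, (∀ z, |T'.eval z| ≤ 1) → T'.depth ≤ d₀ →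
      |∑ z, μ z * T'.eval z - avg (fun z => T'.eval z)| ≤ adv) →
    (∀ b r X, AgreeOff r X (Y b r X)) →
    (∀ X, 0 ≤ T.eval X ∧ T.eval X ≤ 1) → T.depth ≤ R →
    |∑ brX : B s × B L × (VX k s L e CM → Bool),
        (1 / 2 ^ s : ℝ) * (1 / 2 ^ L) * plW μ p brX.1 brX.2.1 brX.2.2 *
          T.eval (Y brX.1 brX.2.1 brX.2.2)
      - ∑ X, prodW (prX k s L e CM p) X * T.eval X|
      ≤ R / 2 ^ L + 2 * (4 * (L * 2 ^ e) * adv + 4 * R / (2 ^ s * d₀))

/-- B4: the planted distribution is good with high probability. -/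
def GoodProb : Prop :=
  ∀ (k s L e : ℕ) (CM : Type) [Fintype CM] (p θ₁ θ₀ : ℝ) (μ : (FV k s → Bool) → ℝ)
    (b : B s) (r : B L),
    0 ≤ p → p ≤ 1 → (∀ z, 0 ≤ μ z) → ∑ z, μ z = 1 → 0 ≤ θ₁ → θ₁ ≤ 1 → 0 < θ₀ →
    2 * θ₁ ≤ ∑ z, μ z * phi z →
    (∑ X : VX k s L e CM → Bool, plW μ p b r X = 1) ∧
    ∑ X : VX k s L e CM → Bool,
        (if (∀ j, ∃ a, mark X j a = true) ∧ good θ₁ θ₀ r (zblk X b) then 0 else plW μ p b r X)
      ≤ 2 ^ s * (1 - p) ^ (2 ^ s) + L * (1 - θ₁) ^ (2 ^ e) + L * 2 ^ e * (1 / (2 ^ s * θ₀ ^ 2))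

/-- parameters: number of copies (log), thresholds. -/
def eP (k g : ℕ) : ℕ := 2 * g * k + g + 2
noncomputable def th1 (k g : ℕ) : ℝ := (1 / 2 : ℝ) ^ (2 * g * k + 2)
noncomputable def th0 (s : ℕ) : ℝ := (2 : ℝ) ^ (-(s : ℝ) / 4)

/-- D4: hard distributions for one instance. -/
def XLower : Prop :=
  ∀ (η : ℝ) (k : ℕ) (ε₀ : ℝ), 0 < η → η ≤ 1 / 10 → 1 ≤ k → 16 ≤ η * (k + 1) → 0 < ε₀ →
    ∃ s₀ : ℕ, ∀ s, s₀ ≤ s → ∀ g : ℕ, 1 ≤ g → ε₀ * s ≤ g → 100 * (k + 1) * g ≤ η * s →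
      ∀ (CM CE : Type) [Fintype CM] [Fintype CE] (D R : ℕ)
        (C : Cert k s (3 * s) (eP k g) (th1 k g) (th0 s) CM CE D),
        (R : ℝ) ≤ (2 : ℝ) ^ ((s : ℝ) * (2 - η)) →
        ∃ (Ω : Bool → Type) (_ : ∀ β, Fintype (Ω β)) (w : ∀ β, Ω β → ℝ)
          (Xr : ∀ β, Ω β → VX k s (3 * s) (eP k g) CM → Bool) (pt : ∀ β, Ω β → B (3 * s))
          (ν : (VX k s (3 * s) (eP k g) CM → Bool) → ℝ),
          (∀ β ω, 0 ≤ w β ω) ∧ (∀ β, ∑ ω, w β ω = 1) ∧ (∀ X, 0 ≤ ν X) ∧ ∑ X, ν X = 1 ∧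
          (∀ β, ∑ ω, (if valid (chkX C) β (pt β ω) (Xr β ω) then 0 else w β ω)
            ≤ 1 / (200 * s : ℝ)) ∧
          (∀ (β : Bool) (T : Tree (VX k s (3 * s) (eP k g) CM) ℝ),
            (∀ X, 0 ≤ T.eval X ∧ T.eval X ≤ 1) → T.depth ≤ R →
            |∑ ω, w β ω * T.eval (Xr β ω) - ∑ X, ν X * T.eval X| ≤ 1 / (200 * s : ℝ))

/-- D5. -/
def Main : Prop :=
  ∀ η : ℝ, 0 < η → η ≤ 1 / 10 → ∃ s₀ : ℕ, ∀ s : ℕ, s₀ ≤ s →
    ∃ (V : Type) (_ : Fintype V) (F : (V → Bool) → Bool),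
      (∃ q : ℕ, (q : ℝ) ≤ (2 : ℝ) ^ ((s : ℝ) * (1 / 2 + η)) ∧ QComp F q) ∧
      ∀ r : ℕ, RComp F r → (2 : ℝ) ^ ((s : ℝ) * (2 - η)) ≤ r

/-- D6. -/
def Top : Prop :=
  ∀ (k : ℕ), 2 ≤ k →
    ∃ (c C b : ℝ), 0 < c ∧ 0 < C ∧ 0 < b ∧ ∃ m₀ : ℕ, ∀ m : ℕ, m₀ ≤ m → (∃ j : ℕ, m = 4 ^ j) →
      ∃ (n : ℕ) (F : (Fin n → Bool) → Bool),
        (∃ q : ℕ, (q : ℝ) ≤ C * Real.sqrt m * Real.log m ^ b ∧
          Crest.MathPhysics.Query.QuantumComputes F q) ∧
        (∀ r : ℕ, Crest.MathPhysics.Query.RandomizedComputes F r →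
          c * (m : ℝ) ^ (2 - 1 / (k : ℝ)) / Real.log m ^ 2 ≤ r)

end Crest.Agent.R350
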