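import Mathlib
import Crest.Agent.R350.Defs

/-!
# QLib: a flexible model of quantum query algorithms ("phase queries")

`PQ τ q M`: the family of linear maps `M x` on `E → ℂ` is made with exactly `q` phase queries,
where `τ : E → Option V` tells which variable is read in the phase at a basis state.
`PReal P q`: `P` is the output distribution of such an algorithm.  Main theorem:
`realizable_iff : Realizable P q ↔ PReal P q` (for nonempty `V`).
-/

set_option autoImplicit false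
set_option linter.unusedSectionVars false
set_option linter.unusedSimpArgs false

open Finset Classical

namespace Crest.Agent.R350
namespace QL

/-- squared norm -/
noncomputable def nsq {E : Type} [Fintype E] (ψ : E → ℂ) : ℝ := ∑ e, ‖ψ e‖ ^ 2

/-- linear maps preserving the norm -/
def IsI {E : Type} [Fintype E] (U : (E → ℂ) →ₗ[ℂ] (E → ℂ)) : Prop := ∀ ψ, nsq (U ψ) = nsq ψ

section basics
variable {E : Type} [Fintype E]

theorem nsq_nonneg (ψ : E → ℂ) : 0 ≤ nsq ψ := by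
  unfold nsq; positivity

theorem nsq_eq_zero {ψ : E → ℂ} (h : nsq ψ = 0) : ψ = 0 := by
  unfold nsq at h
  funext e
  have := (Finset.sum_eq_zero_iff_of_nonneg (fun e _ => by positivity)).1 h e (Finset.mem_univ e)
  simpa using this

theorem IsI.id : IsI (LinearMap.id : (E → ℂ) →ₗ[ℂ] (E → ℂ)) := fun _ => rfl

theorem IsI.comp {U U' : (E → ℂ) →ₗ[ℂ] (E → ℂ)} (h : IsI U) (h' : IsI U') : IsI (U ∘ₗ U') :=
  fun ψ => by rw [LinearMap.comp_apply, h, h']

theorem IsI.inj {U : (E → ℂ) →ₗ[ℂ] (E → ℂ)} (h : IsI U) : Function.Injective U := by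
  rw [← LinearMap.ker_eq_bot, LinearMap.ker_eq_bot']
  intro ψ hψ
  have := h ψ
  rw [hψ] at this
  apply nsq_eq_zero
  rw [← this]
  simp [nsq]

theorem IsI.exists_inv {U : (E → ℂ) →ₗ[ℂ] (E → ℂ)} (h : IsI U) :
    ∃ U' : (E → ℂ) →ₗ[ℂ] (E → ℂ), IsI U' ∧ (∀ ψ, U' (U ψ) = ψ) ∧ ∀ ψ, U (U' ψ) = ψ := by
  have hr : ∀ ψ, U ((LinearEquiv.ofInjectiveEndo U h.inj).symm ψ) = ψ := fun ψ =>
    (LinearEquiv.ofInjectiveEndo U h.inj).apply_symm_apply ψ
  have hl : ∀ ψ, (LinearEquiv.ofInjectiveEndo U h.inj).symm (U ψ) = ψ := fun ψ =>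
    (LinearEquiv.ofInjectiveEndo U h.inj).symm_apply_apply ψ
  refine ⟨((LinearEquiv.ofInjectiveEndo U h.inj).symm : (E → ℂ) →ₗ[ℂ] (E → ℂ)), ?_, ?_, ?_⟩
  · intro ψ
    have h1 := h ((LinearEquiv.ofInjectiveEndo U h.inj).symm ψ)
    rw [hr ψ] at h1
    exact h1.symm
  · exact hl
  · exact hr

/-- bridge to `EuclideanSpace` -/
theorem nsq_eq_norm (ψ : E → ℂ) : nsq ψ = ‖(WithLp.toLp 2 ψ : EuclideanSpace ℂ E)‖ ^ 2 := by
  rw [EuclideanSpace.norm_sq_eq]; rfl

/-- a unitary with a given column -/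
theorem exists_iso_col (ψ : E → ℂ) (h : nsq ψ = 1) (e₀ : E) :
    ∃ U : (E → ℂ) →ₗ[ℂ] (E → ℂ), IsI U ∧ U (Pi.single e₀ 1) = ψ := by
  have hv : Orthonormal ℂ (({e₀} : Set E).domRestrict
      (fun _ : E => (WithLp.toLp 2 ψ : EuclideanSpace ℂ E))) := by
    constructor
    · intro i
      simp only [Set.domRestrict_apply]
      have := nsq_eq_norm ψ
      rw [h] at this
      nlinarith [norm_nonneg (WithLp.toLp 2 ψ : EuclideanSpace ℂ E)]
    · intro i j hij
      exact absurd (Subsingleton.elim i j) hij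
  obtain ⟨b, hb⟩ := hv.exists_orthonormalBasis_extension_of_card_eq
    (by simp : Module.finrank ℂ (EuclideanSpace ℂ E) = Fintype.card E)
  let U : (E → ℂ) →ₗ[ℂ] (E → ℂ) :=
    (WithLp.linearEquiv 2 ℂ (E → ℂ)).toLinearMap ∘ₗ
      (b.repr.symm.toLinearEquiv.toLinearMap ∘ₗ (WithLp.linearEquiv 2 ℂ (E → ℂ)).symm.toLinearMap)
  have hU : ∀ φ : E → ℂ, (WithLp.toLp 2 (U φ) : EuclideanSpace ℂ E) =
      b.repr.symm (WithLp.toLp 2 φ) := fun φ => rfl
  refine ⟨U, ?_, ?_⟩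
  · intro φ
    rw [nsq_eq_norm, nsq_eq_norm, hU, LinearIsometryEquiv.norm_map]
  · have h1 : (WithLp.toLp 2 (U (Pi.single e₀ 1)) : EuclideanSpace ℂ E) = WithLp.toLp 2 ψ := by
      rw [hU]
      have h2 := hb e₀ rfl
      rw [← h2]
      have h3 := b.repr_symm_single e₀
      rw [← h3]
      rfl
    exact (WithLp.toLp_injective 2) h1

/-- instance-free version -/
theorem exists_iso_col' (ψ : E → ℂ) (h : nsq ψ = 1) (e₀ : E) :
    ∃ U : (E → ℂ) →ₗ[ℂ] (E → ℂ), IsI U ∧ ∀ (c : ℂ) (δ : E → ℂ), δ e₀ = c →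
      (∀ e, e ≠ e₀ → δ e = 0) → U δ = c • ψ := by
  obtain ⟨U, h1, h2⟩ := exists_iso_col ψ h e₀
  refine ⟨U, h1, fun c δ hc hδ => ?_⟩
  have : δ = c • Pi.single e₀ (1 : ℂ) := by
    funext e
    by_cases he : e = e₀
    · subst he; simp [hc]
    · simp [he, hδ e he]
  rw [this, map_smul, h2]

/-- norm preserving maps have unitary matrices (any decidability instance) -/
theorem IsI.mem [DecidableEq E] {U : (E → ℂ) →ₗ[ℂ] (E → ℂ)} (h : IsI U) :
    LinearMap.toMatrix' U ∈ Matrix.unitaryGroup E ℂ := by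
  let f : EuclideanSpace ℂ E →ₗ[ℂ] EuclideanSpace ℂ E :=
    (WithLp.linearEquiv 2 ℂ (E → ℂ)).symm.toLinearMap ∘ₗ
      (U ∘ₗ (WithLp.linearEquiv 2 ℂ (E → ℂ)).toLinearMap)
  have hf : ∀ v : EuclideanSpace ℂ E, ‖f v‖ = ‖v‖ := by
    intro v
    have h1 := h (WithLp.ofLp v)
    rw [nsq_eq_norm, nsq_eq_norm] at h1
    have h2 : (WithLp.toLp 2 (U (WithLp.ofLp v)) : EuclideanSpace ℂ E) = f v := rfl
    have h3 : (WithLp.toLp 2 (WithLp.ofLp v) : EuclideanSpace ℂ E) = v := rfl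
    rw [h2, h3] at h1
    exact (pow_left_inj₀ (norm_nonneg _) (norm_nonneg _) two_ne_zero).1 h1
  let F : EuclideanSpace ℂ E →ₗᵢ[ℂ] EuclideanSpace ℂ E := ⟨f, hf⟩
  rw [Matrix.mem_unitaryGroup_iff']
  ext i j
  have h4 := F.inner_map_map (EuclideanSpace.single i (1 : ℂ)) (EuclideanSpace.single j (1 : ℂ))
  have h5 : ∀ k : E, ∀ l : E, F (EuclideanSpace.single k (1 : ℂ)) l =
      LinearMap.toMatrix' U l k := by
    intro k l
    rw [LinearMap.toMatrix'_apply]
    rfl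
  rw [PiLp.inner_apply] at h4
  simp only [h5] at h4
  rw [Matrix.mul_apply]
  simp only [Matrix.star_apply]
  rw [Matrix.one_apply]
  calc ∑ l, star (LinearMap.toMatrix' U l i) * LinearMap.toMatrix' U l j
      = ∑ l, inner ℂ (LinearMap.toMatrix' U l i) (LinearMap.toMatrix' U l j) := by
        refine Finset.sum_congr rfl fun l _ => ?_
        simp [mul_comm]
    _ = _ := h4
    _ = _ := by simp [EuclideanSpace.inner_single_left, Pi.single_apply, eq_comm]

theorem isI_mulVecLin [DecidableEq E] {U : Matrix E E ℂ} (h : U ∈ Matrix.unitaryGroup E ℂ) :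
    IsI (Matrix.mulVecLin U) := by
  intro ψ
  have key : ∀ φ : E → ℂ, ((nsq φ : ℝ) : ℂ) = star φ ⬝ᵥ φ := by
    intro φ
    simp only [nsq, dotProduct, Pi.star_apply]
    push_cast
    refine Finset.sum_congr rfl fun e _ => ?_
    rw [← Complex.conj_mul']
    rfl
  have : ((nsq (Matrix.mulVecLin U ψ) : ℝ) : ℂ) = ((nsq ψ : ℝ) : ℂ) := by
    rw [key, key, Matrix.mulVecLin_apply, Matrix.star_mulVec, ← Matrix.dotProduct_mulVec,
      Matrix.mulVec_mulVec]
    have h2 := Matrix.mem_unitaryGroup_iff'.1 h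
    rw [← Matrix.star_eq_conjTranspose, h2, Matrix.one_mulVec]
  exact_mod_cast this

end basics

/-! ### phase queries -/

/-- phase -/
noncomputable def sg {V E : Type} (τ : E → Option V) (x : V → Bool) (e : E) : ℂ :=
  match τ e with
  | none => 1
  | some v => if x v then -1 else 1

theorem sg_norm {V E : Type} (τ : E → Option V) (x : V → Bool) (e : E) : ‖sg τ x e‖ = 1 := by
  unfold sg
  split
  · simp
  · split_ifs <;> simp

theorem sg_mul_self {V E : Type} (τ : E → Option V) (x : V → Bool) (e : E) :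
    sg τ x e * sg τ x e = 1 := by
  unfold sg
  split
  · simp
  · split_ifs <;> simp

/-- the phase oracle -/
noncomputable def D {V E : Type} (τ : E → Option V) (x : V → Bool) :
    (E → ℂ) →ₗ[ℂ] (E → ℂ) where
  toFun ψ := fun e => sg τ x e * ψ e
  map_add' ψ φ := by funext e; simp [mul_add]
  map_smul' c ψ := by funext e; simp [mul_left_comm]

theorem D_apply {V E : Type} (τ : E → Option V) (x : V → Bool) (ψ : E → ℂ) (e : E) :
    D τ x ψ e = sg τ x e * ψ e := rfl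

theorem D_D {V E : Type} (τ : E → Option V) (x : V → Bool) (ψ : E → ℂ) :
    D τ x (D τ x ψ) = ψ := by
  funext e
  rw [D_apply, D_apply, ← mul_assoc, sg_mul_self, one_mul]

theorem isI_D {V E : Type} [Fintype E] (τ : E → Option V) (x : V → Bool) : IsI (D τ x) := by
  intro ψ
  unfold nsq
  refine Finset.sum_congr rfl fun e _ => ?_
  rw [D_apply, norm_mul, sg_norm, one_mul]

/-- `PQ τ q M`: `M x` is made with exactly `q` phase queries. -/
inductive PQ {V E : Type} [Fintype E] (τ : E → Option V) :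
    ℕ → ((V → Bool) → ((E → ℂ) →ₗ[ℂ] (E → ℂ))) → Prop
  | const (U : (E → ℂ) →ₗ[ℂ] (E → ℂ)) (hU : IsI U) : PQ τ 0 (fun _ => U)
  | step {q : ℕ} {M : (V → Bool) → ((E → ℂ) →ₗ[ℂ] (E → ℂ))} (U : (E → ℂ) →ₗ[ℂ] (E → ℂ))
      (hU : IsI U) (h : PQ τ q M) : PQ τ (q + 1) (fun x => U ∘ₗ (D τ x ∘ₗ M x))

section pq
variable {V E : Type} [Fintype E] {τ : E → Option V}
  {M N : (V → Bool) → ((E → ℂ) →ₗ[ℂ] (E → ℂ))} {q r : ℕ}

theorem PQ.isI (h : PQ τ q M) (x : V → Bool) : IsI (M x) := by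
  induction h with
  | const U hU => exact hU
  | step U hU h ih => exact hU.comp ((isI_D τ x).comp ih)

theorem PQ.congr (h : PQ τ q M) (hMN : ∀ x, M x = N x) : PQ τ q N := by
  have : M = N := funext hMN
  rwa [this] at h

theorem PQ.congr_q (h : PQ τ q M) (hq : q = r) : PQ τ r M := hq ▸ h

/-- compose with a fixed unitary on the left -/
theorem PQ.left (h : PQ τ q M) (U : (E → ℂ) →ₗ[ℂ] (E → ℂ)) (hU : IsI U) :
    PQ τ q (fun x => U ∘ₗ M x) := by
  cases h with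
  | const U' hU' => exact PQ.const _ (hU.comp hU')
  | step U' hU' h' => exact (PQ.step (U ∘ₗ U') (hU.comp hU') h').congr (fun x => rfl)

/-- composition -/
theorem PQ.comp (hN : PQ τ r N) (hM : PQ τ q M) : PQ τ (q + r) (fun x => N x ∘ₗ M x) := by
  induction hN with
  | const U hU => exact hM.left U hU
  | step U hU h ih => exact (PQ.step U hU ih).congr (fun x => rfl)

theorem PQ.one (U U' : (E → ℂ) →ₗ[ℂ] (E → ℂ)) (hU : IsI U) (hU' : IsI U') :
    PQ τ 1 (fun x => U ∘ₗ (D τ x ∘ₗ U')) := PQ.step U hU (PQ.const U' hU')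

/-- inverse -/
theorem PQ.exists_inv (h : PQ τ q M) :
    ∃ M' : (V → Bool) → ((E → ℂ) →ₗ[ℂ] (E → ℂ)), PQ τ q M' ∧ (∀ x ψ, M' x (M x ψ) = ψ) ∧
      ∀ x ψ, M x (M' x ψ) = ψ := by
  induction h with
  | const U hU =>
    obtain ⟨U', h1, h2, h3⟩ := hU.exists_inv
    exact ⟨fun _ => U', PQ.const U' h1, fun _ => h2, fun _ => h3⟩
  | step U hU h ih =>
    obtain ⟨U', h1, h2, h3⟩ := hU.exists_inv
    obtain ⟨M', g1, g2, g3⟩ := ih
    refine ⟨fun x => M' x ∘ₗ (LinearMap.id ∘ₗ (D τ x ∘ₗ U')), ?_, ?_, ?_⟩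
    · exact (g1.comp (PQ.one LinearMap.id U' IsI.id h1)).congr_q (by ring)
    · intro x ψ
      simp only [LinearMap.comp_apply, LinearMap.id_apply, h2, D_D, g2]
    · intro x ψ
      simp only [LinearMap.comp_apply, LinearMap.id_apply, g3, D_D, h3]

/-- Intertwining: transport along `J`. -/
theorem PQ.lift {E' : Type} [Fintype E'] {τ' : E' → Option V} (h : PQ τ q M)
    (J : (E → ℂ) → (E' → ℂ)) (hD : ∀ x ψ, D τ' x (J ψ) = J (D τ x ψ))
    (hU : ∀ U : (E → ℂ) →ₗ[ℂ] (E → ℂ), IsI U → ∃ U' : (E' → ℂ) →ₗ[ℂ] (E' → ℂ), IsI U' ∧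
      ∀ ψ, U' (J ψ) = J (U ψ)) :
    ∃ M' : (V → Bool) → ((E' → ℂ) →ₗ[ℂ] (E' → ℂ)), PQ τ' q M' ∧
      ∀ x ψ, M' x (J ψ) = J (M x ψ) := by
  induction h with
  | const U hU0 =>
    obtain ⟨U', h1, h2⟩ := hU U hU0
    exact ⟨fun _ => U', PQ.const U' h1, fun _ => h2⟩
  | step U hU0 h ih =>
    obtain ⟨U', h1, h2⟩ := hU U hU0
    obtain ⟨M', g1, g2⟩ := ih
    refine ⟨_, PQ.step U' h1 g1, fun x ψ => ?_⟩
    simp only [LinearMap.comp_apply, g2, hD, h2]

end pq

/-- the phase model of realizability -/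
def PReal {V α : Type} (P : (V → Bool) → α → ℝ) (q : ℕ) : Prop :=
  ∃ (E : Type) (_ : Fintype E) (τ : E → Option V)
    (M : (V → Bool) → ((E → ℂ) →ₗ[ℂ] (E → ℂ))) (ψ : E → ℂ) (out : E → α),
    PQ τ q M ∧ nsq ψ = 1 ∧ ∀ x a, P x a = ∑ e, if out e = a then ‖M x ψ e‖ ^ 2 else 0

/-! ### from the phase model to the standard model -/

section toReal
variable {V E : Type} [Fintype V] [Fintype E]

/-- matrices of a sequence of linear maps -/
theorem orac_lin (x : V → Bool) (ψ : V × Bool × E → ℂ) (e : V × Bool × E) :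
    orac x ψ e = ψ (e.1, xor e.2.1 (x e.1), e.2.2) := rfl

/-- embedding with `|v₀⟩|+⟩` -/
noncomputable def J (v₀ : V) (ψ : E → ℂ) : V × Bool × E → ℂ :=
  fun p => if p.1 = v₀ then ψ p.2.2 * ((Real.sqrt 2)⁻¹ : ℝ) else 0

/-- lift of a map acting on the work register -/
noncomputable def LU (U : (E → ℂ) →ₗ[ℂ] (E → ℂ)) :
    (V × Bool × E → ℂ) →ₗ[ℂ] (V × Bool × E → ℂ) where
  toFun Ψ := fun p => U (fun e => Ψ (p.1, p.2.1, e)) p.2.2
  map_add' Ψ Φ := by
    funext p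
    exact congrFun (map_add U (fun e => Ψ (p.1, p.2.1, e)) (fun e => Φ (p.1, p.2.1, e))) p.2.2
  map_smul' c Ψ := by
    funext p
    exact congrFun (map_smul U c (fun e => Ψ (p.1, p.2.1, e))) p.2.2

theorem LU_apply (U : (E → ℂ) →ₗ[ℂ] (E → ℂ)) (Ψ : V × Bool × E → ℂ) (p : V × Bool × E) :
    LU U Ψ p = U (fun e => Ψ (p.1, p.2.1, e)) p.2.2 := rfl

theorem nsq_prod3 (Ψ : V × Bool × E → ℂ) :
    nsq Ψ = ∑ v, ∑ b, nsq (fun e => Ψ (v, b, e)) := by
  unfold nsq
  rw [Fintype.sum_prod_type]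
  refine Finset.sum_congr rfl fun v _ => ?_
  rw [Fintype.sum_prod_type]

theorem isI_LU {U : (E → ℂ) →ₗ[ℂ] (E → ℂ)} (h : IsI U) : IsI (LU (V := V) U) := by
  intro Ψ
  rw [nsq_prod3, nsq_prod3]
  refine Finset.sum_congr rfl fun v _ => Finset.sum_congr rfl fun b _ => ?_
  exact h (fun e => Ψ (v, b, e))

theorem LU_J (v₀ : V) (U : (E → ℂ) →ₗ[ℂ] (E → ℂ)) (ψ : E → ℂ) : LU U (J v₀ ψ) = J v₀ (U ψ) := by
  funext p
  rw [LU_apply]
  unfold J
  by_cases hp : p.1 = v₀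
  · simp only [hp, if_true]
    have : (fun e => ψ e * (((Real.sqrt 2)⁻¹ : ℝ) : ℂ)) = (((Real.sqrt 2)⁻¹ : ℝ) : ℂ) • ψ := by
      funext e; simp [mul_comm]
    rw [this, map_smul]
    simp [mul_comm]
  · simp only [hp, if_false]
    have : (fun _ : E => (0 : ℂ)) = 0 := rfl
    rw [this, map_zero]
    rfl

/-- the controlled swap and sign -/
noncomputable def Cc (v₀ : V) (τ : E → Option V) :
    (V × Bool × E → ℂ) →ₗ[ℂ] (V × Bool × E → ℂ) where
  toFun Ψ := fun p => match τ p.2.2 with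
    | none => Ψ p
    | some v => (if p.2.1 then -1 else 1) * Ψ (Equiv.swap v₀ v p.1, p.2.1, p.2.2)
  map_add' Ψ Φ := by
    funext p
    rcases h : τ p.2.2 with _ | v
    · simp [h]
    · simp [h, mul_add]
  map_smul' c Ψ := by
    funext p
    rcases h : τ p.2.2 with _ | v
    · simp [h]
    · simp [h, mul_left_comm]

theorem Cc_apply_none (v₀ : V) (τ : E → Option V) (Ψ : V × Bool × E → ℂ) (v : V) (b : Bool)
    (e : E) (h : τ e = none) : Cc v₀ τ Ψ (v, b, e) = Ψ (v, b, e) := by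
  simp [Cc, h]

theorem Cc_apply_some (v₀ : V) (τ : E → Option V) (Ψ : V × Bool × E → ℂ) (v w : V) (b : Bool)
    (e : E) (h : τ e = some w) :
    Cc v₀ τ Ψ (v, b, e) = (if b then -1 else 1) * Ψ (Equiv.swap v₀ w v, b, e) := by
  simp [Cc, h]

theorem isI_Cc (v₀ : V) (τ : E → Option V) : IsI (Cc v₀ τ) := by
  intro Ψ
  have key : ∀ Φ : V × Bool × E → ℂ, nsq Φ = ∑ e, ∑ b, ∑ v, ‖Φ (v, b, e)‖ ^ 2 := by
    intro Φ
    rw [nsq_prod3]
    unfold nsq
    rw [Finset.sum_comm]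
    simp_rw [Finset.sum_comm (s := (Finset.univ : Finset V)) (t := (Finset.univ : Finset E))]
    rw [Finset.sum_comm]
  rw [key, key]
  refine Finset.sum_congr rfl fun e _ => Finset.sum_congr rfl fun b _ => ?_
  rcases h : τ e with _ | w
  · refine Finset.sum_congr rfl fun v _ => ?_
    rw [Cc_apply_none v₀ τ Ψ v b e h]
  · rw [← Equiv.sum_comp (Equiv.swap v₀ w) (fun v => ‖Ψ (v, b, e)‖ ^ 2)]
    refine Finset.sum_congr rfl fun v _ => ?_
    rw [Cc_apply_some v₀ τ Ψ v w b e h, norm_mul]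
    cases b <;> simp

/-- the simulation of a phase query -/
theorem Cc_orac_Cc_J (v₀ : V) (τ : E → Option V) (x : V → Bool) (ψ : E → ℂ) :
    Cc v₀ τ (orac x (Cc v₀ τ (J v₀ ψ))) = J v₀ (D τ x ψ) := by
  funext p
  obtain ⟨v, b, e⟩ := p
  rcases h : τ e with _ | w
  · rw [Cc_apply_none v₀ τ _ v b e h]
    simp only [orac]
    rw [Cc_apply_none v₀ τ _ _ _ e h]
    unfold J
    simp only [D_apply, sg, h, one_mul]
  · rw [Cc_apply_some v₀ τ _ v w b e h]
    simp only [orac]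
    rw [Cc_apply_some v₀ τ _ _ w _ e h]
    unfold J
    simp only [D_apply, sg, h, Equiv.swap_apply_self]
    by_cases hv : v = v₀
    · subst hv
      simp only [Equiv.swap_apply_left, if_true]
      cases b <;> cases x w <;> simp
    · simp [hv]

theorem norm_J (v₀ : V) (ψ : E → ℂ) (S : E → Prop) :
    (∑ p : V × Bool × E, if S p.2.2 then ‖J v₀ ψ p‖ ^ 2 else 0) =
      ∑ e, if S e then ‖ψ e‖ ^ 2 else 0 := by
  rw [Fintype.sum_prod_type]
  have h1 : ∀ v : V, v ≠ v₀ → (∑ y : Bool × E, if S (v, y).2.2 then ‖J v₀ ψ (v, y)‖ ^ 2 else 0)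
      = 0 := by
    intro v hv
    refine Finset.sum_eq_zero fun y _ => ?_
    simp [J, hv]
  rw [Finset.sum_eq_single v₀ (fun v _ hv => h1 v hv) (by simp)]
  rw [Fintype.sum_prod_type]
  have h2 : ∀ b : Bool, (∑ e : E, if S (v₀, b, e).2.2 then ‖J v₀ ψ (v₀, b, e)‖ ^ 2 else 0) =
      (1 / 2) * ∑ e, if S e then ‖ψ e‖ ^ 2 else 0 := by
    intro b
    rw [Finset.mul_sum]
    refine Finset.sum_congr rfl fun e _ => ?_
    by_cases hS : S e
    · simp only [hS, if_true, J, norm_mul, mul_pow, Complex.norm_real, Real.norm_eq_abs, sq_abs,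
        inv_pow, Real.sq_sqrt (by norm_num : (0:ℝ) ≤ 2)]
      ring
    · simp [hS]
  simp only [h2]
  simp

theorem toReal_aux (v₀ : V) {τ : E → Option V} {q : ℕ}
    {M : (V → Bool) → ((E → ℂ) →ₗ[ℂ] (E → ℂ))} (h : PQ τ q M) :
    ∀ R : (V × Bool × E → ℂ) →ₗ[ℂ] (V × Bool × E → ℂ), IsI R →
      ∃ U : ℕ → Matrix (V × Bool × E) (V × Bool × E) ℂ,
        (∀ t, U t ∈ Matrix.unitaryGroup (V × Bool × E) ℂ) ∧
        ∀ x ψ, runState U x (J v₀ ψ) q = R (J v₀ (M x ψ)) := by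
  induction h with
  | const U hU =>
    intro R hR
    refine ⟨fun _ => LinearMap.toMatrix' (R ∘ₗ LU U), fun _ => (hR.comp (isI_LU hU)).mem, ?_⟩
    intro x ψ
    simp only [runState]
    rw [LinearMap.toMatrix'_mulVec, LinearMap.comp_apply, LU_J]
  | @step q M U hU h ih =>
    intro R hR
    obtain ⟨W, hW, hW2⟩ := ih (Cc v₀ τ) (isI_Cc v₀ τ)
    have hunif : IsI (R ∘ₗ (LU U ∘ₗ Cc v₀ τ)) := hR.comp ((isI_LU hU).comp (isI_Cc v₀ τ))
    refine ⟨fun t => if t = q + 1 then LinearMap.toMatrix' (R ∘ₗ (LU U ∘ₗ Cc v₀ τ)) else W t,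
      fun t => ?_, fun x ψ => ?_⟩
    · by_cases ht : t = q + 1
      · simp only [ht, if_true]; exact hunif.mem
      · simp only [ht, if_false]; exact hW t
    · have hrun : ∀ t, t ≤ q → runState
          (fun t => if t = q + 1 then LinearMap.toMatrix' (R ∘ₗ (LU U ∘ₗ Cc v₀ τ)) else W t) x
          (J v₀ ψ) t = runState W x (J v₀ ψ) t := by
        intro t
        induction t with
        | zero => intro _; simp [runState]
        | succ t iht =>
          intro ht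
          simp only [runState]
          rw [iht (by omega), if_neg (by omega)]
      simp only [runState]
      rw [hrun q le_rfl, hW2, if_pos trivial, LinearMap.toMatrix'_mulVec, LinearMap.comp_apply,
        LinearMap.comp_apply, Cc_orac_Cc_J, LU_J]
      rfl

theorem realizable_of_preal {V α : Type} [Fintype V] [Nonempty V] {P : (V → Bool) → α → ℝ}
    {q : ℕ} (h : PReal P q) : Realizable P q := by
  obtain ⟨E, hE, τ, M, ψ, out, h1, h2, h3⟩ := h
  obtain ⟨v₀⟩ := ‹Nonempty V›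
  obtain ⟨U, hU, hU2⟩ := toReal_aux v₀ h1 LinearMap.id IsI.id
  refine ⟨E, hE, U, J v₀ ψ, fun p => out p.2.2, hU, ?_, fun x a => ?_⟩
  · have := norm_J v₀ ψ (fun _ => True)
    simp only [if_true] at this
    rw [this]
    exact h2
  · rw [h3 x a]
    simp only [hU2, LinearMap.id_apply]
    exact (norm_J v₀ (M x ψ) (fun e => out e = a)).symm

end toReal

/-! ### from the standard model to the phase model -/

section ofReal
variable {V W : Type} [Fintype V] [Fintype W]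

/-- Hadamard on the target bit -/
noncomputable def Hd : (V × Bool × W → ℂ) →ₗ[ℂ] (V × Bool × W → ℂ) where
  toFun Ψ := fun p => (Ψ (p.1, false, p.2.2) + (if p.2.1 then -1 else 1) * Ψ (p.1, true, p.2.2)) *
    (((Real.sqrt 2)⁻¹ : ℝ) : ℂ)
  map_add' Ψ Φ := by
    funext p
    simp only [Pi.add_apply]
    ring
  map_smul' c Ψ := by
    funext p
    simp only [Pi.smul_apply, smul_eq_mul, RingHom.id_apply]
    ring

theorem Hd_apply (Ψ : V × Bool × W → ℂ) (v : V) (b : Bool) (w : W) :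
    Hd Ψ (v, b, w) = (Ψ (v, false, w) + (if b then -1 else 1) * Ψ (v, true, w)) *
      (((Real.sqrt 2)⁻¹ : ℝ) : ℂ) := rfl

theorem sqrt2_sq : ((((Real.sqrt 2)⁻¹ : ℝ) : ℂ)) * (((Real.sqrt 2)⁻¹ : ℝ) : ℂ) = 1 / 2 := by
  rw [← Complex.ofReal_mul, ← mul_inv, Real.mul_self_sqrt (by norm_num)]
  norm_num

theorem isI_Hd : IsI (Hd (V := V) (W := W)) := by
  intro Ψ
  have key : ∀ Φ : V × Bool × W → ℂ, nsq Φ =
      ∑ v, ∑ w, (‖Φ (v, false, w)‖ ^ 2 + ‖Φ (v, true, w)‖ ^ 2) := by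
    intro Φ
    rw [nsq_prod3]
    refine Finset.sum_congr rfl fun v _ => ?_
    unfold nsq
    rw [Fintype.sum_bool, ← Finset.sum_add_distrib]
    refine Finset.sum_congr rfl fun w _ => ?_
    ring
  rw [key, key]
  refine Finset.sum_congr rfl fun v _ => Finset.sum_congr rfl fun w _ => ?_
  rw [Hd_apply, Hd_apply]
  set a := Ψ (v, false, w)
  set b := Ψ (v, true, w)
  simp only [Bool.false_eq_true, if_false, if_true, one_mul, norm_mul, mul_pow, Complex.norm_real,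
    Real.norm_eq_abs, sq_abs, inv_pow, Real.sq_sqrt (by norm_num : (0:ℝ) ≤ 2)]
  have h1 : ‖a + b‖ ^ 2 + ‖a + -1 * b‖ ^ 2 = 2 * (‖a‖ ^ 2 + ‖b‖ ^ 2) := by
    have := parallelogram_law_with_norm ℝ a b
    have h2 : a + -1 * b = a - b := by ring
    rw [h2]
    nlinarith [this]
  nlinarith [h1]

/-- the read variable in the phase picture -/
def tau0 : V × Bool × W → Option V := fun p => if p.2.1 then some p.1 else none

theorem orac_eq (x : V → Bool) (Ψ : V × Bool × W → ℂ) :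
    orac x Ψ = Hd (D tau0 x (Hd Ψ)) := by
  funext p
  obtain ⟨v, b, w⟩ := p
  rw [Hd_apply, D_apply, D_apply, Hd_apply, Hd_apply]
  simp only [orac, sg, tau0, Bool.false_eq_true, if_false, if_true]
  set a := Ψ (v, false, w) with ha
  set c := Ψ (v, true, w) with hc
  have h2 := sqrt2_sq
  cases b <;> cases hx : x v <;> simp only [Bool.false_eq_true, if_false, if_true, Bool.xor_false,
    Bool.xor_true, Bool.not_false, Bool.not_true]
  · linear_combination (-2 * a) * h2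
  · linear_combination (-2 * c) * h2
  · linear_combination (-2 * c) * h2
  · linear_combination (-2 * a) * h2

theorem preal_of_realizable {V α : Type} [Fintype V] {P : (V → Bool) → α → ℝ}
    {q : ℕ} (h : Realizable P q) : PReal P q := by
  obtain ⟨W, hW, U, ψ₀, out, h1, h2, h3⟩ := h
  have key : ∀ t, ∃ M : (V → Bool) → ((V × Bool × W → ℂ) →ₗ[ℂ] (V × Bool × W → ℂ)),
      PQ (tau0 (V := V) (W := W)) t M ∧ ∀ x, M x ψ₀ = runState U x ψ₀ t := by
    intro t
    induction t with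
    | zero => exact ⟨_, PQ.const _ (isI_mulVecLin (h1 0)), fun x => rfl⟩
    | succ t ih =>
      obtain ⟨M, hM, hM2⟩ := ih
      refine ⟨_, PQ.step ((U (t + 1)).mulVecLin ∘ₗ Hd) ((isI_mulVecLin (h1 (t + 1))).comp isI_Hd)
        (hM.left Hd isI_Hd), fun x => ?_⟩
      simp only [LinearMap.comp_apply, hM2]
      rw [← orac_eq]
      rfl
  obtain ⟨M, hM, hM2⟩ := key q
  exact ⟨V × Bool × W, inferInstance, tau0, M, ψ₀, out, hM, h2, fun x a => by
    rw [h3 x a, hM2]⟩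

end ofReal

theorem realizable_iff {V α : Type} [Fintype V] [Nonempty V] {P : (V → Bool) → α → ℝ} {q : ℕ} :
    Realizable P q ↔ PReal P q := ⟨preal_of_realizable, realizable_of_preal⟩

/-- a realizable family lives on a nonempty variable type -/
theorem nonempty_of_realizable {V α : Type} [Fintype V] {P : (V → Bool) → α → ℝ} {q : ℕ}
    (h : Realizable P q) : Nonempty V := by
  obtain ⟨W, hW, U, ψ₀, out, h1, h2, h3⟩ := h
  by_contra hV
  rw [not_nonempty_iff] at hV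
  rw [Fintype.sum_empty] at h2
  exact zero_ne_one h2

/-! ### basic closure properties in the phase model -/

section closure
variable {V : Type}

theorem PReal.congr {α : Type} {P Q : (V → Bool) → α → ℝ} {q : ℕ} (h : PReal P q)
    (hPQ : ∀ x a, P x a = Q x a) : PReal Q q := by
  have : P = Q := by funext x a; exact hPQ x a
  rwa [this] at h

/-- idle queries -/
theorem PQ.idle {E : Type} [Fintype E] (q : ℕ) :
    PQ (fun _ : E => (none : Option V)) q (fun _ => LinearMap.id) := by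
  induction q with
  | zero => exact PQ.const _ IsI.id
  | succ q ih =>
    refine (PQ.step LinearMap.id IsI.id ih).congr fun x => ?_
    apply LinearMap.ext
    intro ψ
    funext e
    simp [D_apply, sg]

/-- pure distributions, with any number of idle queries -/
theorem PReal.pure {α : Type} [Fintype α] (μ : α → ℝ) (q : ℕ) (h0 : ∀ a, 0 ≤ μ a)
    (h1 : ∑ a, μ a = 1) : PReal (fun _ : V → Bool => μ) q := by
  refine ⟨α, inferInstance, fun _ => none, _, fun a => (Real.sqrt (μ a) : ℂ), fun a => a,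
    PQ.idle q, ?_, ?_⟩
  · unfold nsq
    rw [← h1]
    refine Finset.sum_congr rfl fun a _ => ?_
    rw [Complex.norm_real, Real.norm_eq_abs, sq_abs, Real.sq_sqrt (h0 a)]
  · intro x a
    simp only [LinearMap.id_apply, Complex.norm_real, Real.norm_eq_abs, sq_abs]
    rw [Finset.sum_ite_eq' Finset.univ a (fun e => Real.sqrt (μ e) ^ 2)]
    simp [Real.sq_sqrt (h0 a)]

theorem PReal.map {α β : Type} [Fintype α] (f : α → β) {P : (V → Bool) → α → ℝ} {q : ℕ}
    (h : PReal P q) : PReal (fun x b => ∑ a, if f a = b then P x a else 0) q := by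
  obtain ⟨E, hE, τ, M, ψ, out, h1, h2, h3⟩ := h
  refine ⟨E, hE, τ, M, ψ, fun e => f (out e), h1, h2, fun x b => ?_⟩
  simp only [h3]
  have : ∀ a, (if f a = b then ∑ e, (if out e = a then ‖M x ψ e‖ ^ 2 else 0) else 0) =
      ∑ e, if out e = a then (if f (out e) = b then ‖M x ψ e‖ ^ 2 else 0) else 0 := by
    intro a
    by_cases hf : f a = b
    · rw [if_pos hf]
      refine Finset.sum_congr rfl fun e _ => ?_
      by_cases he : out e = a
      · simp [he, hf]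
      · simp [he]
    · rw [if_neg hf]
      symm
      refine Finset.sum_eq_zero fun e _ => ?_
      by_cases he : out e = a
      · simp [he, hf]
      · simp [he]
  simp only [this]
  rw [Finset.sum_comm]
  refine Finset.sum_congr rfl fun e _ => ?_
  rw [Finset.sum_ite_eq Finset.univ (out e)]
  simp

theorem PReal.nonneg {α : Type} {P : (V → Bool) → α → ℝ} {q : ℕ} (h : PReal P q) (x a) :
    0 ≤ P x a := by
  obtain ⟨E, hE, τ, M, ψ, out, h1, h2, h3⟩ := h
  rw [h3]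
  refine Finset.sum_nonneg fun e _ => ?_
  split_ifs <;> positivity

theorem PReal.sum_one {α : Type} [Fintype α] {P : (V → Bool) → α → ℝ} {q : ℕ} (h : PReal P q)
    (x) : ∑ a, P x a = 1 := by
  obtain ⟨E, hE, τ, M, ψ, out, h1, h2, h3⟩ := h
  simp only [h3]
  rw [Finset.sum_comm]
  have : ∀ e, (∑ a, if out e = a then ‖M x ψ e‖ ^ 2 else 0) = ‖M x ψ e‖ ^ 2 := by
    intro e
    rw [Finset.sum_ite_eq Finset.univ (out e)]
    simp
  simp only [this]
  rw [← h2]
  exact h1.isI x ψ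

theorem PReal.reindex {V' α : Type} (ι : V' → V) {P : (V' → Bool) → α → ℝ} {q : ℕ}
    (h : PReal P q) : PReal (fun (x : V → Bool) => P (fun v => x (ι v))) q := by
  obtain ⟨E, hE, τ, M, ψ, out, h1, h2, h3⟩ := h
  refine ⟨E, hE, fun e => (τ e).map ι, fun x => M (fun v => x (ι v)), ψ, out, ?_, h2,
    fun x a => h3 _ a⟩
  clear h3
  induction h1 with
  | const U hU => exact PQ.const U hU
  | @step q M U hU h ih =>
    refine (PQ.step U hU ih).congr fun x => ?_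
    congr 1
    congr 1
    apply LinearMap.ext
    intro φ
    funext e
    rw [D_apply, D_apply]
    congr 1
    unfold sg
    rcases h : τ e with _ | v <;> simp [h]

end closure

/-! ### bind -/

section bind
variable {V : Type} {E₁ : Type} [Fintype E₁] {α : Type} [Fintype α] {E₂ : α → Type}
  [∀ a, Fintype (E₂ a)]

theorem PQ.inv_zero {E : Type} [Fintype E] {τ : E → Option V}
    {M : (V → Bool) → ((E → ℂ) →ₗ[ℂ] (E → ℂ))} (h : PQ τ 0 M) :
    ∃ U, IsI U ∧ ∀ x, M x = U := by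
  cases h with
  | const U hU => exact ⟨U, hU, fun _ => rfl⟩

theorem PQ.inv_succ {E : Type} [Fintype E] {τ : E → Option V} {q : ℕ}
    {M : (V → Bool) → ((E → ℂ) →ₗ[ℂ] (E → ℂ))} (h : PQ τ (q + 1) M) :
    ∃ U N, IsI U ∧ PQ τ q N ∧ ∀ x, M x = U ∘ₗ (D τ x ∘ₗ N x) := by
  cases h with
  | step U hU h => exact ⟨U, _, hU, h, fun _ => rfl⟩

/-- a map on the first factor controlled by the second factor -/
noncomputable def ctrl {O E : Type} (Uf : E → ((O → ℂ) →ₗ[ℂ] (O → ℂ))) :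
    (O × E → ℂ) →ₗ[ℂ] (O × E → ℂ) where
  toFun Ψ := fun p => Uf p.2 (fun o => Ψ (o, p.2)) p.1
  map_add' Ψ Φ := by
    funext p
    exact congrFun (map_add (Uf p.2) (fun o => Ψ (o, p.2)) (fun o => Φ (o, p.2))) p.1
  map_smul' c Ψ := by
    funext p
    exact congrFun (map_smul (Uf p.2) c (fun o => Ψ (o, p.2))) p.1

theorem ctrl_apply {O E : Type} (Uf : E → ((O → ℂ) →ₗ[ℂ] (O → ℂ))) (Ψ : O × E → ℂ) (o : O)
    (e : E) : ctrl Uf Ψ (o, e) = Uf e (fun o => Ψ (o, e)) o := rfl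

theorem nsq_prod {O E : Type} [Fintype O] [Fintype E] (Ψ : O × E → ℂ) :
    nsq Ψ = ∑ e, nsq (fun o => Ψ (o, e)) := by
  unfold nsq
  rw [Fintype.sum_prod_type_right]

theorem nsq_prod' {O E : Type} [Fintype O] [Fintype E] (Ψ : O × E → ℂ) :
    nsq Ψ = ∑ o, nsq (fun e => Ψ (o, e)) := by
  unfold nsq
  rw [Fintype.sum_prod_type]

theorem isI_ctrl {O E : Type} [Fintype O] [Fintype E] {Uf : E → ((O → ℂ) →ₗ[ℂ] (O → ℂ))}
    (h : ∀ e, IsI (Uf e)) : IsI (ctrl Uf) := by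
  intro Ψ
  rw [nsq_prod, nsq_prod]
  refine Finset.sum_congr rfl fun e _ => ?_
  exact h e (fun o => Ψ (o, e))

/-- a map on the second factor -/
noncomputable def sec {O E : Type} (U : (E → ℂ) →ₗ[ℂ] (E → ℂ)) :
    (O × E → ℂ) →ₗ[ℂ] (O × E → ℂ) where
  toFun Ψ := fun p => U (fun e => Ψ (p.1, e)) p.2
  map_add' Ψ Φ := by
    funext p
    exact congrFun (map_add U (fun e => Ψ (p.1, e)) (fun e => Φ (p.1, e))) p.2
  map_smul' c Ψ := by
    funext p
    exact congrFun (map_smul U c (fun e => Ψ (p.1, e))) p.2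

theorem isI_sec {O E : Type} [Fintype O] [Fintype E] {U : (E → ℂ) →ₗ[ℂ] (E → ℂ)}
    (h : IsI U) : IsI (sec (O := O) U) := by
  intro Ψ
  rw [nsq_prod', nsq_prod']
  refine Finset.sum_congr rfl fun o _ => ?_
  exact h (fun e => Ψ (o, e))

/-- the first register of the combined algorithm -/
abbrev OB (E₂ : α → Type) : Type := (Σ a, E₂ a) ⊕ Unit

/-- block map -/
noncomputable def blk (U : ∀ a, (E₂ a → ℂ) →ₗ[ℂ] (E₂ a → ℂ)) :
    (OB E₂ → ℂ) →ₗ[ℂ] (OB E₂ → ℂ) where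
  toFun φ := fun o => match o with
    | Sum.inl p => U p.1 (fun e => φ (Sum.inl ⟨p.1, e⟩)) p.2
    | Sum.inr u => φ (Sum.inr u)
  map_add' Ψ Φ := by
    funext p
    rcases p with p | u
    · exact congrFun (map_add (U p.1) (fun e => Ψ (Sum.inl ⟨p.1, e⟩))
        (fun e => Φ (Sum.inl ⟨p.1, e⟩))) p.2
    · rfl
  map_smul' c Ψ := by
    funext p
    rcases p with p | u
    · exact congrFun (map_smul (U p.1) c (fun e => Ψ (Sum.inl ⟨p.1, e⟩))) p.2
    · rfl

theorem nsq_OB (φ : OB E₂ → ℂ) :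
    nsq φ = (∑ a, nsq (fun e => φ (Sum.inl ⟨a, e⟩))) + ‖φ (Sum.inr ())‖ ^ 2 := by
  unfold nsq
  rw [Fintype.sum_sum_type, Fintype.sum_sigma]
  simp

theorem isI_blk {U : ∀ a, (E₂ a → ℂ) →ₗ[ℂ] (E₂ a → ℂ)} (h : ∀ a, IsI (U a)) : IsI (blk U) := by
  intro φ
  rw [nsq_OB, nsq_OB]
  congr 1
  refine Finset.sum_congr rfl fun a _ => ?_
  exact h a (fun e => φ (Sum.inl ⟨a, e⟩))

/-- the read variables of the combined algorithm -/
def tauB (τ₁ : E₁ → Option V) (τ₂ : ∀ a, E₂ a → Option V) : OB E₂ × E₁ → Option V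
  | (Sum.inl p, _) => τ₂ p.1 p.2
  | (Sum.inr _, e₁) => τ₁ e₁

/-- embedding in phase 1 -/
noncomputable def J₁ (c : E₁ → ℂ) : OB E₂ × E₁ → ℂ
  | (Sum.inl _, _) => 0
  | (Sum.inr _, e₁) => c e₁

/-- embedding in phase 2 -/
noncomputable def K₂ (out : E₁ → α) (c : E₁ → ℂ) (φ : ∀ a, E₂ a → ℂ) : OB E₂ × E₁ → ℂ
  | (Sum.inl p, e₁) => if p.1 = out e₁ then c e₁ * φ p.1 p.2 else 0
  | (Sum.inr _, _) => 0

theorem phase1 {τ₁ : E₁ → Option V} (τ₂ : ∀ a, E₂ a → Option V) {q : ℕ}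
    {M : (V → Bool) → ((E₁ → ℂ) →ₗ[ℂ] (E₁ → ℂ))} (h : PQ τ₁ q M) :
    ∃ M' : (V → Bool) → ((OB E₂ × E₁ → ℂ) →ₗ[ℂ] (OB E₂ × E₁ → ℂ)), PQ (tauB τ₁ τ₂) q M' ∧
      ∀ x ψ, M' x (J₁ ψ) = J₁ (M x ψ) := by
  refine h.lift J₁ ?_ ?_
  · intro x ψ
    funext p
    rcases p with ⟨p | u, e⟩
    · rw [D_apply]; simp [J₁]
    · rw [D_apply]; simp only [J₁]; rw [D_apply]; rfl
  · intro U hU
    refine ⟨sec U, isI_sec hU, fun ψ => ?_⟩
    funext p
    rcases p with ⟨p | u, e⟩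
    · change U (fun e => (0 : ℂ)) e = 0
      have : (fun _ : E₁ => (0 : ℂ)) = 0 := rfl
      rw [this, map_zero]; rfl
    · rfl

theorem phase2 (τ₁ : E₁ → Option V) (τ₂ : ∀ a, E₂ a → Option V) (out : E₁ → α) (q : ℕ) :
    ∀ M : ∀ a, (V → Bool) → ((E₂ a → ℂ) →ₗ[ℂ] (E₂ a → ℂ)), (∀ a, PQ (τ₂ a) q (M a)) →
    ∃ M' : (V → Bool) → ((OB E₂ × E₁ → ℂ) →ₗ[ℂ] (OB E₂ × E₁ → ℂ)), PQ (tauB τ₁ τ₂) q M' ∧
      ∀ x c φ, M' x (K₂ out c φ) = K₂ out c (fun a => M a x (φ a)) := by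
  have hblk : ∀ (U : ∀ a, (E₂ a → ℂ) →ₗ[ℂ] (E₂ a → ℂ)) (c : E₁ → ℂ) (φ : ∀ a, E₂ a → ℂ),
      ctrl (fun _ : E₁ => blk U) (K₂ out c φ) = K₂ out c (fun a => U a (φ a)) := by
    intro U c φ
    funext p
    rcases p with ⟨⟨a, e⟩ | u, e₁⟩
    · rw [ctrl_apply]
      change U a (fun e => K₂ out c φ (Sum.inl ⟨a, e⟩, e₁)) e = _
      simp only [K₂]
      by_cases ha : a = out e₁
      · simp only [ha, if_true]
        subst ha
        exact congrFun (map_smul (U (out e₁)) (c e₁) (φ (out e₁))) e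
      · simp only [ha, if_false]
        have : (fun _ : E₂ a => (0 : ℂ)) = 0 := rfl
        rw [this, map_zero]; rfl
    · rfl
  have hDK : ∀ (x : V → Bool) (c : E₁ → ℂ) (φ : ∀ a, E₂ a → ℂ),
      D (tauB τ₁ τ₂) x (K₂ out c φ) = K₂ out c (fun a => D (τ₂ a) x (φ a)) := by
    intro x c φ
    funext p
    rcases p with ⟨⟨a, e⟩ | u, e₁⟩
    · rw [D_apply]
      simp only [K₂]
      by_cases ha : a = out e₁
      · simp only [ha, if_true]
        subst ha
        rw [D_apply, mul_left_comm]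
        rfl
      · simp [ha]
    · rw [D_apply]; simp [K₂]
  induction q with
  | zero =>
    intro M hM
    choose U hU hU2 using fun a => (hM a).inv_zero
    refine ⟨_, PQ.const (ctrl (fun _ : E₁ => blk U)) (isI_ctrl fun _ => isI_blk hU), ?_⟩
    intro x c φ
    rw [hblk]
    simp only [hU2]
  | succ q ih =>
    intro M hM
    choose U N hU hN hU2 using fun a => (hM a).inv_succ
    obtain ⟨N', hN', hN2⟩ := ih N hN
    refine ⟨_, PQ.step (ctrl (fun _ : E₁ => blk U)) (isI_ctrl fun _ => isI_blk hU) hN', ?_⟩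
    intro x c φ
    simp only [LinearMap.comp_apply, hN2, hU2, hDK, hblk]

theorem norm_K₂ {β : Type} (out : E₁ → α) (out₂ : ∀ a, E₂ a → β) (b₀ b : β) (c : E₁ → ℂ)
    (φ : ∀ a, E₂ a → ℂ) :
    (∑ p : OB E₂ × E₁, if (match p.1 with
        | Sum.inl p => out₂ p.1 p.2
        | Sum.inr _ => b₀) = b then ‖K₂ out c φ p‖ ^ 2 else 0) =
      ∑ e₁, ‖c e₁‖ ^ 2 * ∑ e, if out₂ (out e₁) e = b then ‖φ (out e₁) e‖ ^ 2 else 0 := by
  rw [Fintype.sum_prod_type_right]
  refine Finset.sum_congr rfl fun e₁ _ => ?_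
  rw [Fintype.sum_sum_type, Fintype.sum_sigma]
  rw [Finset.sum_eq_single (out e₁)]
  · rw [Finset.mul_sum]
    have : (∑ u : Unit, if (match ((Sum.inr u : OB E₂), e₁).1 with
        | Sum.inl p => out₂ p.1 p.2
        | Sum.inr _ => b₀) = b then ‖K₂ out c φ (Sum.inr u, e₁)‖ ^ 2 else 0) = 0 := by
      simp [K₂]
    rw [this, add_zero]
    refine Finset.sum_congr rfl fun e _ => ?_
    simp only [K₂, if_true, norm_mul, mul_pow]
    split_ifs <;> simp
  · intro a _ ha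
    refine Finset.sum_eq_zero fun e _ => ?_
    simp [K₂, ha]
  · intro h; exact absurd (Finset.mem_univ _) h

theorem PReal.bind {α β : Type} [Fintype α] {P : (V → Bool) → α → ℝ} {q₁ : ℕ}
    {R : α → (V → Bool) → β → ℝ} {q₂ : ℕ} (hP : PReal P q₁) (hR : ∀ a, PReal (R a) q₂) :
    PReal (fun x b => ∑ a, P x a * R a x b) (q₁ + q₂) := by
  obtain ⟨E₁, hE₁, τ₁, M₁, ψ₁, out, h1, h2, h3⟩ := hP
  choose E₂ hE₂ τ₂ M₂ ψ₂ out₂ g1 g2 g3 using hR
  obtain ⟨M₁', k1, k2⟩ := phase1 (E₂ := E₂) τ₂ h1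
  obtain ⟨M₂', l1, l2⟩ := phase2 τ₁ τ₂ out q₂ M₂ g1
  -- some element of `β`
  have hE₁n : Nonempty E₁ := by
    by_contra hc
    rw [not_nonempty_iff] at hc
    unfold nsq at h2
    rw [Fintype.sum_empty] at h2
    exact zero_ne_one h2
  obtain ⟨e₀⟩ := hE₁n
  have hE₂n : Nonempty (E₂ (out e₀)) := by
    by_contra hc
    rw [not_nonempty_iff] at hc
    have := g2 (out e₀)
    unfold nsq at this
    rw [Fintype.sum_empty] at this
    exact zero_ne_one this
  obtain ⟨f₀⟩ := hE₂n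
  -- preparation
  let ι : ∀ a, OB E₂ → ℂ := fun a o => match o with
    | Sum.inl p => if p.1 = a then ψ₂ p.1 p.2 else 0
    | Sum.inr _ => 0
  have hι : ∀ a, nsq (ι a) = 1 := by
    intro a
    rw [nsq_OB, Finset.sum_eq_single a]
    · simp only [ι, if_true]
      rw [← g2 a]
      simp [nsq]
    · intro a' _ ha
      simp [ι, ha, nsq]
    · intro h; exact absurd (Finset.mem_univ _) h
  choose Pr hPr1 hPr2 using fun a => exists_iso_col' (ι a) (hι a) (Sum.inr ())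
  let T : (OB E₂ × E₁ → ℂ) →ₗ[ℂ] (OB E₂ × E₁ → ℂ) := ctrl (fun e₁ => Pr (out e₁))
  have hT : ∀ c : E₁ → ℂ, T (J₁ c) = K₂ out c ψ₂ := by
    intro c
    funext p
    obtain ⟨o, e₁⟩ := p
    change Pr (out e₁) (fun o => J₁ c (o, e₁)) o = _
    rw [hPr2 (out e₁) (c e₁) (fun o => J₁ c (o, e₁)) rfl]
    swap
    · intro o ho
      rcases o with p | u
      · rfl
      · exact absurd rfl ho
    rcases o with ⟨a, e⟩ | u
    · simp only [Pi.smul_apply, smul_eq_mul, ι, K₂]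
      split_ifs <;> simp
    · simp [ι, K₂]
  refine ⟨OB E₂ × E₁, inferInstance, tauB τ₁ τ₂, fun x => M₂' x ∘ₗ (T ∘ₗ M₁' x), J₁ ψ₁,
    fun p => match p.1 with
      | Sum.inl p => out₂ p.1 p.2
      | Sum.inr _ => out₂ _ f₀, ?_, ?_, ?_⟩
  · exact l1.comp (k1.left T (isI_ctrl fun e₁ => hPr1 _))
  · rw [nsq_prod, ← h2]
    unfold nsq
    refine Finset.sum_congr rfl fun e₁ _ => ?_
    rw [Fintype.sum_sum_type]
    simp [J₁]
  · intro x b
    simp only [LinearMap.comp_apply, k2, hT, l2]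
    rw [norm_K₂]
    have : ∀ e₁, ‖M₁ x ψ₁ e₁‖ ^ 2 * (∑ e, if out₂ (out e₁) e = b then
        ‖M₂ (out e₁) x (ψ₂ (out e₁)) e‖ ^ 2 else 0) =
        ∑ a, if out e₁ = a then ‖M₁ x ψ₁ e₁‖ ^ 2 * R a x b else 0 := by
      intro e₁
      rw [Finset.sum_ite_eq Finset.univ (out e₁), if_pos (Finset.mem_univ _), g3]
    simp only [this]
    rw [Finset.sum_comm]
    refine Finset.sum_congr rfl fun a _ => ?_
    rw [h3, Finset.sum_mul]
    refine Finset.sum_congr rfl fun e₁ _ => ?_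
    split_ifs <;> simp

end bind

end QL
end Crest.Agent.R350
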