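import Crest.Agent.R350.Defs
import Crest.Agent.R350.H
import Crest.Agent.R350.QLib

/-!
# Row 350, task A5: the forrelation test
-/

set_option autoImplicit false

open Finset Classical

namespace Crest.Agent.R350

namespace A5

open QL

variable {k s : ℕ}

/-- Hadamard matrix, complex -/
noncomputable def HM (s : ℕ) : Matrix (B s) (B s) ℂ := Matrix.of fun a b => ((Had a b : ℝ) : ℂ)

theorem HM_mem (s : ℕ) : HM s ∈ Matrix.unitaryGroup (B s) ℂ := by
  rw [Matrix.mem_unitaryGroup_iff]
  ext a a'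
  rw [Matrix.mul_apply]
  have h := had_orth (s := s) a a'
  simp only [HM, Matrix.star_apply, Matrix.of_apply, Matrix.one_apply]
  have h2 : ∀ b : B s, ((Had a b : ℝ) : ℂ) * star ((Had a' b : ℝ) : ℂ) =
      ((Had a b * Had a' b : ℝ) : ℂ) := by
    intro b
    push_cast
    congr 1
    exact Complex.conj_ofReal _
  simp_rw [h2]
  rw [← Complex.ofReal_sum, h]
  split_ifs <;> simp

/-- shift of the layers -/
noncomputable def sh : (FV k s → ℂ) →ₗ[ℂ] (FV k s → ℂ) :=
  LinearMap.funLeft ℂ ℂ (fun e : FV k s => (e.1 - 1, e.2))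

theorem isI_sh : IsI (sh (k := k) (s := s)) := by
  intro ψ
  unfold nsq
  have h : Function.Bijective (fun e : FV k s => ((e.1 - 1, e.2) : FV k s)) := by
    constructor
    · rintro ⟨i, a⟩ ⟨j, b⟩ h
      simp only [Prod.mk.injEq, sub_left_inj] at h
      rw [h.1, h.2]
    · rintro ⟨i, a⟩
      exact ⟨(i + 1, a), by simp⟩
  exact h.sum_comp (fun e => ‖ψ e‖ ^ 2)

noncomputable def Ust : (FV k s → ℂ) →ₗ[ℂ] (FV k s → ℂ) :=
  sec (O := Fin (k + 1)) (Matrix.mulVecLin (HM s)) ∘ₗ sh

theorem isI_Ust : IsI (Ust (k := k) (s := s)) :=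
  (isI_sec (isI_mulVecLin (HM_mem s))).comp isI_sh

theorem Ust_apply (Ψ : FV k s → ℂ) (l : Fin (k + 1)) (a : B s) :
    Ust Ψ (l, a) = ∑ b, ((Had a b : ℝ) : ℂ) * Ψ (l - 1, b) := rfl

/-- layer index -/
def idx (k t : ℕ) : Fin (k + 1) := Fin.ofNat (k + 1) t

theorem idx_zero (k : ℕ) : idx k 0 = 0 := rfl

theorem idx_succ (k t : ℕ) : idx k (t + 1) = idx k t + 1 := by
  unfold idx
  ext
  simp [Fin.val_add]

theorem idx_val (k t : ℕ) (h : t < k + 1) : (⟨t, h⟩ : Fin (k + 1)) = idx k t := by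
  unfold idx
  ext
  simp [Nat.mod_eq_of_lt h]

/-- a state on layer `i` -/
noncomputable def Jf (i : Fin (k + 1)) (w : B s → ℝ) : FV k s → ℂ :=
  fun e => if e.1 = i then ((w e.2 : ℝ) : ℂ) else 0

/-- the vectors -/
noncomputable def wr (z : FV k s → Bool) : ℕ → B s → ℝ
  | 0 => fun _ => 1 / Real.sqrt (2 ^ s)
  | t + 1 => fun a => ∑ b, Had a b * (sgn (z (idx k t, b)) * wr z t b)

theorem step_J (z : FV k s → Bool) (t : ℕ) :
    Ust (D (fun e => some e) z (Jf (idx k t) (wr z t))) =
      Jf (idx k (t + 1)) (wr z (t + 1)) := by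
  funext ⟨l, a⟩
  rw [Ust_apply]
  simp only [D_apply, sg, Jf, wr]
  have hl : l - 1 = idx k t ↔ l = idx k (t + 1) := by
    rw [sub_eq_iff_eq_add, idx_succ]
  by_cases h : l = idx k (t + 1)
  · rw [if_pos h]
    have h' := hl.2 h
    push_cast
    refine Finset.sum_congr rfl fun b _ => ?_
    rw [h', if_pos rfl]
    congr 1
    congr 1
    unfold sgn
    split_ifs <;> simp
  · rw [if_neg h]
    have h' : ¬ (l - 1 = idx k t) := fun h2 => h (hl.1 h2)
    refine Finset.sum_eq_zero fun b _ => ?_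
    rw [if_neg h', mul_zero, mul_zero]

theorem exists_PQ (t : ℕ) : ∃ M : (FV k s → Bool) → ((FV k s → ℂ) →ₗ[ℂ] (FV k s → ℂ)),
    PQ (fun e : FV k s => some e) t M ∧ ∀ z, M z (Jf 0 (fun _ => 1 / Real.sqrt (2 ^ s))) =
      Jf (idx k t) (wr z t) := by
  induction t with
  | zero => exact ⟨_, PQ.const LinearMap.id IsI.id, fun z => by rw [idx_zero]; rfl⟩
  | succ t ih =>
    obtain ⟨M, hM, hM2⟩ := ih
    refine ⟨_, PQ.step Ust isI_Ust hM, fun z => ?_⟩
    simp only [LinearMap.comp_apply, hM2]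
    exact step_J z t

theorem wr_vec (z : FV k s → Bool) (t : ℕ) (ht : t < k + 1) (a : B s) :
    vec z t a = sgn (z (idx k t, a)) * (Real.sqrt (2 ^ s) * wr z t a) := by
  induction t generalizing a with
  | zero =>
    have h0 := (sqrt_pos' s).ne'
    simp only [vec, wr]
    rw [mul_one_div_cancel h0, mul_one, idx_zero]
  | succ t ih =>
    simp only [vec, wr]
    rw [dif_pos ht]
    rw [idx_val k (t + 1) ht]
    congr 1
    rw [Finset.mul_sum]
    refine Finset.sum_congr rfl fun b _ => ?_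
    rw [ih (by omega)]
    ring

theorem Had_zero (b : B s) : Had (fun _ => false) b = 1 / Real.sqrt (2 ^ s) := by
  unfold Had chi
  simp

theorem wr_last (hrecu : ∀ (k s : ℕ) (z : FV k s → Bool), phi z = (∑ a, vec z k a) / 2 ^ s)
    (z : FV k s → Bool) : wr z (k + 1) (fun _ => false) = phi z := by
  rw [hrecu]
  have h1 : ∀ b, vec z k b = sgn (z (idx k k, b)) * (Real.sqrt (2 ^ s) * wr z k b) :=
    fun b => wr_vec z k (by omega) b
  simp_rw [h1]
  simp only [wr]
  simp_rw [Had_zero]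
  rw [Finset.sum_div]
  refine Finset.sum_congr rfl fun b _ => ?_
  have h0 := (sqrt_pos' s).ne'
  have h2 : (2:ℝ) ^ s = Real.sqrt (2 ^ s) * Real.sqrt (2 ^ s) := (sqrt_mul_self' s).symm
  rw [eq_div_iff (by positivity)]
  nth_rewrite 2 [h2]
  field_simp

end A5

open A5 QL

theorem realForr (hPhi : PhiP) : RealForr := by
  intro k s
  apply realizable_of_preal
  obtain ⟨M, hM, hM2⟩ := exists_PQ (k := k) (s := s) (k + 1)
  set ψ : FV k s → ℂ := Jf 0 (fun _ => 1 / Real.sqrt (2 ^ s)) with hψ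
  have hnorm : ∀ (l : Fin (k + 1)) (w : B s → ℝ) (S : B s → Prop) [DecidablePred S],
      (∑ e : FV k s, if S e.2 then ‖Jf l w e‖ ^ 2 else 0) = ∑ a, if S a then w a ^ 2 else 0 := by
    intro l w S _
    rw [Fintype.sum_prod_type, Finset.sum_eq_single l]
    · refine Finset.sum_congr rfl fun a _ => ?_
      simp [Jf]
    · intro i _ hi
      refine Finset.sum_eq_zero fun a _ => ?_
      simp [Jf, hi]
    · intro h; exact absurd (Finset.mem_univ _) h
  have h1 : nsq ψ = 1 := by
    have := hnorm 0 (fun _ => 1 / Real.sqrt (2 ^ s)) (fun _ => True)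
    simp only [if_true] at this
    unfold nsq
    rw [this]
    have h2 : (1 / Real.sqrt (2 ^ s)) ^ 2 = 1 / 2 ^ s := by
      rw [div_pow, Real.sq_sqrt (by positivity), one_pow]
    rw [h2, Finset.sum_const, Finset.card_univ]
    simp [B]
  have htrue : ∀ z : FV k s → Bool, (∑ e : FV k s, if decide (e.2 = fun _ => false) = true then
      ‖M z ψ e‖ ^ 2 else 0) = phi z ^ 2 := by
    intro z
    rw [hM2]
    have := hnorm (idx k (k + 1)) (wr z (k + 1)) (fun a => decide (a = fun _ => false) = true)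
    rw [this]
    simp only [decide_eq_true_eq]
    rw [Finset.sum_ite_eq' Finset.univ (fun _ => false), if_pos (Finset.mem_univ _),
      wr_last hPhi.recu]
  refine ⟨FV k s, inferInstance, fun e => some e, M, ψ, fun e => decide (e.2 = fun _ => false),
    hM, h1, fun z b => ?_⟩
  cases b with
  | true => simpa using (htrue z).symm
  | false =>
    have h2 : nsq (M z ψ) = 1 := by rw [hM.isI z ψ, h1]
    have h3 : (∑ e : FV k s, if decide (e.2 = fun _ => false) = true then
      ‖M z ψ e‖ ^ 2 else 0) + (∑ e : FV k s, if decide (e.2 = fun _ => false) = false then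
      ‖M z ψ e‖ ^ 2 else 0) = 1 := by
      rw [← h2, ← Finset.sum_add_distrib]
      unfold nsq
      refine Finset.sum_congr rfl fun e _ => ?_
      cases hd : decide (e.2 = fun _ => false) <;> simp
    rw [htrue z] at h3
    have h5 : 1 - phi z ^ 2 = (∑ e : FV k s, if decide (e.2 = fun _ => false) = false then
      ‖M z ψ e‖ ^ 2 else 0) := by rw [← h3]; ring
    simp only [Bool.false_eq_true, if_false]
    rw [h5]
    refine Finset.sum_congr rfl fun e _ => ?_
    congr 1

end Crest.Agent.R350
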