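import Crest.Agent.R350.Defs

/-!
# Row 350, task A6: transport to the frozen definitions
-/

set_option autoImplicit false

open Finset Classical

namespace Crest.Agent.R350

namespace A6

open Crest.MathPhysics.Query

/-- conversion of trees -/
def conv {V : Type} {n : ℕ} (e : Fin n → V) : DTree n → Tree V Bool
  | DTree.answer b => Tree.leaf b
  | DTree.read i t₀ t₁ => Tree.node (e i) (conv e t₀) (conv e t₁)

theorem depth_conv {V : Type} {n : ℕ} (e : Fin n → V) (t : DTree n) :
    (conv e t).depth = t.depth := by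
  induction t with
  | answer b => rfl
  | read i t₀ t₁ h₀ h₁ => simp [conv, Tree.depth, DTree.depth, h₀, h₁]

theorem eval_conv {V : Type} {n : ℕ} (e : Fin n → V) (t : DTree n) (x : V → Bool) :
    (conv e t).eval x = t.eval (fun i => x (e i)) := by
  induction t with
  | answer b => rfl
  | read i t₀ t₁ h₀ h₁ => simp [conv, Tree.eval, DTree.eval, h₀, h₁]

theorem submatrix_mem {m m' : Type} [Fintype m] [Fintype m'] [DecidableEq m] [DecidableEq m']
    (σ : m' ≃ m) (U : Matrix m m ℂ) (hU : U ∈ Matrix.unitaryGroup m ℂ) :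
    U.submatrix σ σ ∈ Matrix.unitaryGroup m' ℂ := by
  rw [Matrix.mem_unitaryGroup_iff] at hU ⊢
  rw [Matrix.star_eq_conjTranspose] at hU ⊢
  rw [Matrix.conjTranspose_submatrix, Matrix.submatrix_mul_equiv, hU, Matrix.submatrix_one_equiv]

theorem state_eq {V W : Type} [Fintype V] [Fintype W] {n w : ℕ} (e : Fin n ≃ V) (g : Fin w ≃ W)
    (σ : QIdx n w ≃ V × Bool × W) (hσ : ∀ p, σ p = (e p.1, p.2.1, g p.2.2))
    (U : ℕ → Matrix (V × Bool × W) (V × Bool × W) ℂ) (ψ₀ : V × Bool × W → ℂ)
    (x : Fin n → Bool) (t : ℕ) :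
    stateAfter (fun t => (U t).submatrix σ σ) x (fun p => ψ₀ (σ p)) t =
      fun p => runState U (fun v => x (e.symm v)) ψ₀ t (σ p) := by
  have hmul : ∀ (M : Matrix (V × Bool × W) (V × Bool × W) ℂ) (φ : V × Bool × W → ℂ),
      (M.submatrix σ σ).mulVec (fun p => φ (σ p)) = fun p => M.mulVec φ (σ p) := by
    intro M φ
    funext p
    simp only [Matrix.mulVec, dotProduct, Matrix.submatrix_apply]
    exact σ.sum_comp (fun q => M (σ p) q * φ q)
  induction t with
  | zero => exact hmul (U 0) ψ₀
  | succ t ih =>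
    simp only [stateAfter, runState]
    rw [ih]
    have : oracle x (fun p => runState U (fun v => x (e.symm v)) ψ₀ t (σ p)) =
        fun p => orac (fun v => x (e.symm v)) (runState U (fun v => x (e.symm v)) ψ₀ t) (σ p) := by
      funext p
      unfold oracle orac
      simp only [hσ]
      simp
    rw [this]
    exact hmul (U (t + 1)) _

end A6

open A6 Crest.MathPhysics.Query

theorem transport : Transport where
  q := by
    intro V _ F q n e h
    obtain ⟨P, ⟨W, _, U, ψ₀, out, hU, hn, hP⟩, hF⟩ := h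
    let g : Fin (Fintype.card W) ≃ W := (Fintype.equivFin W).symm
    let σ : QIdx n (Fintype.card W) ≃ V × Bool × W :=
      Equiv.prodCongr e (Equiv.prodCongr (Equiv.refl Bool) g)
    have hσ : ∀ p, σ p = (e p.1, p.2.1, g p.2.2) := fun p => rfl
    refine ⟨Fintype.card W, fun t => (U t).submatrix σ σ, fun p => ψ₀ (σ p), fun p => out (σ p),
      fun t => submatrix_mem σ (U t) (hU t), ?_, fun x => ?_⟩
    · rw [← hn]
      exact σ.sum_comp (fun p => ‖ψ₀ p‖ ^ 2)
    · have h1 := hF (fun v => x (e.symm v))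
      rw [hP] at h1
      refine h1.trans (le_of_eq ?_)
      rw [state_eq e g σ hσ]
      rw [← σ.sum_comp]
      refine Finset.sum_congr rfl fun i _ => ?_
      congr 1
  r := by
    intro V _ F r n e h
    obtain ⟨s, p, T, h1, h2, h3, h4⟩ := h
    refine ⟨s, p, fun j => conv e (T j), h1, h2, fun j => by rw [depth_conv]; exact h3 j,
      fun x => ?_⟩
    have h5 := h4 (fun i => x (e i))
    refine h5.trans (le_of_eq ?_)
    refine Finset.sum_congr rfl fun j _ => ?_
    rw [eval_conv]
    simp

end Crest.Agent.R350
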