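import Crest.Agent.R350.Defs

/-!
# R350, A7: decision trees are realizable
-/

set_option autoImplicit false

open Finset Classical

namespace Crest.Agent.R350

theorem realTree : RealBasic → RealBind → RealMono → RealTree := by
  intro hB hBind hMono V α _ _ _ T
  induction T with
  | leaf a =>
    intro d _
    have hp := hB.pure V α (fun b => if a = b then (1 : ℝ) else 0) d
      (fun b => by split_ifs <;> norm_num) (by simp)
    exact hp
  | node v t₀ t₁ h₀ h₁ =>
    intro d hd
    simp only [Tree.depth] at hd
    obtain ⟨d', rfl⟩ : ∃ d', d = 1 + d' := ⟨d - 1, by omega⟩
    have hb := hBind V Bool α _ 1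
      (fun b x a => if b then (if t₁.eval x = a then (1 : ℝ) else 0)
        else (if t₀.eval x = a then (1 : ℝ) else 0)) d' (hB.read V v) (fun b => by
          cases b with
          | false => simpa using h₀ d' (by omega)
          | true => simpa using h₁ d' (by omega))
    convert hb using 1
    funext x a
    rw [Fintype.sum_bool]
    simp only [Tree.eval]
    rcases Bool.eq_false_or_eq_true (x v) with hx | hx <;> simp [hx]

end Crest.Agent.R350
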