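import Crest.Agent.R350.Defs

/-!
# R350, A8: amplified search
-/

set_option autoImplicit false

open Finset Classical

namespace Crest.Agent.R350

namespace A8

variable {X α : Type} [Fintype α]

/-- the normalised conditional weights -/
noncomputable def cw (P : X → α → ℝ) (G : X → α → Prop) (x : X) (a : α) : ℝ :=
  if G x a then P x a / (∑ a' ∈ univ.filter (G x), P x a') else 0

theorem condDist_some (P : X → α → ℝ) (G : X → α → Prop) (σ : X → ℝ) (x : X) (a : α) :
    condDist P G σ x (some a) = σ x * cw P G x a := by
  unfold condDist cw
  by_cases h : G x a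
  · simp only [h, if_true]; rw [mul_div_assoc]
  · simp only [h, if_false, mul_zero]

theorem cw_eq (P : X → α → ℝ) (G : X → α → Prop) (x : X) (a : α) (S : ℝ)
    (hS : ∑ a' ∈ univ.filter (G x), P x a' = S) :
    cw P G x a = if G x a then P x a / S else 0 := by
  unfold cw
  rw [hS]

theorem condDist_none (P : X → α → ℝ) (G : X → α → Prop) (σ : X → ℝ) (x : X) :
    condDist P G σ x none = 1 - σ x := rfl

end A8

open A8

theorem realSearch : RealBasic → RealBind → RealMono → RealTree → RealAA → RealSearch := by
  intro hB hBind _ hTree hAA
  intro V α _ _ _ P q D T u t hT hD hP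
  -- step 1: one search
  obtain ⟨σ₁, h01, hs1, hR1⟩ : ∃ σ : (V → Bool) → ℝ, (∀ x, 0 ≤ σ x ∧ σ x ≤ 1) ∧
      (∀ x, 1 ≤ (∑ a ∈ univ.filter (fun a => (t a).eval x = true), P x a) * (T : ℝ) ^ 2 →
        1 / 4 ≤ σ x) ∧
      Realizable (condDist P (fun x a => (t a).eval x = true) σ) (4 * T * (q + D)) := by
    have hb := hBind V α (α × Bool) P q
      (fun a x p => if ((t a).map (fun b => (a, b))).eval x = p then (1 : ℝ) else 0) D hP
      (fun a => by
        convert hTree V (α × Bool) ((t a).map (fun b => (a, b))) D
          (by rw [Tree.depth_map]; exact hD a))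
    have hP2 : (fun (x : V → Bool) (p : α × Bool) => ∑ a, P x a *
        (if ((t a).map (fun b => (a, b))).eval x = p then (1 : ℝ) else 0)) =
        fun x p => if (t p.1).eval x = p.2 then P x p.1 else 0 := by
      funext x p
      rcases p with ⟨a, b⟩
      simp only [Tree.eval_map, Prod.mk.injEq]
      rw [Finset.sum_eq_single a]
      · by_cases h : (t a).eval x = b <;> simp [h]
      · intro a' _ ha'
        simp [ha']
      · intro h; exact absurd (Finset.mem_univ a) h
    rw [hP2] at hb
    set P2 : (V → Bool) → α × Bool → ℝ :=
      fun x p => if (t p.1).eval x = p.2 then P x p.1 else 0 with hP2def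
    obtain ⟨σ, hσ, hsucc, hreal⟩ := hAA V (α × Bool) P2 (q + D) T (fun p => p.2 = true) hT hb
    have hsum : ∀ x, (∑ p ∈ univ.filter (fun p : α × Bool => p.2 = true), P2 x p) =
        ∑ a ∈ univ.filter (fun a => (t a).eval x = true), P x a := by
      intro x
      rw [Finset.sum_filter, Finset.sum_filter, Fintype.sum_prod_type]
      refine Finset.sum_congr rfl (fun a _ => ?_)
      rw [Fintype.sum_bool]
      simp [hP2def]
    refine ⟨σ, hσ, fun x hx => hsucc x ?_, ?_⟩
    · refine le_of_le_of_eq hx ?_
      congr 1
      symm
      convert hsum x
    · have hm := hB.map V (Option (α × Bool)) (Option α) (Option.map Prod.fst)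
        (condDist P2 (fun _ p => p.2 = true) σ) _ hreal
      convert hm using 1
      funext x o
      rw [Fintype.sum_option, Fintype.sum_prod_type]
      cases o with
      | none =>
        simp [condDist_none]
      | some a =>
        rw [condDist_some]
        simp only [Option.map_none, Option.map_some, Option.some.injEq, reduceCtorEq, if_false,
          zero_add]
        rw [Finset.sum_eq_single a]
        · rw [Fintype.sum_bool]
          simp only [if_true, condDist_some]
          have hf : cw P2 (fun _ p => p.2 = true) x (a, false) = 0 := by
            unfold cw; simp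
          have ht : cw P2 (fun _ p => p.2 = true) x (a, true) =
              cw P (fun x a => (t a).eval x = true) x a := by
            rw [cw_eq P2 (fun _ p => p.2 = true) x (a, true)
                (∑ a ∈ univ.filter (fun a => (t a).eval x = true), P x a) (by convert hsum x),
              cw_eq P (fun x a => (t a).eval x = true) x a
                (∑ a ∈ univ.filter (fun a => (t a).eval x = true), P x a) (by congr)]
            by_cases h : (t a).eval x = true
            · simp [hP2def, h]
            · simp [hP2def, h]
          rw [hf, ht]; ring
        · intro a' _ ha'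
          simp [ha']
        · intro h; exact absurd (Finset.mem_univ a) h
  -- step 2: repeat
  induction u with
  | zero =>
    refine ⟨fun _ => 0, fun x => ⟨le_refl _, zero_le_one⟩, fun x _ => by simp, ?_⟩
    have hp := hB.pure V (Option α) (fun o => if o = none then (1 : ℝ) else 0) (4 * T * (q + D) * 0)
      (fun o => by split_ifs <;> norm_num) (by
        rw [Fintype.sum_option]; simp)
    convert hp using 1
    funext x o
    cases o with
    | none => simp [condDist_none]
    | some a => simp [condDist_some]
  | succ u ih =>
    obtain ⟨σu, hu01, hus, huR⟩ := ih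
    have h1 : ∀ x, 0 ≤ 1 - σ₁ x := fun x => by linarith [(h01 x).2]
    have h2 : ∀ x, 0 ≤ 1 - σu x := fun x => by linarith [(hu01 x).2]
    refine ⟨fun x => 1 - (1 - σ₁ x) * (1 - σu x), fun x => ⟨?_, ?_⟩, fun x hx => ?_, ?_⟩
    · have : (1 - σ₁ x) * (1 - σu x) ≤ 1 * 1 :=
        mul_le_mul (by linarith [(h01 x).1]) (by linarith [(hu01 x).1]) (h2 x) zero_le_one
      show (0 : ℝ) ≤ 1 - (1 - σ₁ x) * (1 - σu x)
      linarith
    · have := mul_nonneg (h1 x) (h2 x)
      show 1 - (1 - σ₁ x) * (1 - σu x) ≤ 1
      linarith
    · have ha := hs1 x hx
      have hb := hus x hx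
      have : (1 - σ₁ x) * (1 - σu x) ≤ (3 / 4) * (3 / 4) ^ u :=
        mul_le_mul (by linarith) (by linarith) (h2 x) (by norm_num)
      show 1 - (3 / 4 : ℝ) ^ (u + 1) ≤ 1 - (1 - σ₁ x) * (1 - σu x)
      rw [pow_succ]
      linarith
    · have hb := hBind V (Option α) (Option α) (condDist P (fun x a => (t a).eval x = true) σ₁)
        (4 * T * (q + D))
        (fun o => match o with
          | none => condDist P (fun x a => (t a).eval x = true) σu
          | some a => fun _ o' => if o' = some a then (1 : ℝ) else 0)
        (4 * T * (q + D) * u) hR1 (fun o => by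
          cases o with
          | none => exact huR
          | some a =>
            exact hB.pure V (Option α) (fun o' => if o' = some a then (1 : ℝ) else 0) _
              (fun o => by split_ifs <;> norm_num) (by simp))
      have hcost : 4 * T * (q + D) * (u + 1) = 4 * T * (q + D) + 4 * T * (q + D) * u := by ring
      rw [hcost]
      convert hb using 1
      funext x o
      rw [Fintype.sum_option]
      cases o with
      | none =>
        simp only [condDist_none, condDist_some, reduceCtorEq, if_false, mul_zero,
          Finset.sum_const_zero, add_zero]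
        ring
      | some a =>
        simp only [condDist_none, condDist_some, Option.some.injEq]
        rw [Finset.sum_eq_single a]
        · simp only [if_true]; ring
        · intro a' _ ha'
          rw [if_neg (fun h => ha' h.symm), mul_zero]
        · intro h; exact absurd (Finset.mem_univ a) h

end Crest.Agent.R350
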