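import Crest.Agent.R350.Defs

set_option autoImplicit false

open Finset Classical

namespace Crest.Agent.R350
namespace A9

/-- all trees of the list are true -/
def allT {V : Type} : List (Tree V Bool) → Tree V Bool
  | [] => Tree.leaf true
  | t :: ts => t.bind (fun b => if b then allT ts else Tree.leaf false)

theorem eval_allT {V : Type} (x : V → Bool) (l : List (Tree V Bool)) :
    (allT l).eval x = true ↔ ∀ t ∈ l, t.eval x = true := by
  induction l with
  | nil => simp [allT, Tree.eval]
  | cons t ts ih =>
    simp only [allT, Tree.eval_bind]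
    cases h : t.eval x <;> simp [h, ih, Tree.eval]

theorem depth_allT {V : Type} (l : List (Tree V Bool)) (D : ℕ) (h : ∀ t ∈ l, t.depth ≤ D) :
    (allT l).depth ≤ l.length * D := by
  induction l with
  | nil => simp [allT, Tree.depth]
  | cons t ts ih =>
    simp only [allT]
    have ih' := ih (fun t' ht' => h t' (List.mem_cons_of_mem _ ht'))
    refine (Tree.depth_bind _ _ (ts.length * D) ?_).trans ?_
    · intro b
      cases b
      · simp [Tree.depth]
      · simpa using ih'
    · have := h t (by simp)
      simp only [List.length_cons, Nat.succ_mul]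
      omega

theorem srch {V α : Type} [Fintype V] [Nonempty V] [Fintype α] (hS : RealSearch)
    (P : (V → Bool) → α → ℝ) (q D T u : ℕ) (t : α → Tree V Bool) (hT : 1 ≤ T)
    (hD : ∀ a, (t a).depth ≤ D) (hP : Realizable P q) :
    ∃ Q : (V → Bool) → Option α → ℝ, Realizable Q (12 * T * (q + D) * u) ∧
      (∀ x a, (t a).eval x = false → Q x (some a) = 0) ∧
      (∀ x, 1 ≤ (∑ a ∈ univ.filter (fun a => (t a).eval x = true), P x a) * (T : ℝ) ^ 2 →
        Q x none ≤ (1 / 2 : ℝ) ^ u) ∧
      (∀ x a b, (t a).eval x = true → (t b).eval x = true → P x a = P x b →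
        Q x (some a) = Q x (some b)) := by
  obtain ⟨σ, h0, h1, h2⟩ := hS V α P q D T (3 * u) t hT hD hP
  refine ⟨condDist P (fun x a => (t a).eval x = true) σ, ?_, ?_, ?_, ?_⟩
  · have : 4 * T * (q + D) * (3 * u) = 12 * T * (q + D) * u := by ring
    rwa [this] at h2
  · intro x a ha
    simp [condDist, ha]
  · intro x hx
    have := h1 x hx
    simp only [condDist]
    have h3 : (3 / 4 : ℝ) ^ (3 * u) ≤ (1 / 2) ^ u := by
      rw [pow_mul]
      exact pow_le_pow_left₀ (by norm_num) (by norm_num) u
    linarith
  · intro x a b ha hb hab
    simp [condDist, ha, hb, hab]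

theorem samp1 {V J : Type} [Fintype V] [Nonempty V] [Fintype J] [Nonempty J]
    (hB : RealBasic) (hS : RealSearch) (D T u m : ℕ) (t : J → Tree V Bool)
    (hD : ∀ a, (t a).depth ≤ D) (hJ : Fintype.card J ≤ 2 ^ m) (hT : 2 * 2 ^ m ≤ T ^ 2) :
    ∃ Q : (V → Bool) → Option J → ℝ, Realizable Q (12 * T * D * u) ∧
      (∀ x j, Q x (some j) ≤ if (t j).eval x = true then
        1 / ((univ.filter (fun j => (t j).eval x = true)).card : ℝ) else 0) ∧
      (∀ x, (∃ j, (t j).eval x = true) → Q x none ≤ (1 / 2 : ℝ) ^ u) := by
  have hT1 : 1 ≤ T := by
    rcases Nat.eq_zero_or_pos T with h | h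
    · subst h
      have : 0 < 2 ^ m := by positivity
      simp at hT
    · exact h
  have hJ0 : (0 : ℝ) < Fintype.card J := by exact_mod_cast Fintype.card_pos
  have hP : Realizable (fun (_ : V → Bool) (_ : J) => 1 / (Fintype.card J : ℝ)) 0 :=
    hB.pure V J _ 0 (fun a => by positivity) (by
      simp only [sum_const, card_univ, nsmul_eq_mul]
      field_simp)
  obtain ⟨Q, h1, h2, h3, h4⟩ := srch hS _ 0 D T u t hT1 hD hP
  rw [zero_add] at h1
  refine ⟨Q, h1, ?_, ?_⟩
  · intro x j
    split_ifs with hj
    · have hn := hB.nonneg V (Option J) Q _ h1 x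
      have hs := hB.sum_one V (Option J) Q _ h1 x
      rw [Fintype.sum_option] at hs
      have h5 : ∑ a ∈ univ.filter (fun j => (t j).eval x = true), Q x (some a) ≤
          ∑ a, Q x (some a) :=
        sum_le_sum_of_subset_of_nonneg (filter_subset _ _) (fun a _ _ => hn _)
      have h6 : ∑ a ∈ univ.filter (fun j => (t j).eval x = true), Q x (some a) =
          ((univ.filter (fun j => (t j).eval x = true)).card : ℝ) * Q x (some j) := by
        rw [sum_congr rfl (fun a ha => h4 x a j (by simpa using ha) hj rfl)]
        simp
      have hc : (0 : ℝ) < ((univ.filter (fun j => (t j).eval x = true)).card : ℝ) := by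
        exact_mod_cast card_pos.mpr ⟨j, by simpa using hj⟩
      rw [le_div_iff₀ hc]
      have := hn none
      linarith
    · exact (h2 x j (by simpa using hj)).le
  · rintro x ⟨j, hj⟩
    refine h3 x ?_
    have hc : (1 : ℝ) ≤ ((univ.filter (fun j => (t j).eval x = true)).card : ℝ) := by
      exact_mod_cast card_pos.mpr ⟨j, by simpa using hj⟩
    rw [sum_const, nsmul_eq_mul]
    have hJ' : (Fintype.card J : ℝ) ≤ 2 ^ m := by exact_mod_cast hJ
    have hT' : (2 : ℝ) * 2 ^ m ≤ (T : ℝ) ^ 2 := by exact_mod_cast hT
    have h7 : (Fintype.card J : ℝ) ≤ (T : ℝ) ^ 2 := by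
      have : (0 : ℝ) < 2 ^ m := by positivity
      linarith
    have h8 : 1 ≤ (1 / (Fintype.card J : ℝ)) * (T : ℝ) ^ 2 := by
      rw [one_div, inv_mul_eq_div, le_div_iff₀ hJ0]
      linarith
    rw [mul_assoc]
    calc (1 : ℝ) = 1 * 1 := by ring
      _ ≤ _ := mul_le_mul hc h8 (by norm_num) (by positivity)

/-- pushforward -/
noncomputable def mapD {X α β : Type} [Fintype α] (f : α → β) (P : X → α → ℝ) : X → β → ℝ :=
  fun x b => ∑ a, if f a = b then P x a else 0

/-- point mass -/
noncomputable def dirac {X α : Type} (a : α) : X → α → ℝ := fun _ b => if b = a then 1 else 0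

theorem real_map {V α β : Type} [Fintype V] [Fintype α] (hB : RealBasic) (f : α → β)
    (P : (V → Bool) → α → ℝ) (q : ℕ) (h : Realizable P q) : Realizable (mapD f P) q :=
  hB.map V α β f P q h

theorem real_dirac {V α : Type} [Fintype V] [Nonempty V] [Fintype α] (hB : RealBasic) (a : α)
    (q : ℕ) : Realizable (dirac a : (V → Bool) → α → ℝ) q :=
  hB.pure V _ _ _ (fun b => by split_ifs <;> norm_num) (by simp)

theorem sampN {V J : Type} [Fintype V] [Nonempty V] [Fintype J]
    (hB : RealBasic) (hBd : RealBind) (c : ℕ) (Q : (V → Bool) → Option J → ℝ)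
    (hQ : Realizable Q c) (w : (V → Bool) → J → ℝ) (hw : ∀ x j, Q x (some j) ≤ w x j)
    (G : (V → Bool) → Prop) (δ : ℝ) (hG : ∀ x, G x → Q x none ≤ δ) :
    ∀ n : ℕ, ∃ M : (V → Bool) → Option (Fin n → J) → ℝ, Realizable M (n * c) ∧
      (∀ x f, M x (some f) ≤ ∏ i, w x (f i)) ∧ (∀ x, G x → M x none ≤ n * δ)
  | 0 => by
    refine ⟨fun _ o => if o = some (fun i => i.elim0) then 1 else 0,
      hB.pure V _ _ _ (fun a => by split_ifs <;> norm_num) (by simp), ?_, ?_⟩
    · intro x f
      simp only [univ_eq_empty, prod_empty]
      split_ifs <;> norm_num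
    · intro x _
      simp
  | n + 1 => by
    obtain ⟨M, h1, h2, h3⟩ := sampN hB hBd c Q hQ w hw G δ hG n
    have hQn := hB.nonneg V (Option J) Q _ hQ
    have hQs := hB.sum_one V (Option J) Q _ hQ
    have hMn := hB.nonneg V _ M _ h1
    have hMs := hB.sum_one V _ M _ h1
    let R : Option (Fin n → J) → (V → Bool) → Option (Fin (n + 1) → J) → ℝ := fun o =>
      match o with
      | none => dirac none
      | some f => mapD (fun a => (Option.map (fun j => Fin.cons j f) a : Option (Fin (n+1) → J))) Q
    have hR : ∀ o, Realizable (R o) c := by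
      intro o
      cases o with
      | none => exact real_dirac hB _ _
      | some f => exact real_map hB _ Q c hQ
    have hbd := hBd V _ _ M (n * c) R c h1 hR
    have e1 : n * c + c = (n + 1) * c := by ring
    rw [e1] at hbd
    refine ⟨_, hbd, ?_, ?_⟩
    · intro x g
      have e2 : ∑ a, M x a * R a x (some g) = M x (some (fun i => g i.succ)) * Q x (some (g 0)) := by
        rw [Fintype.sum_option]
        have : R none x (some g) = 0 := by simp [R, dirac]
        rw [this, mul_zero, zero_add]
        rw [sum_eq_single (fun i => g i.succ)]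
        · congr 1
          simp only [R, mapD]
          rw [Fintype.sum_option]
          simp only [Option.map_none, Option.map_some]
          rw [sum_eq_single (g 0)]
          · simp only [reduceCtorEq, if_false, zero_add]
            rw [if_pos]
            congr 1
            exact Fin.cons_self_tail g
          · intro j _ hj
            rw [if_neg]
            intro h
            apply hj
            have := congrFun (Option.some.inj h) 0
            simpa using this
          · intro h; exact absurd (mem_univ _) h
        · intro f _ hf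
          have : R (some f) x (some g) = 0 := by
            simp only [R, mapD]
            apply sum_eq_zero
            intro a _
            rw [if_neg]
            intro h
            cases a with
            | none => simp at h
            | some j =>
              apply hf
              simp only [Option.map_some] at h
              have h' := Option.some.inj h
              funext i
              have := congrFun h' i.succ
              simpa using this
          rw [this, mul_zero]
        · intro h; exact absurd (mem_univ _) h
      show ∑ a, M x a * R a x (some g) ≤ _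
      rw [e2, Fin.prod_univ_succ, mul_comm]
      exact mul_le_mul (hw _ _) (h2 _ _) (hMn _ _) ((hQn _ _).trans (hw _ _))
    · intro x hx
      show ∑ a, M x a * R a x none ≤ _
      rw [Fintype.sum_option]
      have e3 : R none x none = 1 := by simp [R, dirac]
      have e4 : ∀ f, R (some f) x none = Q x none := by
        intro f
        simp only [R, mapD]
        rw [Fintype.sum_option]
        simp
      rw [e3]
      simp only [e4]
      rw [← sum_mul]
      have h4 := h3 x hx
      have h5 := hG x hx
      have h6 : ∑ f, M x (some f) ≤ 1 := by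
        have := hMs x
        rw [Fintype.sum_option] at this
        have := hMn x none
        linarith
      have h7 : 0 ≤ ∑ f, M x (some f) := sum_nonneg (fun f _ => hMn _ _)
      push_cast
      have h8 : (∑ f, M x (some f)) * Q x none ≤ δ := by
        calc (∑ f, M x (some f)) * Q x none ≤ 1 * Q x none :=
              mul_le_mul_of_nonneg_right h6 (hQn _ _)
          _ ≤ δ := by linarith
      linarith

theorem ite_cg {p q : Prop} {ip : Decidable p} {iq : Decidable q} {a b : ℝ} (h : p ↔ q) :
    @ite ℝ p ip a b = @ite ℝ q iq a b := by
  by_cases hp : p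
  · rw [if_pos hp, if_pos (h.mp hp)]
  · rw [if_neg hp, if_neg (fun hq => hp (h.mpr hq))]

/-- `j` is not covered by any root of the history -/
def inS {V J R : Type} (cov : R → J → Tree V Bool) (H : List R) (x : V → Bool) (j : J) : Prop :=
  ∀ r ∈ H, (cov r j).eval x = false

theorem bad_mass {J R : Type} [Fintype J] [Fintype R] (N L u : ℕ) (hN : N = L + u)
    (hR : Fintype.card R ≤ 2 ^ L) (S : Finset J) (hS : S.Nonempty) (cv : R → J → Prop)
    (M : (Fin N → J) → ℝ)
    (hM1 : ∀ f, M f ≤ ∏ i, (if f i ∈ S then 1 / (S.card : ℝ) else 0)) :
    ∑ f, (if ∃ r, (∀ i, cv r (f i)) ∧ 2 * (S.filter (cv r)).card < S.card then M f else 0)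
      ≤ (1 / 2 : ℝ) ^ u := by
  have hSc : (0 : ℝ) < S.card := by exact_mod_cast card_pos.mpr hS
  have key : ∀ r, 2 * (S.filter (cv r)).card < S.card →
      ∑ f : Fin N → J, ∏ i, (if f i ∈ S ∧ cv r (f i) then 1 / (S.card : ℝ) else 0)
        ≤ (1 / 2 : ℝ) ^ N := by
    intro r hr
    rw [← Fintype.sum_pow (fun j => if j ∈ S ∧ cv r j then 1 / (S.card : ℝ) else 0)]
    apply pow_le_pow_left₀
    · exact sum_nonneg (fun j _ => by split_ifs <;> positivity)
    · rw [← sum_filter, sum_const, nsmul_eq_mul]
      have : (univ.filter (fun j => j ∈ S ∧ cv r j)) = S.filter (cv r) := by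
        ext j; simp
      rw [this, mul_one_div, div_le_iff₀ hSc]
      have : (2 : ℝ) * ((S.filter (cv r)).card : ℝ) < S.card := by exact_mod_cast hr
      linarith
  calc ∑ f, (if ∃ r, (∀ i, cv r (f i)) ∧ 2 * (S.filter (cv r)).card < S.card then M f else 0)
      ≤ ∑ f : Fin N → J, ∑ r : R, if 2 * (S.filter (cv r)).card < S.card then
          ∏ i, (if f i ∈ S ∧ cv r (f i) then 1 / (S.card : ℝ) else 0) else 0 := by
        apply sum_le_sum
        intro f _
        have hnn : ∀ r : R, 0 ≤ (if 2 * (S.filter (cv r)).card < S.card then
          ∏ i, (if f i ∈ S ∧ cv r (f i) then 1 / (S.card : ℝ) else 0) else 0) := by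
          intro r
          split_ifs
          · exact prod_nonneg (fun i _ => by split_ifs <;> positivity)
          · exact le_rfl
        split_ifs with h
        · obtain ⟨r, h1, h2⟩ := h
          refine le_trans ?_ (single_le_sum (fun r _ => hnn r) (mem_univ r))
          rw [if_pos h2]
          refine (hM1 f).trans (le_of_eq ?_)
          apply prod_congr rfl
          intro i _
          simp [h1 i]
        · exact sum_nonneg (fun r _ => hnn r)
    _ = ∑ r : R, if 2 * (S.filter (cv r)).card < S.card then
          ∑ f : Fin N → J, ∏ i, (if f i ∈ S ∧ cv r (f i) then 1 / (S.card : ℝ) else 0)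
          else 0 := by
        rw [sum_comm]
        apply sum_congr rfl
        intro r _
        split_ifs <;> simp
    _ ≤ ∑ _r : R, (1 / 2 : ℝ) ^ N := by
        apply sum_le_sum
        intro r _
        split_ifs with h
        · exact key r h
        · positivity
    _ ≤ (1 / 2 : ℝ) ^ u := by
        rw [sum_const, card_univ, nsmul_eq_mul, hN, pow_add, ← mul_assoc]
        have h1 : (Fintype.card R : ℝ) ≤ 2 ^ L := by exact_mod_cast hR
        have h2 : (Fintype.card R : ℝ) * (1 / 2) ^ L ≤ 1 := by
          calc (Fintype.card R : ℝ) * (1 / 2) ^ L ≤ 2 ^ L * (1 / 2) ^ L :=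
                mul_le_mul_of_nonneg_right h1 (by positivity)
            _ = 1 := by rw [← mul_pow]; norm_num
        calc _ ≤ 1 * (1 / 2 : ℝ) ^ u := mul_le_mul_of_nonneg_right h2 (by positivity)
          _ = _ := one_mul _

theorem stage {V J R : Type} [Fintype V] [Nonempty V] [Fintype J] [Nonempty J] [Fintype R]
    (hB : RealBasic) (hBd : RealBind) (hS : RealSearch)
    (cov : R → J → Tree V Bool) (PA : (V → Bool) → R → ℝ) (D qA m L T u : ℕ)
    (hcov : ∀ r j, (cov r j).depth ≤ D) (hPA : Realizable PA qA)
    (hJ : Fintype.card J ≤ 2 ^ m) (hR : Fintype.card R ≤ 2 ^ L) (hT : 2 * 2 ^ m ≤ T ^ 2) :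
    ∀ (n : ℕ) (H : List R), H.length + n ≤ m + 1 → ∃ P : (V → Bool) → Bool → ℝ,
      Realizable P (n * ((L + u) * (12 * T * ((m + 1) * D) * u)
        + 12 * T * (qA + (L + u) * D) * u)) ∧
      (∀ x, (∃ r, (∀ j, (cov r j).eval x = true) ∧ 1 ≤ PA x r * (2 * 2 ^ m)) →
        P x false ≤ n * (1 / 2 : ℝ) ^ u) ∧
      (∀ x, (∃ j, ∀ r, (cov r j).eval x = false) →
        (univ.filter (inS cov H x)).card < 2 ^ n →
        P x true ≤ n * ((L + u + 1) * (1 / 2 : ℝ) ^ u))
  | 0, H, _ => by
    refine ⟨dirac true, by simpa using real_dirac hB true 0, ?_, ?_⟩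
    · intro x _
      simp [dirac]
    · rintro x ⟨j, hj⟩ hc
      exfalso
      have : 0 < (univ.filter (inS cov H x)).card :=
        card_pos.mpr ⟨j, by simp only [mem_filter, mem_univ, true_and]; exact fun r _ => hj r⟩
      omega
  | n + 1, H, hH => by
    have ih := fun r => stage hB hBd hS cov PA D qA m L T u hcov hPA hJ hR hT n (r :: H)
      (by simp only [List.length_cons]; omega)
    choose Pn hP1 hP2 hP3 using ih
    have hT1 : 1 ≤ T := by
      rcases Nat.eq_zero_or_pos T with h | h
      · subst h
        have : 0 < 2 ^ m := by positivity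
        simp at hT
      · exact h
    -- sampling
    obtain ⟨Q, hQ1, hQ2, hQ3⟩ := samp1 (V := V) (J := J) hB hS ((m + 1) * D) T u m
      (fun j => allT (H.map (fun r => (cov r j).map not)))
      (fun j => by
        refine (depth_allT _ D ?_).trans ?_
        · intro t ht
          rw [List.mem_map] at ht
          obtain ⟨r, _, rfl⟩ := ht
          rw [Tree.depth_map]; exact hcov r j
        · rw [List.length_map]
          exact Nat.mul_le_mul_right _ (by omega)) hJ hT
    have hev : ∀ x j, (allT (H.map (fun r => (cov r j).map not))).eval x = true ↔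
        inS cov H x j := by
      intro x j
      rw [eval_allT]
      simp only [List.mem_map, forall_exists_index, and_imp, forall_apply_eq_imp_iff₂,
        Tree.eval_map, Bool.not_eq_true', inS]
    simp only [hev] at hQ2 hQ3
    obtain ⟨M, hM1, hM2, hM3⟩ := sampN hB hBd (12 * T * ((m + 1) * D) * u) Q hQ1 _ hQ2
      (fun x => ∃ j, inS cov H x j) _ hQ3 (L + u)
    have hMn := hB.nonneg V _ M _ hM1
    have hMs := hB.sum_one V _ M _ hM1
    -- root search
    have hroot := fun f : Fin (L + u) → J => srch (V := V) (α := R) hS PA qA ((L + u) * D) T u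
      (fun r => allT (List.ofFn (fun i => cov r (f i)))) hT1
      (fun r => by
        refine (depth_allT _ D ?_).trans ?_
        · intro t ht
          rw [List.mem_ofFn] at ht
          obtain ⟨i, rfl⟩ := ht
          exact hcov _ _
        · rw [List.length_ofFn]) hPA
    have hev2 : ∀ x r (f : Fin (L + u) → J),
        (allT (List.ofFn (fun i => cov r (f i)))).eval x = true ↔
        ∀ i, (cov r (f i)).eval x = true := by
      intro x r f
      rw [eval_allT]
      simp [List.mem_ofFn]
    choose W hW1 hW2 hW3 hW4 using hroot
    have hWn := fun f => hB.nonneg V _ (W f) _ (hW1 f)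
    have hWs := fun f => hB.sum_one V _ (W f) _ (hW1 f)
    have hPnn := fun r => hB.nonneg V _ (Pn r) _ (hP1 r)
    have hPns := fun r => hB.sum_one V _ (Pn r) _ (hP1 r)
    let K : Option R → (V → Bool) → Bool → ℝ := fun o =>
      match o with
      | none => dirac false
      | some r => Pn r
    have hK : ∀ o, Realizable (K o) (n * ((L + u) * (12 * T * ((m + 1) * D) * u)
        + 12 * T * (qA + (L + u) * D) * u)) := by
      intro o
      cases o with
      | none => exact real_dirac hB _ _
      | some r => exact hP1 r
    let Rf : Option (Fin (L + u) → J) → (V → Bool) → Bool → ℝ := fun o =>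
      match o with
      | none => dirac true
      | some f => fun x b => ∑ o, W f x o * K o x b
    have hRf : ∀ o, Realizable (Rf o) (12 * T * (qA + (L + u) * D) * u +
        n * ((L + u) * (12 * T * ((m + 1) * D) * u) + 12 * T * (qA + (L + u) * D) * u)) := by
      intro o
      cases o with
      | none => exact real_dirac hB _ _
      | some f => exact hBd V _ _ (W f) _ K _ (hW1 f) hK
    have hfin := hBd V _ _ M _ Rf _ hM1 hRf
    have ecost : (L + u) * (12 * T * ((m + 1) * D) * u) + (12 * T * (qA + (L + u) * D) * u +
        n * ((L + u) * (12 * T * ((m + 1) * D) * u) + 12 * T * (qA + (L + u) * D) * u)) =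
        (n + 1) * ((L + u) * (12 * T * ((m + 1) * D) * u) + 12 * T * (qA + (L + u) * D) * u) := by
      ring
    rw [ecost] at hfin
    refine ⟨_, hfin, ?_, ?_⟩
    · -- claim 1
      intro x hx
      obtain ⟨rs, hrs1, hrs2⟩ := id hx
      show ∑ o, M x o * Rf o x false ≤ _
      rw [Fintype.sum_option]
      have e1 : Rf none x false = 0 := by simp [Rf, dirac]
      have e2 : ∀ f, Rf (some f) x false ≤ (n + 1) * (1 / 2 : ℝ) ^ u := by
        intro f
        show ∑ o, W f x o * K o x false ≤ _
        have hs := hWs f x
        rw [Fintype.sum_option] at hs ⊢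
        have e3 : K none x false = 1 := by simp [K, dirac]
        have e4 : W f x none ≤ (1 / 2 : ℝ) ^ u := by
          apply hW3
          have h5 : PA x rs ≤ ∑ a ∈ univ.filter (fun r =>
              (allT (List.ofFn (fun i => cov r (f i)))).eval x = true), PA x a := by
            apply single_le_sum (f := fun a => PA x a) (fun a _ => hB.nonneg V _ PA _ hPA x a)
            simp only [mem_filter, mem_univ, true_and]
            rw [hev2]
            exact fun i => hrs1 _
          have h6 : (2 : ℝ) * 2 ^ m ≤ (T : ℝ) ^ 2 := by exact_mod_cast hT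
          calc (1 : ℝ) ≤ PA x rs * (2 * 2 ^ m) := hrs2
            _ ≤ PA x rs * (T : ℝ) ^ 2 :=
              mul_le_mul_of_nonneg_left h6 (hB.nonneg V _ PA _ hPA x rs)
            _ ≤ _ := mul_le_mul_of_nonneg_right h5 (by positivity)
        have e5 : ∑ r, W f x (some r) * K (some r) x false ≤ n * (1 / 2 : ℝ) ^ u := by
          calc ∑ r, W f x (some r) * K (some r) x false
              ≤ ∑ r, W f x (some r) * (n * (1 / 2 : ℝ) ^ u) := by
                apply sum_le_sum
                intro r _
                exact mul_le_mul_of_nonneg_left (hP2 r x hx) (hWn f x _)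
            _ = (∑ r, W f x (some r)) * (n * (1 / 2 : ℝ) ^ u) := by rw [sum_mul]
            _ ≤ 1 * (n * (1 / 2 : ℝ) ^ u) := by
                apply mul_le_mul_of_nonneg_right _ (by positivity)
                have := hWn f x none
                linarith
            _ = _ := one_mul _
        rw [e3]
        linarith
      rw [e1, mul_zero, zero_add]
      have hs := hMs x
      rw [Fintype.sum_option] at hs
      push_cast
      calc ∑ f, M x (some f) * Rf (some f) x false
          ≤ ∑ f, M x (some f) * ((n + 1) * (1 / 2 : ℝ) ^ u) := by
            apply sum_le_sum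
            intro f _
            exact mul_le_mul_of_nonneg_left (e2 f) (hMn x _)
        _ = (∑ f, M x (some f)) * ((n + 1) * (1 / 2 : ℝ) ^ u) := by rw [sum_mul]
        _ ≤ 1 * ((n + 1) * (1 / 2 : ℝ) ^ u) := by
            apply mul_le_mul_of_nonneg_right _ (by positivity)
            have := hMn x none
            linarith
        _ = _ := one_mul _
    · -- claim 2
      intro x hx hcard
      obtain ⟨j0, hj0⟩ := id hx
      show ∑ o, M x o * Rf o x true ≤ _
      set S : Finset J := univ.filter (inS cov H x) with hSdef
      have hSne : S.Nonempty :=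
        ⟨j0, by rw [hSdef, mem_filter]; exact ⟨mem_univ _, fun r _ => hj0 r⟩⟩
      have hMw : ∀ f, M x (some f) ≤ ∏ i, (if f i ∈ S then 1 / (S.card : ℝ) else 0) := by
        intro f
        refine (hM2 x f).trans (le_of_eq ?_)
        apply prod_congr rfl
        intro i _
        simp [hSdef]
      have hbad := bad_mass (L + u) L u rfl hR S hSne (fun r j => (cov r j).eval x = true)
        (fun f => M x (some f)) hMw
      have hnone : M x none ≤ ((L + u : ℕ) : ℝ) * (1 / 2) ^ u :=
        hM3 x ⟨j0, fun r _ => hj0 r⟩
      have e2 : ∀ f, Rf (some f) x true ≤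
          (if ∃ r, (∀ i, (cov r (f i)).eval x = true) ∧
            2 * (S.filter (fun j => (cov r j).eval x = true)).card < S.card then 1 else 0) +
          n * ((L + u + 1) * (1 / 2 : ℝ) ^ u) := by
        intro f
        show ∑ o, W f x o * K o x true ≤ _
        have hs := hWs f x
        rw [Fintype.sum_option] at hs ⊢
        have e3 : K none x true = 0 := by simp [K, dirac]
        rw [e3, mul_zero, zero_add]
        have hsum1 : ∑ r, W f x (some r) ≤ 1 := by
          have := hWn f x none
          linarith
        have hle1 : ∀ r, Pn r x true ≤ 1 := by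
          intro r
          have h7 := hPns r x
          have h8 := hPnn r x false
          rw [Fintype.sum_bool] at h7
          linarith
        split_ifs with hb
        · calc ∑ r, W f x (some r) * K (some r) x true
              ≤ ∑ r, W f x (some r) * 1 := by
                apply sum_le_sum
                intro r _
                exact mul_le_mul_of_nonneg_left (hle1 r) (hWn f x _)
            _ ≤ 1 := by rw [← sum_mul, mul_one]; exact hsum1
            _ ≤ _ := by
                have : (0 : ℝ) ≤ n * ((L + u + 1) * (1 / 2 : ℝ) ^ u) := by positivity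
                linarith
        · rw [zero_add]
          calc ∑ r, W f x (some r) * K (some r) x true
              ≤ ∑ r, W f x (some r) * (n * ((L + u + 1) * (1 / 2 : ℝ) ^ u)) := by
                apply sum_le_sum
                intro r _
                by_cases hr : (allT (List.ofFn (fun i => cov r (f i)))).eval x = true
                · apply mul_le_mul_of_nonneg_left _ (hWn f x _)
                  apply hP3 r x hx
                  rw [hev2] at hr
                  have h9 : ¬ 2 * (S.filter (fun j => (cov r j).eval x = true)).card < S.card :=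
                    fun h => hb ⟨r, hr, h⟩
                  have h10 : (univ.filter (inS cov (r :: H) x)) =
                      S.filter (fun j => ¬ (cov r j).eval x = true) := by
                    ext j
                    simp only [hSdef, mem_filter, mem_univ, true_and, inS, List.mem_cons,
                      forall_eq_or_imp, Bool.not_eq_true]
                    tauto
                  rw [h10]
                  have h11 := card_filter_add_card_filter_not (s := S)
                    (fun j => (cov r j).eval x = true)
                  have h12 : 2 ^ (n + 1) = 2 * 2 ^ n := by ring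
                  omega
                · have : W f x (some r) = 0 := hW2 f x r (by simpa using hr)
                  rw [this]; simp
            _ = (∑ r, W f x (some r)) * (n * ((L + u + 1) * (1 / 2 : ℝ) ^ u)) := by rw [sum_mul]
            _ ≤ 1 * (n * ((L + u + 1) * (1 / 2 : ℝ) ^ u)) :=
                mul_le_mul_of_nonneg_right hsum1 (by positivity)
            _ = _ := one_mul _
      rw [Fintype.sum_option]
      have e1 : Rf none x true = 1 := by simp [Rf, dirac]
      rw [e1, mul_one]
      have hs := hMs x
      rw [Fintype.sum_option] at hs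
      have hsum1 : ∑ f, M x (some f) ≤ 1 := by
        have := hMn x none
        linarith
      have e5 : ∑ f, M x (some f) * Rf (some f) x true ≤
          (1 / 2 : ℝ) ^ u + n * ((L + u + 1) * (1 / 2 : ℝ) ^ u) := by
        calc ∑ f, M x (some f) * Rf (some f) x true
            ≤ ∑ f, ((if ∃ r, (∀ i, (cov r (f i)).eval x = true) ∧
                2 * (S.filter (fun j => (cov r j).eval x = true)).card < S.card
                  then M x (some f) else 0) +
              M x (some f) * (n * ((L + u + 1) * (1 / 2 : ℝ) ^ u))) := by
              apply sum_le_sum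
              intro f _
              refine (mul_le_mul_of_nonneg_left (e2 f) (hMn x _)).trans (le_of_eq ?_)
              rw [mul_add]
              congr 1
              split_ifs <;> simp
          _ = ∑ f, (if ∃ r, (∀ i, (cov r (f i)).eval x = true) ∧
                2 * (S.filter (fun j => (cov r j).eval x = true)).card < S.card
                  then M x (some f) else 0) +
              (∑ f, M x (some f)) * (n * ((L + u + 1) * (1 / 2 : ℝ) ^ u)) := by
              rw [sum_add_distrib, sum_mul]
          _ ≤ (1 / 2 : ℝ) ^ u + 1 * (n * ((L + u + 1) * (1 / 2 : ℝ) ^ u)) := by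
              apply add_le_add
              · refine le_trans (le_of_eq (sum_congr rfl fun f _ => ?_)) hbad
                refine ite_cg (exists_congr fun r => and_congr Iff.rfl ?_)
                have hfe : S.filter (fun j => (cov r j).eval x = true) =
                    @Finset.filter J (fun j => (cov r j).eval x = true)
                      (fun j => propDecidable _) S := by
                  ext j; simp
                rw [hfe]
              · exact mul_le_mul_of_nonneg_right hsum1 (by positivity)
          _ = _ := by rw [one_mul]
      push_cast at hnone ⊢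
      linarith

end A9

theorem stageAlg : RealBasic → RealBind → RealMono → RealTree → RealSearch → StageAlg := by
  intro hB hBd _ _ hS V J R _ _ _ _ _ _ cov PA D qA m L T u hcov hPA hJ hR hT
  obtain ⟨P, h1, h2, h3⟩ := A9.stage hB hBd hS cov PA D qA m L T u hcov hPA hJ hR hT (m + 1) []
    (by simp)
  have hp : (0 : ℝ) ≤ (1 / 2 : ℝ) ^ u := by positivity
  refine ⟨P, h1, ?_, ?_⟩
  · intro x hx
    refine (h2 x hx).trans ?_
    unfold errF
    push_cast
    rw [mul_assoc]
    apply mul_le_mul_of_nonneg_left _ (by positivity)
    have : (1 : ℝ) ≤ L + u + 2 := by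
      have : (0 : ℝ) ≤ L := by positivity
      have : (0 : ℝ) ≤ u := by positivity
      linarith
    nlinarith
  · intro x hx
    refine (h3 x hx ?_).trans ?_
    · calc (univ.filter (A9.inS cov [] x)).card ≤ Fintype.card J := card_le_univ _
        _ ≤ 2 ^ m := hJ
        _ < 2 ^ (m + 1) := Nat.pow_lt_pow_right (by norm_num) (by omega)
    · unfold errF
      push_cast
      rw [mul_assoc]
      apply mul_le_mul_of_nonneg_left _ (by positivity)
      apply mul_le_mul_of_nonneg_right _ hp
      linarith

end Crest.Agent.R350
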