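import Crest.Agent.R350.Defs

set_option autoImplicit false

open Finset Classical

namespace Crest.Agent.R350

namespace CSRaux

/-! ### trees -/

section trees
variable {V V' α : Type}

theorem eval_fix (x' : V' → Bool) (f : V → V' ⊕ Bool) (t : Tree V α) :
    (t.fix f).eval x' = t.eval (fun v => Sum.elim x' id (f v)) := by
  induction t with
  | leaf a => rfl
  | node v t₀ t₁ h₀ h₁ =>
    simp only [Tree.fix, Tree.eval]
    split
    · rename_i u hu
      simp only [Tree.eval, hu, Sum.elim_inl, h₀, h₁]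
    · rename_i b hb
      cases b <;> simp [hb, h₀, h₁]

theorem depth_fix (f : V → V' ⊕ Bool) (t : Tree V α) : (t.fix f).depth ≤ t.depth := by
  induction t with
  | leaf a => exact le_refl _
  | node v t₀ t₁ h₀ h₁ =>
    simp only [Tree.fix, Tree.depth]
    rcases hf : f v with u | b
    · simp only [Tree.depth]
      exact Nat.add_le_add_right (max_le_max h₀ h₁) 1
    · cases b
      · simp only [Bool.false_eq_true, if_false]
        exact le_trans h₀ (le_trans (le_max_left _ _) (Nat.le_succ _))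
      · simp only [if_true]
        exact le_trans h₁ (le_trans (le_max_right _ _) (Nat.le_succ _))

/-- indicator that a variable of `S` is read. -/
noncomputable def hitT (S : V → Prop) : Tree V α → Tree V ℝ
  | Tree.leaf _ => Tree.leaf 0
  | Tree.node v t₀ t₁ => if S v then Tree.leaf 1 else Tree.node v (hitT S t₀) (hitT S t₁)

theorem hitT_depth (S : V → Prop) (t : Tree V α) : (hitT S t).depth ≤ t.depth := by
  induction t with
  | leaf a => exact le_refl _
  | node v t₀ t₁ h₀ h₁ =>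
    simp only [hitT]
    split_ifs
    · simp [Tree.depth]
    · simp only [Tree.depth]
      exact Nat.add_le_add_right (max_le_max h₀ h₁) 1

theorem hitT_range (S : V → Prop) (t : Tree V α) (x : V → Bool) :
    0 ≤ (hitT S t).eval x ∧ (hitT S t).eval x ≤ 1 := by
  induction t with
  | leaf a => simp [hitT, Tree.eval]
  | node v t₀ t₁ h₀ h₁ =>
    simp only [hitT]
    split_ifs
    · simp [Tree.eval]
    · simp only [Tree.eval]
      split_ifs
      · exact h₁
      · exact h₀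

/-- either the tree hits `S` or the two evaluations agree. -/
theorem hitT_agree (S : V → Prop) (t : Tree V α) (x y : V → Bool)
    (hxy : ∀ v, ¬ S v → x v = y v) :
    (hitT S t).eval x = 1 ∨ t.eval x = t.eval y := by
  induction t with
  | leaf a => right; rfl
  | node v t₀ t₁ h₀ h₁ =>
    simp only [hitT]
    by_cases hS : S v
    · left; simp [hS, Tree.eval]
    · simp only [hS, if_false, Tree.eval]
      rw [← hxy v hS]
      by_cases hx : x v = true
      · simp only [hx, if_true]; exact h₁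
      · simp only [hx]; exact h₀

theorem sum_hitT_le {ι : Type} [Fintype ι] (S : ι → V → Prop)
    (hdis : ∀ v i j, S i v → S j v → i = j) (t : Tree V α) (x : V → Bool) :
    ∑ i, (hitT (S i) t).eval x ≤ (t.depth : ℝ) := by
  induction t with
  | leaf a => simp [hitT, Tree.eval, Tree.depth]
  | node v t₀ t₁ h₀ h₁ =>
    have key : ∀ i, (hitT (S i) (Tree.node v t₀ t₁)).eval x ≤
        (if S i v then (1 : ℝ) else 0) +
          (hitT (S i) (if x v = true then t₁ else t₀)).eval x := by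
      intro i
      simp only [hitT]
      by_cases hS : S i v
      · simp only [hS, if_true, Tree.eval]
        have := (hitT_range (S i) (if x v = true then t₁ else t₀) x).1
        linarith
      · simp only [hS, if_false, Tree.eval]
        by_cases hx : x v = true
        · simp [hx]
        · simp [hx]
    have hone : ∑ i, (if S i v then (1 : ℝ) else 0) ≤ 1 := by
      by_cases hex : ∃ i, S i v
      · obtain ⟨i₀, hi₀⟩ := hex
        have : ∀ i, (if S i v then (1 : ℝ) else 0) = if i = i₀ then 1 else 0 := by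
          intro i
          by_cases h : i = i₀
          · subst h; simp [hi₀]
          · have : ¬ S i v := fun h' => h (hdis v i i₀ h' hi₀)
            simp [h, this]
        simp only [this]
        simp
      · push Not at hex
        have : ∀ i, (if S i v then (1 : ℝ) else 0) = 0 := fun i => by simp [hex i]
        simp only [this]
        simp
    have hrest : ∑ i, (hitT (S i) (if x v = true then t₁ else t₀)).eval x ≤
        ((max t₀.depth t₁.depth : ℕ) : ℝ) := by
      by_cases hx : x v = true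
      · simp only [hx, if_true]
        exact le_trans h₁ (by exact_mod_cast le_max_right _ _)
      · simp only [hx]
        exact le_trans h₀ (by exact_mod_cast le_max_left _ _)
    calc ∑ i, (hitT (S i) (Tree.node v t₀ t₁)).eval x
        ≤ ∑ i, ((if S i v then (1 : ℝ) else 0) +
          (hitT (S i) (if x v = true then t₁ else t₀)).eval x) :=
          Finset.sum_le_sum fun i _ => key i
      _ = ∑ i, (if S i v then (1 : ℝ) else 0) +
          ∑ i, (hitT (S i) (if x v = true then t₁ else t₀)).eval x := Finset.sum_add_distrib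
      _ ≤ 1 + ((max t₀.depth t₁.depth : ℕ) : ℝ) := add_le_add hone hrest
      _ = ((Tree.node v t₀ t₁).depth : ℝ) := by
          simp only [Tree.depth]; push_cast; ring

end trees

/-! ### product measures -/

section prod

theorem sum_pi_prod {c : ℕ} {Ω : Fin c → Type} [∀ i, Fintype (Ω i)] (f : ∀ i, Ω i → ℝ) :
    ∑ ω : (∀ i, Ω i), ∏ i, f i (ω i) = ∏ i, ∑ ω, f i ω := by
  rw [Finset.prod_univ_sum]
  rw [Fintype.piFinset_univ]

/-- marginal of a product weight -/
theorem marginal {c : ℕ} {Ω : Fin c → Type} [∀ i, Fintype (Ω i)] (w : ∀ i, Ω i → ℝ)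
    (hw : ∀ i, ∑ ω, w i ω = 1) (i₀ : Fin c) (f : Ω i₀ → ℝ) :
    ∑ ω : (∀ i, Ω i), (∏ i, w i (ω i)) * f (ω i₀) = ∑ ω, w i₀ ω * f ω := by
  have h1 : ∀ ω : (∀ i, Ω i), (∏ i, w i (ω i)) * f (ω i₀) =
      ∏ i, (w i (ω i) * (if h : i = i₀ then f (h ▸ ω i) else 1)) := by
    intro ω
    rw [Finset.prod_mul_distrib]
    congr 1
    rw [Finset.prod_eq_single i₀]
    · simp
    · intro b _ hb; simp [hb]
    · simp
  simp only [h1]
  rw [sum_pi_prod (fun i ω => w i ω * (if h : i = i₀ then f (h ▸ ω) else 1))]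
  rw [Finset.prod_eq_single i₀]
  · simp
  · intro b _ hb; simp [hb, hw]
  · simp

/-- push-forward of a weight -/
noncomputable def push {Ω Y : Type} [Fintype Ω] (w : Ω → ℝ) (g : Ω → Y) (y : Y) : ℝ :=
  ∑ ω, if g ω = y then w ω else 0

theorem push_nonneg {Ω Y : Type} [Fintype Ω] (w : Ω → ℝ) (hw : ∀ ω, 0 ≤ w ω) (g : Ω → Y) (y : Y) :
    0 ≤ push w g y := by
  unfold push
  exact Finset.sum_nonneg fun ω _ => by split_ifs; exacts [hw ω, le_refl _]

theorem sum_push {Ω Y : Type} [Fintype Ω] [Fintype Y] (w : Ω → ℝ) (g : Ω → Y) (f : Y → ℝ) :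
    ∑ y, push w g y * f y = ∑ ω, w ω * f (g ω) := by
  unfold push
  simp only [Finset.sum_mul]
  rw [Finset.sum_comm]
  refine Finset.sum_congr rfl fun ω _ => ?_
  rw [Finset.sum_eq_single (g ω)]
  · simp
  · intro b _ hb
    simp [Ne.symm hb]
  · simp

theorem sum_push_one {Ω Y : Type} [Fintype Ω] [Fintype Y] (w : Ω → ℝ) (g : Ω → Y) :
    ∑ y, push w g y = ∑ ω, w ω := by
  have := sum_push w g (fun _ => (1 : ℝ))
  simpa using this

theorem sum_pi_push {c : ℕ} {Ω : Fin c → Type} [∀ i, Fintype (Ω i)] {Y : Type} [Fintype Y]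
    (w : ∀ i, Ω i → ℝ) (g : ∀ i, Ω i → Y) (G : (Fin c → Y) → ℝ) :
    ∑ ω : (∀ i, Ω i), (∏ i, w i (ω i)) * G (fun i => g i (ω i)) =
      ∑ X : Fin c → Y, (∏ i, push (w i) (g i) (X i)) * G X := by
  have h1 : ∀ X : Fin c → Y, (∏ i, push (w i) (g i) (X i)) =
      ∑ ω : (∀ i, Ω i), ∏ i, (if g i (ω i) = X i then w i (ω i) else 0) := by
    intro X
    rw [sum_pi_prod (fun i ω => if g i ω = X i then w i ω else 0)]
    rfl
  simp only [h1, Finset.sum_mul]
  rw [Finset.sum_comm]
  refine Finset.sum_congr rfl fun ω _ => ?_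
  rw [Finset.sum_eq_single (fun i => g i (ω i))]
  · simp
  · intro X _ hX
    have : ∃ i, g i (ω i) ≠ X i := by
      by_contra hcon
      push Not at hcon
      exact hX (funext fun i => (hcon i).symm)
    obtain ⟨i, hi⟩ := this
    rw [Finset.prod_eq_zero (Finset.mem_univ i)]
    · simp
    · simp [hi]
  · simp

/-- hybrid lemma -/
theorem hybrid {Y : Type} [Fintype Y] (δ : ℝ) (hδ : 0 ≤ δ) : ∀ (c : ℕ) (μ ν : Fin c → Y → ℝ),
    (∀ i y, 0 ≤ μ i y) → (∀ i, ∑ y, μ i y = 1) → (∀ i y, 0 ≤ ν i y) → (∀ i, ∑ y, ν i y = 1) →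
    ∀ G : (Fin c → Y) → ℝ,
    (∀ (i : Fin c) (X : Fin c → Y),
      |∑ y, μ i y * G (Function.update X i y) - ∑ y, ν i y * G (Function.update X i y)| ≤ δ) →
    |∑ X, (∏ i, μ i (X i)) * G X - ∑ X, (∏ i, ν i (X i)) * G X| ≤ c * δ
  | 0, μ, ν, _, _, _, _, G, _ => by simp
  | c + 1, μ, ν, hμ, hμ1, hν, hν1, G, hG => by
    have hsplit : ∀ (κ : Fin (c + 1) → Y → ℝ),
        ∑ X : Fin (c + 1) → Y, (∏ i, κ i (X i)) * G X =
          ∑ y, ∑ X' : Fin c → Y, (κ 0 y * ∏ i : Fin c, κ i.succ (X' i)) * G (Fin.cons y X') := by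
      intro κ
      rw [← (Fin.consEquiv (fun _ : Fin (c + 1) => Y)).sum_comp, Fintype.sum_prod_type]
      refine Finset.sum_congr rfl fun y _ => Finset.sum_congr rfl fun X' _ => ?_
      rw [Fin.prod_univ_succ]
      simp [Fin.consEquiv]
    -- the intermediate
    set M : ℝ := ∑ y, ∑ X' : Fin c → Y, (ν 0 y * ∏ i : Fin c, μ i.succ (X' i)) * G (Fin.cons y X')
      with hM
    have hA : |∑ X : Fin (c + 1) → Y, (∏ i, μ i (X i)) * G X - M| ≤ δ := by
      rw [hsplit μ, hM]
      rw [Finset.sum_comm, Finset.sum_comm (f := fun y (X' : Fin c → Y) =>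
        (ν 0 y * ∏ i : Fin c, μ i.succ (X' i)) * G (Fin.cons y X'))]
      rw [← Finset.sum_sub_distrib]
      have hterm : ∀ X' : Fin c → Y,
          |(∑ y, (μ 0 y * ∏ i : Fin c, μ i.succ (X' i)) * G (Fin.cons y X')) -
            ∑ y, (ν 0 y * ∏ i : Fin c, μ i.succ (X' i)) * G (Fin.cons y X')| ≤
          (∏ i : Fin c, μ i.succ (X' i)) * δ := by
        intro X'
        have hw : 0 ≤ ∏ i : Fin c, μ i.succ (X' i) := Finset.prod_nonneg fun i _ => hμ _ _
        by_cases hne : Nonempty Y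
        · obtain ⟨y₀⟩ := hne
          have h0 := hG 0 (Fin.cons y₀ X')
          have e : ∀ y, Function.update (Fin.cons y₀ X' : Fin (c + 1) → Y) 0 y = Fin.cons y X' := by
            intro y; exact Fin.update_cons_zero _ _ _
          simp only [e] at h0
          have e2 : (∑ y, (μ 0 y * ∏ i : Fin c, μ i.succ (X' i)) * G (Fin.cons y X')) -
            ∑ y, (ν 0 y * ∏ i : Fin c, μ i.succ (X' i)) * G (Fin.cons y X') =
            (∏ i : Fin c, μ i.succ (X' i)) *
              (∑ y, μ 0 y * G (Fin.cons y X') - ∑ y, ν 0 y * G (Fin.cons y X')) := by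
            rw [mul_sub, Finset.mul_sum, Finset.mul_sum]
            congr 1 <;> exact Finset.sum_congr rfl fun y _ => by ring
          rw [e2, abs_mul, abs_of_nonneg hw]
          exact mul_le_mul_of_nonneg_left h0 hw
        · have : IsEmpty Y := not_nonempty_iff.mp hne
          simp only [Finset.univ_eq_empty, Finset.sum_empty, sub_zero, abs_zero]
          exact mul_nonneg hw hδ
      refine le_trans (Finset.abs_sum_le_sum_abs _ _) ?_
      refine le_trans (Finset.sum_le_sum fun X' _ => hterm X') ?_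
      rw [← Finset.sum_mul, sum_pi_prod (fun (i : Fin c) y => μ i.succ y)]
      simp [hμ1]
    have hB : |M - ∑ X : Fin (c + 1) → Y, (∏ i, ν i (X i)) * G X| ≤ c * δ := by
      rw [hsplit ν, hM, ← Finset.sum_sub_distrib]
      have hterm : ∀ y : Y,
          |(∑ X' : Fin c → Y, (ν 0 y * ∏ i : Fin c, μ i.succ (X' i)) * G (Fin.cons y X')) -
            ∑ X' : Fin c → Y, (ν 0 y * ∏ i : Fin c, ν i.succ (X' i)) * G (Fin.cons y X')| ≤
          ν 0 y * (c * δ) := by
        intro y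
        have ih := hybrid δ hδ c (fun i => μ i.succ) (fun i => ν i.succ)
          (fun i => hμ _) (fun i => hμ1 _) (fun i => hν _) (fun i => hν1 _)
          (fun X' => G (Fin.cons y X')) (by
            intro i X'
            have := hG i.succ (Fin.cons y X')
            have e : ∀ z, Function.update (Fin.cons y X' : Fin (c + 1) → Y) i.succ z =
                Fin.cons y (Function.update X' i z) := by
              intro z; exact (Fin.cons_update _ _ _ _).symm
            simp only [e] at this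
            exact this)
        have e2 : (∑ X' : Fin c → Y, (ν 0 y * ∏ i : Fin c, μ i.succ (X' i)) * G (Fin.cons y X')) -
            ∑ X' : Fin c → Y, (ν 0 y * ∏ i : Fin c, ν i.succ (X' i)) * G (Fin.cons y X') =
            ν 0 y * (∑ X' : Fin c → Y, (∏ i : Fin c, μ i.succ (X' i)) * G (Fin.cons y X') -
              ∑ X' : Fin c → Y, (∏ i : Fin c, ν i.succ (X' i)) * G (Fin.cons y X')) := by
          rw [mul_sub, Finset.mul_sum, Finset.mul_sum]
          congr 1 <;> exact Finset.sum_congr rfl fun y _ => by ring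
        rw [e2, abs_mul, abs_of_nonneg (hν _ _)]
        exact mul_le_mul_of_nonneg_left ih (hν _ _)
      refine le_trans (Finset.abs_sum_le_sum_abs _ _) ?_
      refine le_trans (Finset.sum_le_sum fun y _ => hterm y) ?_
      rw [← Finset.sum_mul, hν1, one_mul]
    calc |∑ X, (∏ i, μ i (X i)) * G X - ∑ X, (∏ i, ν i (X i)) * G X|
        ≤ |∑ X, (∏ i, μ i (X i)) * G X - M| + |M - ∑ X, (∏ i, ν i (X i)) * G X| :=
          abs_sub_le _ _ _
      _ ≤ δ + c * δ := add_le_add hA hB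
      _ = ((c + 1 : ℕ) : ℝ) * δ := by push_cast; ring

end prod

/-! ### the inputs -/

section inputs
variable {V₀ : Type} {c L : ℕ}

/-- no cheat sheet -/
def base (L : ℕ) (X : Fin c → V₀ → Bool) : VC V₀ c L → Bool :=
  Sum.elim (fun iv => X iv.1 iv.2) (Sum.elim (fun _ => false) (fun _ => false))

/-- cheat sheet at `ℓ` -/
noncomputable def cheat (ℓ : B c) (r : Fin c → B L) (X : Fin c → V₀ → Bool) : VC V₀ c L → Bool :=
  Sum.elim (fun iv => X iv.1 iv.2)
    (Sum.elim (fun ℓ' => decide (ℓ' = ℓ)) (fun q => if q.1 = ℓ then r q.2.1 q.2.2 else false))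

/-- variables of the cell `ℓ` -/
def cell (ℓ : B c) : VC V₀ c L → Prop :=
  Sum.elim (fun _ => False) (Sum.elim (fun ℓ' => ℓ' = ℓ) (fun q => q.1 = ℓ))

theorem cell_disj (v : VC V₀ c L) (i j : B c) (hi : cell i v) (hj : cell j v) : i = j := by
  rcases v with v | v | v
  · exact hi.elim
  · exact hi.symm.trans hj
  · exact hi.symm.trans hj

theorem agree_off (ℓ : B c) (r : Fin c → B L) (X : Fin c → V₀ → Bool) (v : VC V₀ c L)
    (hv : ¬ cell ℓ v) : base L X v = cheat ℓ r X v := by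
  rcases v with v | v | v
  · rfl
  · have : v ≠ ℓ := hv
    simp [base, cheat, this]
  · have : v.1 ≠ ℓ := hv
    simp [base, cheat, this]

theorem FCS_base {E : Type} (chk : Bool → B L → E → Tree V₀ Bool) (X : Fin c → V₀ → Bool) :
    FCS (c := c) chk (base L X) = false := by
  unfold FCS
  rw [decide_eq_false_iff_not]
  rintro ⟨ℓ, h, _⟩
  simp [base] at h

theorem FCS_cheat {E : Type} (chk : Bool → B L → E → Tree V₀ Bool) (ℓ : B c) (r : Fin c → B L)
    (X : Fin c → V₀ → Bool) (hv : ∀ i, valid chk (ℓ i) (r i) (X i)) :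
    FCS (c := c) chk (cheat ℓ r X) = true := by
  unfold FCS
  rw [decide_eq_true_iff]
  refine ⟨ℓ, by simp [cheat], fun i => ?_⟩
  have h := hv i
  have e : (fun l => cheat ℓ r X (Sum.inr (Sum.inr (ℓ, i, l)))) = r i := by
    funext l; simp [cheat]
  have e' : (fun v => cheat ℓ r X (Sum.inl (i, v))) = X i := by
    funext v; simp [cheat]
  rw [e, e']
  exact h

/-- restriction to the instance `i` -/
noncomputable def fixI (X : Fin c → V₀ → Bool) (i : Fin c) : VC V₀ c L → V₀ ⊕ Bool :=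
  Sum.elim (fun iv => if iv.1 = i then Sum.inl iv.2 else Sum.inr (X iv.1 iv.2))
    (fun _ => Sum.inr false)

theorem eval_fixI (X : Fin c → V₀ → Bool) (i : Fin c) (H : Tree (VC V₀ c L) ℝ) (Y : V₀ → Bool) :
    (H.fix (fixI X i)).eval Y = H.eval (base L (Function.update X i Y)) := by
  rw [eval_fix]
  congr 1
  funext v
  rcases v with ⟨i', v⟩ | v | v
  · by_cases h : i' = i
    · subst h; simp [fixI, base]
    · simp [fixI, base, h]
  · rfl
  · rfl

end inputs

end CSRaux

open CSRaux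

/-- B1. -/
theorem csr : CSR := by
  intro V₀ E _ c L R chk Ω _ w Xr pt ν δ₁ δ₂ hw hw1 hν hν1 hδ₁ hδ₂ hval hind hlt hR
  obtain ⟨s, p, T, hp, hp1, hdep, hcorr⟩ := hR
  -- notation
  set X : ∀ ℓ : B c, (∀ i, Ω (ℓ i)) → Fin c → V₀ → Bool := fun ℓ ω i => Xr (ℓ i) (ω i) with hX
  set Wt : ∀ ℓ : B c, (∀ i, Ω (ℓ i)) → ℝ := fun ℓ ω => ∏ i, w (ℓ i) (ω i) with hWt
  have hWnn : ∀ ℓ ω, 0 ≤ Wt ℓ ω := fun ℓ ω => Finset.prod_nonneg fun i _ => hw _ _
  have hWsum : ∀ ℓ, ∑ ω, Wt ℓ ω = 1 := by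
    intro ℓ
    rw [hWt]
    rw [sum_pi_prod (fun i ω => w (ℓ i) ω)]
    simp [hw1]
  -- pointwise bound
  have hpt : ∀ (ℓ : B c) (ω : ∀ i, Ω (ℓ i)), (∀ i, valid chk (ℓ i) (pt (ℓ i) (ω i)) (X ℓ ω i)) →
      1 / 3 ≤ ∑ j, p j * (hitT (cell ℓ) (T j)).eval (base L (X ℓ ω)) := by
    intro ℓ ω hv
    have h0 := hcorr (base L (X ℓ ω))
    have h1 := hcorr (cheat ℓ (fun i => pt (ℓ i) (ω i)) (X ℓ ω))
    rw [FCS_base] at h0
    rw [FCS_cheat chk ℓ _ _ hv] at h1
    have key : ∀ j, (if (T j).eval (base L (X ℓ ω)) = false then p j else 0) +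
        (if (T j).eval (cheat ℓ (fun i => pt (ℓ i) (ω i)) (X ℓ ω)) = true then p j else 0) ≤
        p j + p j * (hitT (cell ℓ) (T j)).eval (base L (X ℓ ω)) := by
      intro j
      have hr := hitT_range (cell ℓ) (T j) (base L (X ℓ ω))
      have hpj := hp j
      rcases hitT_agree (cell ℓ) (T j) (base L (X ℓ ω))
        (cheat ℓ (fun i => pt (ℓ i) (ω i)) (X ℓ ω)) (fun v hv => agree_off ℓ _ _ v hv) with h | h
      · rw [h]
        split_ifs <;> linarith
      · rw [← h]
        have : 0 ≤ p j * (hitT (cell ℓ) (T j)).eval (base L (X ℓ ω)) := mul_nonneg hpj hr.1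
        cases hT : (T j).eval (base L (X ℓ ω)) <;> simp <;> linarith
    have := Finset.sum_le_sum fun j (_ : j ∈ (univ : Finset (Fin s))) => key j
    rw [Finset.sum_add_distrib, Finset.sum_add_distrib, hp1] at this
    linarith
  -- average over ω
  have havg : ∀ ℓ : B c, 1 / 3 - c * δ₁ ≤
      ∑ ω, Wt ℓ ω * ∑ j, p j * (hitT (cell ℓ) (T j)).eval (base L (X ℓ ω)) := by
    intro ℓ
    have hbad : ∀ ω : (∀ i, Ω (ℓ i)), 1 / 3 * Wt ℓ ω - (∑ i, Wt ℓ ω *
        (if valid chk (ℓ i) (pt (ℓ i) (ω i)) (Xr (ℓ i) (ω i)) then (0 : ℝ) else 1)) ≤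
        Wt ℓ ω * ∑ j, p j * (hitT (cell ℓ) (T j)).eval (base L (X ℓ ω)) := by
      intro ω
      by_cases hv : ∀ i, valid chk (ℓ i) (pt (ℓ i) (ω i)) (Xr (ℓ i) (ω i))
      · have := hpt ℓ ω hv
        have e : (∑ i, Wt ℓ ω *
          (if valid chk (ℓ i) (pt (ℓ i) (ω i)) (Xr (ℓ i) (ω i)) then (0 : ℝ) else 1)) = 0 := by
          refine Finset.sum_eq_zero fun i _ => ?_
          rw [if_pos (hv i)]; ring
        rw [e, sub_zero, mul_comm (1 / 3 : ℝ)]
        exact mul_le_mul_of_nonneg_left this (hWnn ℓ ω)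
      · push Not at hv
        obtain ⟨i₀, hi₀⟩ := hv
        have e : Wt ℓ ω ≤ ∑ i, Wt ℓ ω *
          (if valid chk (ℓ i) (pt (ℓ i) (ω i)) (Xr (ℓ i) (ω i)) then (0 : ℝ) else 1) := by
          refine le_trans ?_ (Finset.single_le_sum (f := fun i => Wt ℓ ω *
            (if valid chk (ℓ i) (pt (ℓ i) (ω i)) (Xr (ℓ i) (ω i)) then (0 : ℝ) else 1))
            (fun i _ => mul_nonneg (hWnn ℓ ω) (by split_ifs <;> norm_num)) (Finset.mem_univ i₀))
          rw [if_neg hi₀, mul_one]
        have h2 : 0 ≤ Wt ℓ ω * ∑ j, p j * (hitT (cell ℓ) (T j)).eval (base L (X ℓ ω)) :=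
          mul_nonneg (hWnn ℓ ω) (Finset.sum_nonneg fun j _ =>
            mul_nonneg (hp j) (hitT_range _ _ _).1)
        have h3 := hWnn ℓ ω
        linarith
    have hs := Finset.sum_le_sum fun ω (_ : ω ∈ (univ : Finset (∀ i, Ω (ℓ i)))) => hbad ω
    refine le_trans ?_ hs
    rw [Finset.sum_sub_distrib, ← Finset.mul_sum, hWsum ℓ, Finset.sum_comm]
    have hmarg : ∀ i, ∑ ω : (∀ i, Ω (ℓ i)), Wt ℓ ω *
        (if valid chk (ℓ i) (pt (ℓ i) (ω i)) (Xr (ℓ i) (ω i)) then (0 : ℝ) else 1) ≤ δ₁ := by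
      intro i
      have := marginal (fun i ω => w (ℓ i) ω) (fun i => hw1 _) i
        (fun ω => if valid chk (ℓ i) (pt (ℓ i) ω) (Xr (ℓ i) ω) then (0 : ℝ) else 1)
      refine le_trans (le_of_eq this) ?_
      refine le_trans (le_of_eq ?_) (hval (ℓ i))
      refine Finset.sum_congr rfl fun ω _ => ?_
      show w (ℓ i) ω * (if valid chk (ℓ i) (pt (ℓ i) ω) (Xr (ℓ i) ω) then (0 : ℝ) else 1) =
        if valid chk (ℓ i) (pt (ℓ i) ω) (Xr (ℓ i) ω) then (0 : ℝ) else w (ℓ i) ω
      split_ifs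
      · ring
      · ring
    have h4 : ∑ i : Fin c, ∑ ω : (∀ i, Ω (ℓ i)), Wt ℓ ω *
        (if valid chk (ℓ i) (pt (ℓ i) (ω i)) (Xr (ℓ i) (ω i)) then (0 : ℝ) else 1) ≤ c * δ₁ := by
      refine le_trans (Finset.sum_le_sum fun i _ => hmarg i) ?_
      simp
    linarith
  -- hybrid
  have hhyb : ∀ (ℓ : B c) (j : Fin s),
      ∑ ω, Wt ℓ ω * (hitT (cell ℓ) (T j)).eval (base L (X ℓ ω)) ≤
        ∑ Y : Fin c → V₀ → Bool, (∏ i, ν (Y i)) * (hitT (cell ℓ) (T j)).eval (base L Y)
          + c * δ₂ := by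
    intro ℓ j
    set H := hitT (cell ℓ) (T j) with hH
    have hHd : H.depth ≤ R := le_trans (hitT_depth _ _) (hdep j)
    have e1 := sum_pi_push (fun i ω => w (ℓ i) ω) (fun i ω => Xr (ℓ i) ω)
      (fun Y => H.eval (base L Y))
    have e2 := hybrid (Y := V₀ → Bool) δ₂ hδ₂ c
      (fun i => push (w (ℓ i)) (Xr (ℓ i))) (fun _ => ν)
      (fun i y => push_nonneg _ (hw _) _ _) (fun i => by rw [sum_push_one, hw1])
      (fun _ => hν) (fun _ => hν1) (fun Y => H.eval (base L Y)) (by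
        intro i Y
        have h := hind (ℓ i) (H.fix (fixI Y i)) (fun Z => by
          rw [eval_fixI]; exact hitT_range _ _ _) (le_trans (depth_fix _ _) hHd)
        simp only [eval_fixI] at h
        rw [sum_push]
        exact h)
    have e3 := (abs_le.mp e2).2
    have e4 : ∑ ω, Wt ℓ ω * H.eval (base L (X ℓ ω)) =
        ∑ Y : Fin c → V₀ → Bool, (∏ i, push (w (ℓ i)) (Xr (ℓ i)) (Y i)) * H.eval (base L Y) := e1
    rw [e4]
    linarith
  -- combine
  have hcomb : ∀ ℓ : B c, 1 / 3 - c * δ₁ - c * δ₂ ≤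
      ∑ j, p j * ∑ Y : Fin c → V₀ → Bool, (∏ i, ν (Y i)) *
        (hitT (cell ℓ) (T j)).eval (base L Y) := by
    intro ℓ
    have h1 := havg ℓ
    have e : ∑ ω, Wt ℓ ω * ∑ j, p j * (hitT (cell ℓ) (T j)).eval (base L (X ℓ ω)) =
        ∑ j, p j * ∑ ω, Wt ℓ ω * (hitT (cell ℓ) (T j)).eval (base L (X ℓ ω)) := by
      simp only [Finset.mul_sum]
      rw [Finset.sum_comm]
      exact Finset.sum_congr rfl fun j _ => Finset.sum_congr rfl fun ω _ => by ring
    rw [e] at h1
    have h2 : ∑ j, p j * ∑ ω, Wt ℓ ω * (hitT (cell ℓ) (T j)).eval (base L (X ℓ ω)) ≤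
        ∑ j, p j * (∑ Y : Fin c → V₀ → Bool, (∏ i, ν (Y i)) *
          (hitT (cell ℓ) (T j)).eval (base L Y) + c * δ₂) :=
      Finset.sum_le_sum fun j _ => mul_le_mul_of_nonneg_left (hhyb ℓ j) (hp j)
    have h3 : ∑ j, p j * (∑ Y : Fin c → V₀ → Bool, (∏ i, ν (Y i)) *
          (hitT (cell ℓ) (T j)).eval (base L Y) + c * δ₂) =
        ∑ j, p j * (∑ Y : Fin c → V₀ → Bool, (∏ i, ν (Y i)) *
          (hitT (cell ℓ) (T j)).eval (base L Y)) + c * δ₂ := by
      simp only [mul_add, Finset.sum_add_distrib]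
      rw [← Finset.sum_mul, hp1, one_mul]
    linarith
  -- sum over ℓ
  have hsumℓ := Finset.sum_le_sum fun ℓ (_ : ℓ ∈ (univ : Finset (B c))) => hcomb ℓ
  have hcard : ∑ _ℓ : B c, ((1 : ℝ) / 3 - c * δ₁ - c * δ₂) = 2 ^ c * (1 / 3 - c * δ₁ - c * δ₂) := by
    rw [Finset.sum_const, Finset.card_univ, nsmul_eq_mul]
    simp
  rw [hcard] at hsumℓ
  have hνc : ∑ Y : Fin c → V₀ → Bool, (∏ i, ν (Y i)) = 1 := by
    rw [sum_pi_prod (fun (_ : Fin c) Y => ν Y)]
    simp [hν1]
  have hRbound : ∑ ℓ : B c, ∑ j, p j * ∑ Y : Fin c → V₀ → Bool, (∏ i, ν (Y i)) *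
        (hitT (cell ℓ) (T j)).eval (base L Y) ≤ R := by
    rw [Finset.sum_comm]
    have hj : ∀ j, ∑ ℓ : B c, p j * ∑ Y : Fin c → V₀ → Bool, (∏ i, ν (Y i)) *
        (hitT (cell ℓ) (T j)).eval (base L Y) ≤ p j * R := by
      intro j
      rw [← Finset.mul_sum, Finset.sum_comm]
      refine mul_le_mul_of_nonneg_left ?_ (hp j)
      have hY : ∀ Y : Fin c → V₀ → Bool, ∑ ℓ : B c, (∏ i, ν (Y i)) *
          (hitT (cell ℓ) (T j)).eval (base L Y) ≤ (∏ i, ν (Y i)) * R := by
        intro Y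
        rw [← Finset.mul_sum]
        refine mul_le_mul_of_nonneg_left ?_ (Finset.prod_nonneg fun i _ => hν _)
        refine le_trans (sum_hitT_le (fun ℓ => cell ℓ) (fun v i j hi hj => cell_disj v i j hi hj)
          (T j) (base L Y)) ?_
        exact_mod_cast hdep j
      refine le_trans (Finset.sum_le_sum fun Y _ => hY Y) ?_
      rw [← Finset.sum_mul, hνc, one_mul]
    refine le_trans (Finset.sum_le_sum fun j _ => hj j) ?_
    rw [← Finset.sum_mul, hp1, one_mul]
  have hfin : 2 ^ c * (1 / 3 - c * δ₁ - c * δ₂) ≤ (R : ℝ) := le_trans hsumℓ hRbound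
  have h2c : (0 : ℝ) < 2 ^ c := by positivity
  have : 1 / 3 - c * δ₁ - c * δ₂ ≤ (R : ℝ) / 2 ^ c := by
    rw [le_div_iff₀ h2c]
    linarith
  have : (c : ℝ) * (δ₁ + δ₂) = c * δ₁ + c * δ₂ := by ring
  linarith

end Crest.Agent.R350
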