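import Crest.Agent.R350.Defs

/-!
# Row 350, task B2: erasing marks is not noticed
-/

set_option autoImplicit false

open Finset Classical

namespace Crest.Agent.R350

namespace B2

/-! ### trees -/

section tree
variable {V α : Type}

theorem card_reads_le (x : V → Bool) (t : Tree V α) : (t.reads x).card ≤ t.depth := by
  induction t with
  | leaf a => simp [Tree.reads, Tree.depth]
  | node v t₀ t₁ h₀ h₁ =>
    simp only [Tree.reads, Tree.depth]
    refine (Finset.card_insert_le _ _).trans ?_
    split_ifs
    · exact Nat.add_le_add_right (h₁.trans (le_max_right _ _)) 1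
    · exact Nat.add_le_add_right (h₀.trans (le_max_left _ _)) 1

theorem eval_congr (x y : V → Bool) (t : Tree V α) (h : ∀ v ∈ t.reads x, x v = y v) :
    t.eval y = t.eval x := by
  induction t with
  | leaf a => rfl
  | node v t₀ t₁ h₀ h₁ =>
    have hv : x v = y v := h v (by simp [Tree.reads])
    simp only [Tree.eval]
    rw [← hv]
    by_cases hx : x v = true
    · rw [if_pos hx, if_pos hx]
      refine h₁ fun u hu => h u ?_
      simp only [Tree.reads, hx, if_true]
      exact Finset.mem_insert_of_mem hu
    · rw [if_neg hx, if_neg hx]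
      refine h₀ fun u hu => h u ?_
      simp only [Tree.reads, if_neg hx]
      exact Finset.mem_insert_of_mem hu

/-- whether `v` is read does not depend on the value of `v`. -/
theorem mem_reads_update [DecidableEq V] (x : V → Bool) (v : V) (b : Bool) (t : Tree V α) :
    v ∈ t.reads (Function.update x v b) ↔ v ∈ t.reads x := by
  induction t with
  | leaf a => simp [Tree.reads]
  | node u t₀ t₁ h₀ h₁ =>
    simp only [Tree.reads, Finset.mem_insert]
    by_cases huv : v = u
    · simp [huv]
    · have : Function.update x v b u = x u := Function.update_of_ne (Ne.symm huv) _ _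
      rw [this]
      by_cases hx : x u = true
      · simp [huv, h₁, hx]
      · simp [huv, h₀, hx]

end tree

/-! ### product weights -/

section prodw
variable {V : Type} [Fintype V]

theorem prodW_nonneg (pr : V → ℝ) (h0 : ∀ v, 0 ≤ pr v) (h1 : ∀ v, pr v ≤ 1) (x : V → Bool) :
    0 ≤ prodW pr x := by
  unfold prodW
  refine Finset.prod_nonneg fun v _ => ?_
  split_ifs
  · exact h0 v
  · linarith [h1 v]

theorem sum_prodW [DecidableEq V] (pr : V → ℝ) : ∑ x, prodW pr x = 1 := by
  have h := Finset.prod_univ_sum (fun _ : V => (Finset.univ : Finset Bool))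
    (fun v b => if b = true then pr v else 1 - pr v)
  rw [Fintype.piFinset_univ] at h
  unfold prodW
  rw [← h]
  simp

theorem prodW_split [DecidableEq V] (pr : V → ℝ) (v : V) (x : V → Bool) :
    prodW pr x = (if x v then pr v else 1 - pr v) *
      ∏ u ∈ univ.erase v, if x u then pr u else 1 - pr u := by
  unfold prodW
  exact (Finset.mul_prod_erase _ _ (Finset.mem_univ v)).symm

/-- independence of a coordinate -/
theorem sum_update [DecidableEq V] (pr : V → ℝ) (v : V) (g : (V → Bool) → ℝ)
    (hg : ∀ x b, g (Function.update x v b) = g x) :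
    ∑ x, prodW pr x * (if x v = true then g x else 0) = pr v * ∑ x, prodW pr x * g x := by
  set Rr : (V → Bool) → ℝ := fun x => ∏ u ∈ univ.erase v, if x u then pr u else 1 - pr u with hR
  have hRu : ∀ x b, Rr (Function.update x v b) = Rr x := by
    intro x b
    refine Finset.prod_congr rfl fun u hu => ?_
    rw [Function.update_of_ne (Finset.ne_of_mem_erase hu)]
  set A := ∑ x, prodW pr x * (if x v = true then g x else 0) with hA
  set A' := ∑ x, prodW pr x * (if x v = true then 0 else g x) with hA'
  have hsum : ∑ x, prodW pr x * g x = A + A' := by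
    rw [hA, hA', ← Finset.sum_add_distrib]
    refine Finset.sum_congr rfl fun x _ => ?_
    split_ifs <;> ring
  have hinv : Function.Involutive (fun x : V → Bool => Function.update x v (!x v)) := by
    intro x
    funext u
    by_cases hu : u = v
    · subst hu; simp
    · simp [Function.update_of_ne hu]
  have hswap : A * (1 - pr v) = A' * pr v := by
    rw [hA, hA', Finset.sum_mul, Finset.sum_mul,
      ← Equiv.sum_comp (Function.Involutive.toPerm _ hinv)]
    refine Finset.sum_congr rfl fun x _ => ?_
    have e1 : (Function.Involutive.toPerm _ hinv) x = Function.update x v (!x v) := rfl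
    rw [e1, prodW_split pr v x, prodW_split pr v (Function.update x v (!x v))]
    have e2 := hRu x (!x v)
    simp only [hR] at e2
    rw [e2, hg, Function.update_self]
    cases x v <;> simp <;> ring
  rw [hsum]
  linear_combination hswap

end prodw

/-! ### uniformity of `dec` -/

theorem sum_dec (s L : ℕ) (h : s ≤ L) (Q : B s → ℝ) :
    ∑ r : B L, Q (dec s r) = 2 ^ (L - s) * ∑ j, Q j := by
  obtain ⟨t, rfl⟩ := Nat.exists_eq_add_of_le h
  rw [← (Fin.appendEquiv s t (α := Bool)).sum_comp, Fintype.sum_prod_type, Finset.mul_sum]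
  refine Finset.sum_congr rfl fun a _ => ?_
  have h1 : ∀ b : Fin t → Bool, dec s (Fin.appendEquiv s t (a, b)) = a := by
    intro b
    funext i
    unfold dec
    rw [dif_pos (lt_of_lt_of_le i.2 (Nat.le_add_right s t))]
    exact Fin.append_left a b i
  simp_rw [h1]
  simp

end B2

open B2

theorem adv0 : Adv0 := by
  intro k s L e R CM _ p T hsL hp0 hp1 hT hd
  set pr := prX k s L e CM p with hpr
  have hpr0 : ∀ v, 0 ≤ pr v := by
    intro v
    rcases v with v | v | v
    · show (0:ℝ) ≤ 1 / 2
      norm_num
    · exact hp0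
    · exact le_refl (0:ℝ)
  have hpr1 : ∀ v, pr v ≤ 1 := by
    intro v
    rcases v with v | v | v
    · show (1 / 2 : ℝ) ≤ 1
      norm_num
    · exact hp1
    · exact zero_le_one (α := ℝ)
  let m : B s → B s → VX k s L e CM := fun j a => Sum.inr (Sum.inl (j, a))
  have hprm : ∀ j a, pr (m j a) = p := fun j a => rfl
  -- pointwise
  have hpt : ∀ (j : B s) (X : VX k s L e CM → Bool), |T.eval (eraseM j X) - T.eval X| ≤
      ∑ a, if X (m j a) = true then (if m j a ∈ T.reads X then (1:ℝ) else 0) else 0 := by
    intro j X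
    by_cases h : ∃ a, m j a ∈ T.reads X ∧ X (m j a) = true
    · obtain ⟨a, ha1, ha2⟩ := h
      have h1 : |T.eval (eraseM j X) - T.eval X| ≤ 1 := by
        have a1 := hT (eraseM j X)
        have a2 := hT X
        rw [abs_le]
        constructor <;> linarith [a1.1, a1.2, a2.1, a2.2]
      refine h1.trans ?_
      have h2 : (1:ℝ) = if X (m j a) = true then (if m j a ∈ T.reads X then (1:ℝ) else 0) else 0 := by
        rw [if_pos ha2, if_pos ha1]
      refine h2.le.trans ?_
      refine Finset.single_le_sum (f := fun a =>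
        if X (m j a) = true then (if m j a ∈ T.reads X then (1:ℝ) else 0) else 0)
        (fun a _ => ?_) (Finset.mem_univ a)
      beta_reduce
      split_ifs <;> norm_num
    · have h1 : T.eval (eraseM j X) = T.eval X := by
        refine eval_congr X (eraseM j X) T fun v hv => ?_
        rcases v with v | ⟨j', a⟩ | v
        · rfl
        · show X (Sum.inr (Sum.inl (j', a))) =
            if j' = j then false else X (Sum.inr (Sum.inl (j', a)))
          split_ifs with hj
          · subst hj
            by_contra hc
            exact h ⟨a, hv, by simpa using hc⟩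
          · rfl
        · rfl
      rw [h1, sub_self, abs_zero]
      refine Finset.sum_nonneg fun a _ => ?_
      split_ifs <;> norm_num
  -- expectation
  let Q : B s → ℝ := fun j => ∑ a, ∑ X, prodW pr X * (if m j a ∈ T.reads X then (1:ℝ) else 0)
  have hE : ∀ j : B s, ∑ X, prodW pr X * |T.eval (eraseM j X) - T.eval X| ≤ p * Q j := by
    intro j
    calc ∑ X, prodW pr X * |T.eval (eraseM j X) - T.eval X|
        ≤ ∑ X, prodW pr X * ∑ a, (if X (m j a) = true then
            (if m j a ∈ T.reads X then (1:ℝ) else 0) else 0) :=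
          Finset.sum_le_sum fun X _ =>
            mul_le_mul_of_nonneg_left (hpt j X) (prodW_nonneg pr hpr0 hpr1 X)
      _ = ∑ a, ∑ X, prodW pr X * (if X (m j a) = true then
            (if m j a ∈ T.reads X then (1:ℝ) else 0) else 0) := by
          simp_rw [Finset.mul_sum]
          exact Finset.sum_comm
      _ = ∑ a, p * ∑ X, prodW pr X * (if m j a ∈ T.reads X then (1:ℝ) else 0) := by
          refine Finset.sum_congr rfl fun a _ => ?_
          rw [sum_update pr (m j a) (fun X => if m j a ∈ T.reads X then (1:ℝ) else 0), hprm]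
          intro X b
          simp only [mem_reads_update]
      _ = p * Q j := by rw [← Finset.mul_sum]
  have hQ : ∑ j, Q j ≤ R := by
    have e1 : ∑ j, Q j = ∑ X, ∑ j, ∑ a, prodW pr X *
        (if m j a ∈ T.reads X then (1:ℝ) else 0) := by
      simp only [Q]
      calc ∑ j, ∑ a, ∑ X, prodW pr X * (if m j a ∈ T.reads X then (1:ℝ) else 0)
          = ∑ j, ∑ X, ∑ a, prodW pr X * (if m j a ∈ T.reads X then (1:ℝ) else 0) :=
            Finset.sum_congr rfl fun j _ => Finset.sum_comm
        _ = _ := Finset.sum_comm
    have e2 : ∀ X : VX k s L e CM → Bool, ∑ j, ∑ a, prodW pr X *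
        (if m j a ∈ T.reads X then (1:ℝ) else 0) ≤ prodW pr X * R := by
      intro X
      simp_rw [← Finset.mul_sum]
      refine mul_le_mul_of_nonneg_left ?_ (prodW_nonneg pr hpr0 hpr1 X)
      rw [← Fintype.sum_prod_type' (f := fun j a => if m j a ∈ T.reads X then (1:ℝ) else 0),
        Finset.sum_boole]
      have e3 : (univ.filter fun ja : B s × B s => m ja.1 ja.2 ∈ T.reads X).card ≤
          (T.reads X).card := by
        refine Finset.card_le_card_of_injOn (fun ja => m ja.1 ja.2) (fun ja hja => ?_) ?_
        · exact (Finset.mem_filter.1 hja).2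
        · intro a _ b _ hab
          have h1 : (Sum.inr (Sum.inl (a.1, a.2)) : VX k s L e CM) =
            Sum.inr (Sum.inl (b.1, b.2)) := hab
          exact Sum.inl.inj (Sum.inr.inj h1)
      exact_mod_cast e3.trans ((card_reads_le X T).trans hd)
    rw [e1]
    refine (Finset.sum_le_sum fun X _ => e2 X).trans ?_
    rw [← Finset.sum_mul, sum_prodW, one_mul]
  -- assembly
  have h2L : (0:ℝ) < 2 ^ L := by positivity
  have e1 : ∑ rX : B L × (VX k s L e CM → Bool),
        (1 / 2 ^ L : ℝ) * prodW pr rX.2 * T.eval (eraseM (dec s rX.1) rX.2)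
      - ∑ X, prodW pr X * T.eval X =
      ∑ r : B L, (1 / 2 ^ L : ℝ) * ∑ X, prodW pr X * (T.eval (eraseM (dec s r) X) - T.eval X) := by
    rw [Fintype.sum_prod_type]
    have : ∑ X, prodW pr X * T.eval X = ∑ r : B L, (1 / 2 ^ L : ℝ) * ∑ X, prodW pr X * T.eval X := by
      rw [Finset.sum_const, Finset.card_univ]
      simp
    rw [this, ← Finset.sum_sub_distrib]
    refine Finset.sum_congr rfl fun r _ => ?_
    rw [Finset.mul_sum, Finset.mul_sum, ← Finset.sum_sub_distrib]
    exact Finset.sum_congr rfl fun X _ => by ring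
  have e2 : ∀ r : B L, |(1 / 2 ^ L : ℝ) * ∑ X, prodW pr X *
      (T.eval (eraseM (dec s r) X) - T.eval X)| ≤ 1 / 2 ^ L * (p * Q (dec s r)) := by
    intro r
    rw [abs_mul, abs_of_nonneg (by positivity : (0:ℝ) ≤ 1 / 2 ^ L)]
    refine mul_le_mul_of_nonneg_left ?_ (by positivity)
    refine ((Finset.abs_sum_le_sum_abs _ _).trans (le_of_eq ?_)).trans (hE (dec s r))
    refine Finset.sum_congr rfl fun X _ => ?_
    rw [abs_mul, abs_of_nonneg (prodW_nonneg pr hpr0 hpr1 X)]
  rw [e1]
  refine (Finset.abs_sum_le_sum_abs _ _).trans ((Finset.sum_le_sum fun r _ => e2 r).trans ?_)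
  rw [← Finset.mul_sum, ← Finset.mul_sum, sum_dec s L hsL Q]
  have e3 : (2:ℝ) ^ L = 2 ^ (L - s) * 2 ^ s := by
    rw [← pow_add, Nat.sub_add_cancel hsL]
  have h2s : (0:ℝ) < 2 ^ s := by positivity
  have h2t : (0:ℝ) < 2 ^ (L - s) := by positivity
  have e4 : 1 / 2 ^ L * (p * (2 ^ (L - s) * ∑ j, Q j)) = p * (∑ j, Q j) / 2 ^ s := by
    rw [e3]
    field_simp
  rw [e4, mul_comm (R:ℝ) p]
  exact div_le_div_of_nonneg_right (mul_le_mul_of_nonneg_left hQ hp0) h2s.le

end Crest.Agent.R350
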