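import Crest.Agent.R350.B1

set_option autoImplicit false

open Finset Classical

namespace Crest.Agent.R350

namespace ADV

open CSRaux

/-! ### resampling and the hybrid argument over a general index type -/

section resample
variable {ι Y : Type} [Fintype ι] [DecidableEq ι] [Fintype Y]

theorem sum_pi_prod' {ι : Type} [Fintype ι] [DecidableEq ι] {Ω : ι → Type} [∀ i, Fintype (Ω i)]
    (f : ∀ i, Ω i → ℝ) :
    ∑ ω : (∀ i, Ω i), ∏ i, f i (ω i) = ∏ i, ∑ ω, f i ω := by
  rw [Finset.prod_univ_sum]
  rw [Fintype.piFinset_univ]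

theorem resample (κ : ι → Y → ℝ) (hκ : ∀ i, ∑ y, κ i y = 1) (i₀ : ι) (m : Y → ℝ)
    (G : (ι → Y) → ℝ) :
    ∑ X : ι → Y, (∏ i, κ i (X i)) * ∑ y, m y * G (Function.update X i₀ y) =
      ∑ X : ι → Y, (∏ i, (Function.update κ i₀ m) i (X i)) * G X := by
  set P : (ι → Y) → ℝ := fun X => ∏ i ∈ univ.erase i₀, κ i (X i) with hP
  have h1 : ∀ X : ι → Y, (∏ i, κ i (X i)) = κ i₀ (X i₀) * P X := by
    intro X
    rw [hP, ← Finset.mul_prod_erase univ (fun i => κ i (X i)) (Finset.mem_univ i₀)]
  have h2 : ∀ X : ι → Y, (∏ i, (Function.update κ i₀ m) i (X i)) = m (X i₀) * P X := by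
    intro X
    rw [← Finset.mul_prod_erase univ (fun i => (Function.update κ i₀ m) i (X i))
      (Finset.mem_univ i₀)]
    rw [Function.update_self]
    congr 1
    refine Finset.prod_congr rfl fun i hi => ?_
    rw [Function.update_of_ne (Finset.ne_of_mem_erase hi)]
  have h3 : ∀ (X : ι → Y) (y : Y), P (Function.update X i₀ y) = P X := by
    intro X y
    refine Finset.prod_congr rfl fun i hi => ?_
    rw [Function.update_of_ne (Finset.ne_of_mem_erase hi)]
  let sw : (ι → Y) × Y → (ι → Y) × Y := fun q => (Function.update q.1 i₀ q.2, q.1 i₀)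
  have hsw : Function.Involutive sw := by
    rintro ⟨X, y⟩
    simp [sw]
  calc ∑ X : ι → Y, (∏ i, κ i (X i)) * ∑ y, m y * G (Function.update X i₀ y)
      = ∑ X : ι → Y, ∑ y, κ i₀ (X i₀) * P X * (m y * G (Function.update X i₀ y)) := by
        refine Finset.sum_congr rfl fun X _ => ?_
        rw [h1, Finset.mul_sum]
    _ = ∑ q : (ι → Y) × Y, κ i₀ (q.1 i₀) * P q.1 * (m q.2 * G (Function.update q.1 i₀ q.2)) := by
        rw [Fintype.sum_prod_type]
    _ = ∑ q : (ι → Y) × Y, κ i₀ q.2 * (m (q.1 i₀) * P q.1 * G q.1) := by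
        rw [← Equiv.sum_comp (Function.Involutive.toPerm sw hsw)]
        refine Finset.sum_congr rfl fun q _ => ?_
        simp only [Function.Involutive.coe_toPerm, sw, Function.update_self, h3,
          Function.update_idem, Function.update_eq_self]
        ring
    _ = ∑ X : ι → Y, (∏ i, (Function.update κ i₀ m) i (X i)) * G X := by
        rw [Fintype.sum_prod_type]
        refine Finset.sum_congr rfl fun X _ => ?_
        show ∑ y, κ i₀ y * (m (X i₀) * P X * G X) = _
        rw [h2, ← Finset.sum_mul, hκ, one_mul]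

theorem hybrid' (δ : ℝ) (μ ν : ι → Y → ℝ)
    (hμ : ∀ i y, 0 ≤ μ i y) (hμ1 : ∀ i, ∑ y, μ i y = 1) (hν : ∀ i y, 0 ≤ ν i y)
    (hν1 : ∀ i, ∑ y, ν i y = 1) (G : (ι → Y) → ℝ) (S : Finset ι)
    (h : ∀ i ∈ S, ∀ X : ι → Y,
      |∑ y, μ i y * G (Function.update X i y) - ∑ y, ν i y * G (Function.update X i y)| ≤ δ) :
    |∑ X, (∏ i, (if i ∈ S then μ i else ν i) (X i)) * G X - ∑ X, (∏ i, ν i (X i)) * G X|
      ≤ S.card * δ := by
  induction S using Finset.induction_on with
  | empty => simp
  | insert i₀ S hi₀ ih =>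
    have ih' := ih (fun i hi => h i (Finset.mem_insert_of_mem hi))
    set κ : ι → Y → ℝ := fun i => if i ∈ S then μ i else ν i with hκ
    have hκ0 : ∀ i y, 0 ≤ κ i y := by
      intro i y
      simp only [hκ]
      split_ifs
      · exact hμ i y
      · exact hν i y
    have hκ1 : ∀ i, ∑ y, κ i y = 1 := by
      intro i
      simp only [hκ]
      split_ifs
      · exact hμ1 i
      · exact hν1 i
    have e1 : (fun i => if i ∈ insert i₀ S then μ i else ν i) = Function.update κ i₀ (μ i₀) := by
      funext i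
      by_cases hi : i = i₀
      · subst hi; simp
      · rw [Function.update_of_ne hi]
        simp [hκ, hi]
    have e2 : κ = Function.update κ i₀ (ν i₀) := by
      have : κ i₀ = ν i₀ := by simp [hκ, hi₀]
      rw [← this, Function.update_eq_self]
    have r1 := resample κ hκ1 i₀ (μ i₀) G
    have r2 := resample κ hκ1 i₀ (ν i₀) G
    rw [← e2] at r2
    have hstep : |∑ X, (∏ i, (if i ∈ insert i₀ S then μ i else ν i) (X i)) * G X -
        ∑ X, (∏ i, κ i (X i)) * G X| ≤ δ := by
      have e3 : ∑ X, (∏ i, (if i ∈ insert i₀ S then μ i else ν i) (X i)) * G X =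
          ∑ X, (∏ i, (Function.update κ i₀ (μ i₀)) i (X i)) * G X := by
        rw [← e1]
      rw [e3, ← r1, ← r2, ← Finset.sum_sub_distrib]
      refine le_trans (Finset.abs_sum_le_sum_abs _ _) ?_
      have : ∀ X : ι → Y, |(∏ i, κ i (X i)) * ∑ y, μ i₀ y * G (Function.update X i₀ y) -
          (∏ i, κ i (X i)) * ∑ y, ν i₀ y * G (Function.update X i₀ y)| ≤
          (∏ i, κ i (X i)) * δ := by
        intro X
        have hnn : 0 ≤ ∏ i, κ i (X i) := Finset.prod_nonneg fun i _ => hκ0 _ _
        rw [← mul_sub, abs_mul, abs_of_nonneg hnn]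
        exact mul_le_mul_of_nonneg_left (h i₀ (Finset.mem_insert_self _ _) X) hnn
      refine le_trans (Finset.sum_le_sum fun X _ => this X) ?_
      rw [← Finset.sum_mul, sum_pi_prod' (fun i y => κ i y)]
      simp [hκ1]
    rw [Finset.card_insert_of_notMem hi₀]
    calc |∑ X, (∏ i, (if i ∈ insert i₀ S then μ i else ν i) (X i)) * G X -
          ∑ X, (∏ i, ν i (X i)) * G X|
        ≤ |∑ X, (∏ i, (if i ∈ insert i₀ S then μ i else ν i) (X i)) * G X -
          ∑ X, (∏ i, κ i (X i)) * G X| +
          |∑ X, (∏ i, κ i (X i)) * G X - ∑ X, (∏ i, ν i (X i)) * G X| := abs_sub_le _ _ _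
      _ ≤ δ + S.card * δ := add_le_add hstep ih'
      _ = ((S.card + 1 : ℕ) : ℝ) * δ := by push_cast; ring

end resample

/-! ### truncation of trees -/

section trunc
variable {V V' α : Type}

/-- stop (with `none`) when the `(n+1)`-st variable of `S` would be read -/
noncomputable def tr (S : V → Prop) : ℕ → Tree V α → Tree V (Option α)
  | _, Tree.leaf a => Tree.leaf (some a)
  | 0, Tree.node v t₀ t₁ => if S v then Tree.leaf none else Tree.node v (tr S 0 t₀) (tr S 0 t₁)
  | n + 1, Tree.node v t₀ t₁ =>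
      if S v then Tree.node v (tr S n t₀) (tr S n t₁)
      else Tree.node v (tr S (n + 1) t₀) (tr S (n + 1) t₁)

/-- maximal number of `S`-nodes on a path -/
noncomputable def mx (S : V → Prop) : Tree V α → ℕ
  | Tree.leaf _ => 0
  | Tree.node v t₀ t₁ => (if S v then 1 else 0) + max (mx S t₀) (mx S t₁)

theorem mx_tr (S : V → Prop) (t : Tree V α) : ∀ n : ℕ, mx S (tr S n t) ≤ n := by
  induction t with
  | leaf a => intro n; cases n <;> simp [tr, mx]
  | node v t₀ t₁ h₀ h₁ =>
    intro n
    cases n with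
    | zero =>
      by_cases hS : S v
      · simp [tr, hS, mx]
      · have := h₀ 0; have := h₁ 0
        simp only [tr, hS, if_false, mx]
        omega
    | succ n =>
      by_cases hS : S v
      · have := h₀ n; have := h₁ n
        simp only [tr, hS, if_true, mx]
        omega
      · have := h₀ (n + 1); have := h₁ (n + 1)
        simp only [tr, hS, if_false, mx]
        omega

theorem eval_tr (S : V → Prop) (x : V → Bool) (t : Tree V α) :
    ∀ n : ℕ, (tr S n t).eval x = if t.cnt S x ≤ n then some (t.eval x) else none := by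
  induction t with
  | leaf a => intro n; cases n <;> simp [tr, Tree.eval, Tree.cnt]
  | node v t₀ t₁ h₀ h₁ =>
    intro n
    cases n with
    | zero =>
      by_cases hS : S v
      · simp [tr, hS, Tree.eval, Tree.cnt]
      · simp only [tr, hS, if_false, Tree.eval, Tree.cnt, h₀, h₁, zero_add]
        by_cases hx : x v = true
        · simp [hx]
        · simp [hx]
    | succ n =>
      by_cases hS : S v
      · simp only [tr, hS, if_true, Tree.eval, Tree.cnt, h₀, h₁]
        by_cases hx : x v = true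
        · simp only [hx, if_true]
          have : (1 + t₁.cnt S x ≤ n + 1) ↔ (t₁.cnt S x ≤ n) := by omega
          simp only [this]
        · simp only [hx]
          have : (1 + t₀.cnt S x ≤ n + 1) ↔ (t₀.cnt S x ≤ n) := by omega
          simp only [Bool.false_eq_true, if_false, this]
      · simp only [tr, hS, if_false, Tree.eval, Tree.cnt, h₀, h₁, zero_add]
        by_cases hx : x v = true
        · simp [hx]
        · simp [hx]

theorem mx_map {β : Type} (S : V → Prop) (f : α → β) (t : Tree V α) : mx S (t.map f) = mx S t := by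
  induction t with
  | leaf a => rfl
  | node v t₀ t₁ h₀ h₁ => simp [Tree.map, mx, h₀, h₁]

theorem depth_fix_mx (S : V → Prop) (f : V → V' ⊕ Bool) (hf : ∀ v u, f v = Sum.inl u → S v)
    (t : Tree V α) : (t.fix f).depth ≤ mx S t := by
  induction t with
  | leaf a => exact le_refl _
  | node v t₀ t₁ h₀ h₁ =>
    simp only [Tree.fix, mx]
    split
    · rename_i u hu
      have hS := hf v u hu
      simp only [Tree.depth, hS, if_true]
      have := max_le_max h₀ h₁
      omega
    · rename_i b hb
      cases b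
      · simp only [Bool.false_eq_true, if_false]
        have := le_max_left (mx S t₀) (mx S t₁)
        omega
      · simp only [if_true]
        have := le_max_right (mx S t₀) (mx S t₁)
        omega

theorem sum_cnt_le {κ : Type} [Fintype κ] (S : κ → V → Prop)
    (hdis : ∀ v i j, S i v → S j v → i = j) (t : Tree V α) (x : V → Bool) :
    ∑ i, t.cnt (S i) x ≤ t.depth := by
  induction t with
  | leaf a => simp [Tree.cnt, Tree.depth]
  | node v t₀ t₁ h₀ h₁ =>
    simp only [Tree.cnt, Tree.depth, Finset.sum_add_distrib]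
    have hone : ∑ i, (if S i v then 1 else 0) ≤ 1 := by
      by_cases hex : ∃ i, S i v
      · obtain ⟨i₀, hi₀⟩ := hex
        have : ∀ i, (if S i v then 1 else 0) = if i = i₀ then 1 else 0 := by
          intro i
          by_cases h : i = i₀
          · subst h; simp [hi₀]
          · have : ¬ S i v := fun h' => h (hdis v i i₀ h' hi₀)
            simp [h, this]
        simp only [this]
        simp
      · push Not at hex
        simp [hex]
    have hrest : ∑ i, (if x v = true then t₁.cnt (S i) x else t₀.cnt (S i) x) ≤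
        max t₀.depth t₁.depth := by
      by_cases hx : x v = true
      · simp only [hx, if_true]
        exact le_trans h₁ (le_max_right _ _)
      · simp only [hx]
        exact le_trans h₀ (le_max_left _ _)
    have := add_le_add hone hrest
    refine le_trans this ?_
    omega

end trunc

/-! ### decomposition of the inputs -/

section mk
variable {k s L e : ℕ} {CM : Type}

/-- instances -/
abbrev Ins (s L e : ℕ) := B s × (Fin L × B e)
/-- the remaining variables -/
abbrev Rest (s L : ℕ) (CM : Type) := (B s × B s) ⊕ (B L × Mem s CM)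

/-- assemble -/
def mk (q : (Ins s L e → FV k s → Bool) × (Rest s L CM → Bool)) : VX k s L e CM → Bool :=
  Sum.elim (fun bz => q.1 (bz.1, bz.2.1) bz.2.2) q.2

/-- `mk` is an equivalence -/
def mkE : ((Ins s L e → FV k s → Bool) × (Rest s L CM → Bool)) ≃ (VX k s L e CM → Bool) where
  toFun := mk
  invFun X := (fun q v => X (Sum.inl (q.1, (q.2, v))), fun m => X (Sum.inr m))
  left_inv := by rintro ⟨Z, M⟩; rfl
  right_inv := by
    intro X
    funext v
    rcases v with v | v <;> rfl

/-- weight of the rest -/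
noncomputable def restW [Fintype CM] (p : ℝ) (M : Rest s L CM → Bool) : ℝ :=
  (∏ ja : B s × B s, if M (Sum.inl ja) then p else 1 - p) *
    (∏ m : B L × Mem s CM, if M (Sum.inr m) then 0 else 1)

theorem restW_nonneg [Fintype CM] (p : ℝ) (hp0 : 0 ≤ p) (hp1 : p ≤ 1) (M : Rest s L CM → Bool) :
    0 ≤ restW p M := by
  unfold restW
  refine mul_nonneg (Finset.prod_nonneg fun ja _ => ?_) (Finset.prod_nonneg fun m _ => ?_)
  · split_ifs <;> linarith
  · split_ifs <;> norm_num

theorem restW_sum [Fintype CM] (p : ℝ) : ∑ M : Rest s L CM → Bool, restW p M = 1 := by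
  have h : ∀ M : Rest s L CM → Bool, restW p M =
      ∏ v : Rest s L CM, (Sum.elim (fun _ b => if b then p else 1 - p)
        (fun _ b => if b then (0 : ℝ) else 1) v : Bool → ℝ) (M v) := by
    intro M
    rw [Fintype.prod_sum_type]
    rfl
  simp only [h]
  rw [sum_pi_prod' (fun (v : Rest s L CM) (b : Bool) => (Sum.elim (fun _ b => if b then p else 1 - p)
        (fun _ b => if b then (0 : ℝ) else 1) v : Bool → ℝ) b)]
  refine Finset.prod_eq_one fun v _ => ?_
  rcases v with v | v <;> simp

/-- the planted instances -/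
noncomputable def PS (b : B s) (r : B L) : Finset (Ins s L e) :=
  univ.filter (fun q => q.1 = b ∧ r q.2.1 = true)

theorem card_PS (b : B s) (r : B L) : ((PS b r : Finset (Ins s L e)).card : ℝ) ≤ L * 2 ^ e := by
  have h : (PS b r : Finset (Ins s L e)).card ≤ (univ : Finset (Fin L × B e)).card := by
    refine Finset.card_le_card_of_injOn (fun q => q.2) (fun q _ => Finset.mem_univ _) ?_
    intro q hq q' hq' hqq
    have h1 := (Finset.mem_filter.mp hq).2.1
    have h2 := (Finset.mem_filter.mp hq').2.1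
    exact Prod.ext (h1.trans h2.symm) hqq
  have h2 : ((univ : Finset (Fin L × B e)).card : ℝ) = L * 2 ^ e := by
    rw [Finset.card_univ, Fintype.card_prod]
    simp
  rw [← h2]
  exact_mod_cast h

/-- uniform weight -/
noncomputable def un (k s : ℕ) (_ : FV k s → Bool) : ℝ := 1 / 2 ^ (Fintype.card (FV k s))

theorem un_nonneg (y : FV k s → Bool) : 0 ≤ un k s y := by unfold un; positivity

theorem un_sum : ∑ y : FV k s → Bool, un k s y = 1 := by
  unfold un
  rw [Finset.sum_const, Finset.card_univ, nsmul_eq_mul, Fintype.card_fun]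
  simp only [Fintype.card_bool]
  push_cast
  field_simp

theorem plW_mk [Fintype CM] (μ : (FV k s → Bool) → ℝ) (p : ℝ) (b : B s) (r : B L)
    (Z : Ins s L e → FV k s → Bool) (M : Rest s L CM → Bool) :
    plW μ p b r (mk (Z, M)) =
      (∏ q, (if q ∈ PS b r then μ else un k s) (Z q)) * restW p M := by
  unfold plW restW
  rw [mul_assoc]
  congr 1
  rw [Fintype.prod_prod_type]
  refine Finset.prod_congr rfl fun j _ => Finset.prod_congr rfl fun i _ => ?_
  by_cases h : j = b ∧ r i.1 = true
  · have h' : (j, i) ∈ (PS b r : Finset (Ins s L e)) := by simp [PS, h.1, h.2]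
    rw [if_pos h, if_pos h']
    rfl
  · have h' : (j, i) ∉ (PS b r : Finset (Ins s L e)) := by
      intro hh
      exact h (Finset.mem_filter.mp hh).2
    rw [if_neg h, if_neg h']
    rfl

theorem prodW_mk [Fintype CM] (p : ℝ)
    (Z : Ins s L e → FV k s → Bool) (M : Rest s L CM → Bool) :
    prodW (prX k s L e CM p) (mk (Z, M)) = (∏ q, un k s (Z q)) * restW p M := by
  unfold prodW restW
  rw [Fintype.prod_sum_type, Fintype.prod_sum_type]
  congr 1
  · rw [Fintype.prod_prod_type, Fintype.prod_prod_type]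
    refine Finset.prod_congr rfl fun j _ => ?_
    rw [Fintype.prod_prod_type]
    refine Finset.prod_congr rfl fun i _ => ?_
    have : ∀ v : FV k s, (if mk (Z, M) (Sum.inl (j, (i, v))) = true then
        prX k s L e CM p (Sum.inl (j, (i, v))) else 1 - prX k s L e CM p (Sum.inl (j, (i, v))))
        = 1 / 2 := by
      intro v
      simp only [prX]
      split_ifs <;> norm_num
    rw [Finset.prod_congr rfl (fun v _ => this v)]
    unfold un
    simp
  · congr 1
    refine Finset.prod_congr rfl fun m _ => ?_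
    show (if M (Sum.inr m) = true then (0 : ℝ) else 1 - 0) = _
    rw [sub_zero]

theorem plW_nonneg [Fintype CM] (μ : (FV k s → Bool) → ℝ) (hμ : ∀ z, 0 ≤ μ z) (p : ℝ)
    (hp0 : 0 ≤ p) (hp1 : p ≤ 1) (b : B s) (r : B L)
    (X : VX k s L e CM → Bool) : 0 ≤ plW μ p b r X := by
  unfold plW
  refine mul_nonneg (mul_nonneg (Finset.prod_nonneg fun j _ => Finset.prod_nonneg fun i _ => ?_)
    (Finset.prod_nonneg fun ja _ => ?_)) (Finset.prod_nonneg fun m _ => ?_)
  · split_ifs
    · exact hμ _
    · positivity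
  · split_ifs <;> linarith
  · split_ifs <;> norm_num

theorem prodW_nonneg [Fintype CM] (p : ℝ)
    (hp0 : 0 ≤ p) (hp1 : p ≤ 1)
    (X : VX k s L e CM → Bool) : 0 ≤ prodW (prX k s L e CM p) X := by
  unfold prodW
  refine Finset.prod_nonneg fun v _ => ?_
  rcases v with v | v | v
  · simp only [prX]; split_ifs <;> norm_num
  · simp only [prX]; split_ifs <;> linarith
  · simp only [prX]; split_ifs <;> norm_num

theorem sum_mk [Fintype CM] (f : (VX k s L e CM → Bool) → ℝ) :
    ∑ X, f X = ∑ M : Rest s L CM → Bool, ∑ Z : Ins s L e → FV k s → Bool, f (mk (Z, M)) := by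
  rw [← (mkE (k := k) (s := s) (L := L) (e := e) (CM := CM)).sum_comp, Fintype.sum_prod_type,
    Finset.sum_comm]
  rfl

theorem plW_sum [Fintype CM] (μ : (FV k s → Bool) → ℝ) (hμ1 : ∑ z, μ z = 1) (p : ℝ)
    (b : B s) (r : B L) :
    ∑ X : VX k s L e CM → Bool, plW μ p b r X = 1 := by
  rw [sum_mk]
  simp only [plW_mk]
  have : ∀ M : Rest s L CM → Bool, ∑ Z : Ins s L e → FV k s → Bool,
      (∏ q, (if q ∈ (PS b r : Finset (Ins s L e)) then μ else un k s) (Z q)) * restW p M =
      restW p M := by
    intro M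
    rw [← Finset.sum_mul,
      sum_pi_prod' (fun (q : Ins s L e) y => (if q ∈ (PS b r : Finset (Ins s L e)) then μ
        else un k s) y)]
    rw [Finset.prod_eq_one, one_mul]
    intro q _
    split_ifs
    · exact hμ1
    · exact un_sum
  simp only [this]
  exact restW_sum p

theorem prodW_sum [Fintype CM] (p : ℝ) :
    ∑ X : VX k s L e CM → Bool, prodW (prX k s L e CM p) X = 1 := by
  rw [sum_mk]
  simp only [prodW_mk]
  have : ∀ M : Rest s L CM → Bool, ∑ Z : Ins s L e → FV k s → Bool,
      (∏ q, un k s (Z q)) * restW p M = restW p M := by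
    intro M
    rw [← Finset.sum_mul, sum_pi_prod' (fun (q : Ins s L e) y => un k s y)]
    rw [Finset.prod_eq_one, one_mul]
    intro q _
    exact un_sum
  simp only [this]
  exact restW_sum p

/-- variables of block `b`. -/
def Blk (b : B s) : VX k s L e CM → Prop
  | Sum.inl bz => bz.1 = b
  | Sum.inr _ => False

/-- restriction of a tree to one instance -/
noncomputable def fq (Z : Ins s L e → FV k s → Bool) (M : Rest s L CM → Bool) (q : Ins s L e) :
    VX k s L e CM → FV k s ⊕ Bool :=
  Sum.elim (fun bz => if (bz.1, bz.2.1) = q then Sum.inl bz.2.2 else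
    Sum.inr (Z (bz.1, bz.2.1) bz.2.2)) (fun m => Sum.inr (M m))

theorem eval_fq (Z : Ins s L e → FV k s → Bool) (M : Rest s L CM → Bool) (q : Ins s L e)
    (G : Tree (VX k s L e CM) ℝ) (y : FV k s → Bool) :
    (G.fix (fq Z M q)).eval y = G.eval (mk (Function.update Z q y, M)) := by
  rw [eval_fix]
  congr 1
  funext v
  rcases v with ⟨b, i, v⟩ | v
  · by_cases h : (b, i) = q
    · subst h
      simp [fq, mk]
    · simp [fq, mk, h]
  · rfl

theorem fq_blk (Z : Ins s L e → FV k s → Bool) (M : Rest s L CM → Bool) (q : Ins s L e)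
    (v : VX k s L e CM) (u : FV k s) (h : fq Z M q v = Sum.inl u) : Blk q.1 v := by
  rcases v with ⟨b, i, v⟩ | v
  · by_cases h' : (b, i) = q
    · subst h'; rfl
    · simp [fq, h'] at h
  · simp [fq] at h

/-- few reads in block `b`: planting is not noticed. -/
theorem few [Fintype CM] (d₀ : ℕ) (p adv : ℝ) (μ : (FV k s → Bool) → ℝ) (b : B s)
    (r : B L) (hp0 : 0 ≤ p) (hp1 : p ≤ 1) (hμ : ∀ z, 0 ≤ μ z) (hμ1 : ∑ z, μ z = 1)
    (hadv0 : 0 ≤ adv)
    (hadv : ∀ T' : Tree (FV k s) ℝ, (∀ z, |T'.eval z| ≤ 1) → T'.depth ≤ d₀ →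
      |∑ z, μ z * T'.eval z - avg (fun z => T'.eval z)| ≤ adv)
    (G : Tree (VX k s L e CM) ℝ) (hG : ∀ X, |G.eval X| ≤ 1) (hmx : mx (Blk b) G ≤ d₀) :
    |∑ X, plW μ p b r X * G.eval X - ∑ X, prodW (prX k s L e CM p) X * G.eval X| ≤
      (L * 2 ^ e) * adv := by
  rw [sum_mk, sum_mk (f := fun X => prodW (prX k s L e CM p) X * G.eval X),
    ← Finset.sum_sub_distrib]
  have hM : ∀ M : Rest s L CM → Bool,
      |(∑ Z : Ins s L e → FV k s → Bool, plW μ p b r (mk (Z, M)) * G.eval (mk (Z, M))) -
        ∑ Z : Ins s L e → FV k s → Bool,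
          prodW (prX k s L e CM p) (mk (Z, M)) * G.eval (mk (Z, M))| ≤
        restW p M * ((L * 2 ^ e) * adv) := by
    intro M
    have h1 := hybrid' adv (fun _ : Ins s L e => μ) (fun _ => un k s) (fun _ => hμ) (fun _ => hμ1)
      (fun _ => un_nonneg) (fun _ => un_sum) (fun Z => G.eval (mk (Z, M))) (PS b r) (by
        intro q hq Z
        have h2 := hadv (G.fix (fq Z M q)) (fun y => by rw [eval_fq]; exact hG _)
          (le_trans (depth_fix_mx (Blk b) _ (fun v u hv => by
            have := fq_blk Z M q v u hv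
            have hqb : q.1 = b := (Finset.mem_filter.mp hq).2.1
            rwa [hqb] at this) G) hmx)
        simp only [eval_fq] at h2
        unfold avg at h2
        have e1 : ∑ y : FV k s → Bool, un k s y * G.eval (mk (Function.update Z q y, M)) =
            (∑ y : FV k s → Bool, G.eval (mk (Function.update Z q y, M))) /
              2 ^ (Fintype.card (FV k s)) := by
          unfold un
          rw [Finset.sum_div]
          exact Finset.sum_congr rfl fun y _ => by ring
        rw [e1]
        convert h2)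
    have e2 : (∑ Z : Ins s L e → FV k s → Bool, plW μ p b r (mk (Z, M)) * G.eval (mk (Z, M))) -
        ∑ Z : Ins s L e → FV k s → Bool,
          prodW (prX k s L e CM p) (mk (Z, M)) * G.eval (mk (Z, M)) =
        restW p M * (∑ Z : Ins s L e → FV k s → Bool,
          (∏ q, (if q ∈ (PS b r : Finset (Ins s L e)) then μ else un k s) (Z q)) *
            G.eval (mk (Z, M)) -
          ∑ Z : Ins s L e → FV k s → Bool, (∏ q, un k s (Z q)) * G.eval (mk (Z, M))) := by
      simp only [plW_mk, prodW_mk]
      rw [mul_sub, Finset.mul_sum, Finset.mul_sum]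
      congr 1 <;> exact Finset.sum_congr rfl fun y _ => by ring
    rw [e2, abs_mul, abs_of_nonneg (restW_nonneg p hp0 hp1 M)]
    refine mul_le_mul_of_nonneg_left (le_trans h1 ?_) (restW_nonneg p hp0 hp1 M)
    exact mul_le_mul_of_nonneg_right (card_PS b r) hadv0
  refine le_trans (Finset.abs_sum_le_sum_abs _ _) (le_trans (Finset.sum_le_sum fun M _ => hM M) ?_)
  rw [← Finset.sum_mul, restW_sum, one_mul]

end mk

end ADV

open ADV CSRaux

/-- B3a. -/
theorem advPl : AdvPl := by
  intro k s L e R d₀ CM _ p adv μ r T hp0 hp1 hμ hμ1 hd₀ hadv0 hadv hT hR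
  set En : (Tree (VX k s L e CM) ℝ) → ℝ := fun G => ∑ X, prodW (prX k s L e CM p) X * G.eval X
    with hEn
  have key : ∀ b : B s, |∑ X, plW μ p b r X * T.eval X -
      ∑ X, prodW (prX k s L e CM p) X * T.eval X| ≤
      2 * ((L * 2 ^ e) * adv) +
        2 * ∑ X, prodW (prX k s L e CM p) X * (if T.cnt (Blk b) X ≤ d₀ then (0 : ℝ) else 1) := by
    intro b
    set T' := (tr (Blk b) d₀ T).map (fun o => o.getD 0) with hT'
    set O := (tr (Blk b) d₀ T).map (fun o => if o = none then (1 : ℝ) else 0) with hO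
    have eT' : ∀ X, T'.eval X = if T.cnt (Blk b) X ≤ d₀ then T.eval X else 0 := by
      intro X
      rw [hT', Tree.eval_map, eval_tr]
      split_ifs <;> rfl
    have eO : ∀ X, O.eval X = if T.cnt (Blk b) X ≤ d₀ then 0 else 1 := by
      intro X
      rw [hO, Tree.eval_map, eval_tr]
      split_ifs <;> simp_all
    have mT' : mx (Blk b) T' ≤ d₀ := by rw [hT', mx_map]; exact mx_tr _ _ _
    have mO : mx (Blk b) O ≤ d₀ := by rw [hO, mx_map]; exact mx_tr _ _ _
    have f1 := few d₀ p adv μ b r hp0 hp1 hμ hμ1 hadv0 hadv T' (by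
      intro X
      rw [eT']
      split_ifs
      · exact hT X
      · simp) mT'
    have f2 := few d₀ p adv μ b r hp0 hp1 hμ hμ1 hadv0 hadv O (by
      intro X
      rw [eO]
      split_ifs <;> simp) mO
    have hdiff : ∀ X, |T.eval X - T'.eval X| ≤ O.eval X := by
      intro X
      rw [eT', eO]
      split_ifs
      · simp
      · simpa using hT X
    have g1 : |∑ X, plW μ p b r X * T.eval X - ∑ X, plW μ p b r X * T'.eval X| ≤
        ∑ X, plW μ p b r X * O.eval X := by
      rw [← Finset.sum_sub_distrib]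
      refine le_trans (Finset.abs_sum_le_sum_abs _ _) (Finset.sum_le_sum fun X _ => ?_)
      rw [← mul_sub, abs_mul, abs_of_nonneg (plW_nonneg μ hμ p hp0 hp1 b r X)]
      exact mul_le_mul_of_nonneg_left (hdiff X) (plW_nonneg μ hμ p hp0 hp1 b r X)
    have g2 : |∑ X, prodW (prX k s L e CM p) X * T'.eval X -
        ∑ X, prodW (prX k s L e CM p) X * T.eval X| ≤
        ∑ X, prodW (prX k s L e CM p) X * O.eval X := by
      rw [← Finset.sum_sub_distrib]
      refine le_trans (Finset.abs_sum_le_sum_abs _ _) (Finset.sum_le_sum fun X _ => ?_)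
      rw [← mul_sub, abs_mul, abs_of_nonneg (prodW_nonneg p hp0 hp1 X), abs_sub_comm]
      exact mul_le_mul_of_nonneg_left (hdiff X) (prodW_nonneg p hp0 hp1 X)
    have e3 : ∑ X, prodW (prX k s L e CM p) X * (if T.cnt (Blk b) X ≤ d₀ then (0 : ℝ) else 1) =
        ∑ X, prodW (prX k s L e CM p) X * O.eval X :=
      Finset.sum_congr rfl fun X _ => by rw [eO]
    rw [e3]
    have f2' := (abs_le.mp f2).2
    have t1 := abs_sub_le (∑ X, plW μ p b r X * T.eval X) (∑ X, plW μ p b r X * T'.eval X)
      (∑ X, prodW (prX k s L e CM p) X * T.eval X)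
    have t2 := abs_sub_le (∑ X, plW μ p b r X * T'.eval X)
      (∑ X, prodW (prX k s L e CM p) X * T'.eval X)
      (∑ X, prodW (prX k s L e CM p) X * T.eval X)
    linarith
  have hsum := Finset.sum_le_sum fun b (_ : b ∈ (univ : Finset (B s))) => key b
  rw [Finset.sum_add_distrib] at hsum
  have hd0 : (0 : ℝ) < d₀ := by exact_mod_cast hd₀
  have hover : ∑ b : B s, 2 * ∑ X, prodW (prX k s L e CM p) X *
      (if T.cnt (Blk b) X ≤ d₀ then (0 : ℝ) else 1) ≤ 2 * (R / d₀) := by
    rw [← Finset.mul_sum, Finset.sum_comm]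
    refine mul_le_mul_of_nonneg_left ?_ (by norm_num)
    have hX : ∀ X : VX k s L e CM → Bool, ∑ b : B s, prodW (prX k s L e CM p) X *
      (if T.cnt (Blk b) X ≤ d₀ then (0 : ℝ) else 1) ≤ prodW (prX k s L e CM p) X * (R / d₀) := by
      intro X
      rw [← Finset.mul_sum]
      refine mul_le_mul_of_nonneg_left ?_ (prodW_nonneg p hp0 hp1 X)
      rw [le_div_iff₀ hd0, Finset.sum_mul]
      have h1 : ∀ b : B s, (if T.cnt (Blk b) X ≤ d₀ then (0 : ℝ) else 1) * d₀ ≤
          (T.cnt (Blk b) X : ℝ) := by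
        intro b
        split_ifs with h
        · simp
        · rw [one_mul]
          push Not at h
          exact_mod_cast h.le
      refine le_trans (Finset.sum_le_sum fun b _ => h1 b) ?_
      have h2 := sum_cnt_le (fun b : B s => (Blk b : VX k s L e CM → Prop)) (by
        intro v i j hi hj
        rcases v with v | v
        · exact hi.symm.trans hj
        · exact hi.elim) T X
      have h3 := le_trans h2 hR
      exact_mod_cast h3
    refine le_trans (Finset.sum_le_sum fun X _ => hX X) ?_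
    rw [← Finset.sum_mul, prodW_sum, one_mul]
  have hconst : ∑ _b : B s, 2 * ((L * 2 ^ e : ℝ) * adv) = 2 ^ s * (2 * ((L * 2 ^ e) * adv)) := by
    rw [Finset.sum_const, Finset.card_univ, nsmul_eq_mul]
    simp
  rw [hconst] at hsum
  have h2s : (0 : ℝ) < 2 ^ s := by positivity
  rw [div_le_iff₀ h2s]
  refine le_trans hsum (le_trans (add_le_add (le_refl _) hover) ?_)
  have e5 : (4 * (L * 2 ^ e : ℝ) * adv + 4 * R / (2 ^ s * d₀)) * 2 ^ s =
      2 ^ s * (4 * ((L * 2 ^ e) * adv)) + 4 * (R / d₀) := by
    field_simp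
  rw [e5]
  have h6 : (0 : ℝ) ≤ (L * 2 ^ e : ℝ) * adv := by positivity
  have h7 : (0 : ℝ) ≤ (R : ℝ) / d₀ := by positivity
  have h8 : (2 : ℝ) ^ s * (2 * ((L * 2 ^ e) * adv)) ≤ 2 ^ s * (4 * ((L * 2 ^ e) * adv)) :=
    mul_le_mul_of_nonneg_left (by linarith) h2s.le
  linarith

/-- memory variables of root `r` -/
def ADV.Root {k s L e : ℕ} {CM : Type} (r : B L) : VX k s L e CM → Prop
  | Sum.inl _ => False
  | Sum.inr (Sum.inl _) => False
  | Sum.inr (Sum.inr m) => m.1 = r

/-- B3b. -/
theorem adv1 : Adv1 := by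
  intro k s L e R d₀ CM _ p adv μ Y T hp0 hp1 hμ hμ1 hd₀ hadv0 hadv hY hT hR
  set bd : ℝ := 4 * (L * 2 ^ e) * adv + 4 * R / (2 ^ s * d₀) with hbd
  have hTabs : ∀ X, |T.eval X| ≤ 1 := fun X => abs_le.mpr ⟨by linarith [(hT X).1], (hT X).2⟩
  have h2s : (0 : ℝ) < 2 ^ s := by positivity
  have h2L : (0 : ℝ) < 2 ^ L := by positivity
  have A1 : ∀ r : B L, (∑ b : B s, |∑ X, plW μ p b r X * T.eval X -
      ∑ X, prodW (prX k s L e CM p) X * T.eval X|) / 2 ^ s ≤ bd := fun r =>
    advPl k s L e R d₀ CM p adv μ r T hp0 hp1 hμ hμ1 hd₀ hadv0 hadv hTabs hR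
  have A2 : ∀ r : B L, (∑ b : B s, |∑ X, plW μ p b r X * (hitT (Root r) T).eval X -
      ∑ X, prodW (prX k s L e CM p) X * (hitT (Root r) T).eval X|) / 2 ^ s ≤ bd := fun r =>
    advPl k s L e R d₀ CM p adv μ r (hitT (Root r) T) hp0 hp1 hμ hμ1 hd₀ hadv0 hadv
      (fun X => abs_le.mpr ⟨by linarith [(hitT_range (Root r) T X).1],
        (hitT_range (Root r) T X).2⟩) (le_trans (hitT_depth _ _) hR)
  -- pointwise
  have hpt : ∀ (b : B s) (r : B L) (X : VX k s L e CM → Bool),
      |T.eval (Y b r X) - T.eval X| ≤ (hitT (Root r) T).eval X := by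
    intro b r X
    have hag : ∀ v, ¬ Root r v → X v = Y b r X v := by
      intro v hv
      obtain ⟨a1, a2, a3⟩ := hY b r X
      rcases v with v | v | v
      · exact a1 v
      · exact a2 v
      · exact a3 v.1 v.2 hv
    rcases hitT_agree (Root r) T X (Y b r X) hag with h | h
    · rw [h]
      have h1 := hT (Y b r X)
      have h2 := hT X
      exact abs_le.mpr ⟨by linarith, by linarith⟩
    · rw [h]
      simp only [sub_self, abs_zero]
      exact (hitT_range _ _ _).1
  set N : ℝ := ∑ X, prodW (prX k s L e CM p) X * T.eval X with hN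
  have hbr : ∀ (b : B s) (r : B L),
      |∑ X, plW μ p b r X * T.eval (Y b r X) - N| ≤
        |∑ X, plW μ p b r X * (hitT (Root r) T).eval X -
          ∑ X, prodW (prX k s L e CM p) X * (hitT (Root r) T).eval X| +
        ∑ X, prodW (prX k s L e CM p) X * (hitT (Root r) T).eval X +
        |∑ X, plW μ p b r X * T.eval X - N| := by
    intro b r
    have h1 : |∑ X, plW μ p b r X * T.eval (Y b r X) - ∑ X, plW μ p b r X * T.eval X| ≤
        ∑ X, plW μ p b r X * (hitT (Root r) T).eval X := by
      rw [← Finset.sum_sub_distrib]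
      refine le_trans (Finset.abs_sum_le_sum_abs _ _) (Finset.sum_le_sum fun X _ => ?_)
      rw [← mul_sub, abs_mul, abs_of_nonneg (plW_nonneg μ hμ p hp0 hp1 b r X)]
      exact mul_le_mul_of_nonneg_left (hpt b r X) (plW_nonneg μ hμ p hp0 hp1 b r X)
    have h2 := abs_sub_le (∑ X, plW μ p b r X * T.eval (Y b r X))
      (∑ X, plW μ p b r X * T.eval X) N
    have h3 := le_abs_self (∑ X, plW μ p b r X * (hitT (Root r) T).eval X -
          ∑ X, prodW (prX k s L e CM p) X * (hitT (Root r) T).eval X)
    linarith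
  -- the total
  have e1 : ∑ brX : B s × B L × (VX k s L e CM → Bool),
        (1 / 2 ^ s : ℝ) * (1 / 2 ^ L) * plW μ p brX.1 brX.2.1 brX.2.2 *
          T.eval (Y brX.1 brX.2.1 brX.2.2) - N =
      (∑ r : B L, ∑ b : B s, (∑ X, plW μ p b r X * T.eval (Y b r X) - N)) / (2 ^ s * 2 ^ L) := by
    rw [Fintype.sum_prod_type]
    simp only [Fintype.sum_prod_type]
    rw [Finset.sum_comm]
    simp only [Finset.sum_sub_distrib, Finset.sum_const, Finset.card_univ, nsmul_eq_mul]
    have hc1 : (Fintype.card (B s) : ℝ) = 2 ^ s := by simp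
    have hc2 : (Fintype.card (B L) : ℝ) = 2 ^ L := by simp
    rw [hc1, hc2, sub_div]
    congr 1
    · rw [Finset.sum_div]
      refine Finset.sum_congr rfl fun r _ => ?_
      rw [Finset.sum_div]
      refine Finset.sum_congr rfl fun b _ => ?_
      rw [Finset.sum_div]
      refine Finset.sum_congr rfl fun X _ => ?_
      field_simp
    · field_simp
  rw [e1, abs_div, abs_of_pos (by positivity : (0 : ℝ) < 2 ^ s * 2 ^ L),
    div_le_iff₀ (by positivity)]
  have h1 : |∑ r : B L, ∑ b : B s, (∑ X, plW μ p b r X * T.eval (Y b r X) - N)| ≤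
      ∑ r : B L, ∑ b : B s, (|∑ X, plW μ p b r X * (hitT (Root r) T).eval X -
          ∑ X, prodW (prX k s L e CM p) X * (hitT (Root r) T).eval X| +
        ∑ X, prodW (prX k s L e CM p) X * (hitT (Root r) T).eval X +
        |∑ X, plW μ p b r X * T.eval X - N|) := by
    refine le_trans (Finset.abs_sum_le_sum_abs _ _) (Finset.sum_le_sum fun r _ => ?_)
    refine le_trans (Finset.abs_sum_le_sum_abs _ _) (Finset.sum_le_sum fun b _ => ?_)
    exact hbr b r
  refine le_trans h1 ?_
  have h2 : ∀ r : B L, ∑ b : B s, (|∑ X, plW μ p b r X * (hitT (Root r) T).eval X -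
          ∑ X, prodW (prX k s L e CM p) X * (hitT (Root r) T).eval X| +
        ∑ X, prodW (prX k s L e CM p) X * (hitT (Root r) T).eval X +
        |∑ X, plW μ p b r X * T.eval X - N|) ≤
      2 ^ s * (2 * bd + ∑ X, prodW (prX k s L e CM p) X * (hitT (Root r) T).eval X) := by
    intro r
    rw [Finset.sum_add_distrib, Finset.sum_add_distrib]
    have a1 := A1 r
    have a2 := A2 r
    rw [div_le_iff₀ h2s] at a1 a2
    rw [Finset.sum_const, Finset.card_univ, nsmul_eq_mul]
    have hc1 : (Fintype.card (B s) : ℝ) = 2 ^ s := by simp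
    rw [hc1]
    linarith
  refine le_trans (Finset.sum_le_sum fun r _ => h2 r) ?_
  rw [← Finset.mul_sum, Finset.sum_add_distrib, Finset.sum_const, Finset.card_univ, nsmul_eq_mul]
  have hc2 : (Fintype.card (B L) : ℝ) = 2 ^ L := by simp
  rw [hc2]
  have h3 : ∑ r : B L, ∑ X, prodW (prX k s L e CM p) X * (hitT (Root r) T).eval X ≤ R := by
    rw [Finset.sum_comm]
    have hX : ∀ X : VX k s L e CM → Bool, ∑ r : B L, prodW (prX k s L e CM p) X *
        (hitT (Root r) T).eval X ≤ prodW (prX k s L e CM p) X * R := by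
      intro X
      rw [← Finset.mul_sum]
      refine mul_le_mul_of_nonneg_left ?_ (prodW_nonneg p hp0 hp1 X)
      refine le_trans (sum_hitT_le (fun r : B L => (Root r : VX k s L e CM → Prop)) ?_ T X) ?_
      · intro v i j hi hj
        rcases v with v | v | v
        · exact hi.elim
        · exact hi.elim
        · exact hi.symm.trans hj
      · exact_mod_cast hR
    refine le_trans (Finset.sum_le_sum fun X _ => hX X) ?_
    rw [← Finset.sum_mul, prodW_sum, one_mul]
  have e6 : ((R : ℝ) / 2 ^ L + 2 * bd) * (2 ^ s * 2 ^ L) = 2 ^ s * (2 ^ L * (2 * bd) + R) := by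
    field_simp
    ring
  rw [e6]
  exact mul_le_mul_of_nonneg_left (by linarith) h2s.le

end Crest.Agent.R350
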