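import Crest.Agent.R350.Defs

set_option autoImplicit false
open Finset Classical

namespace Crest.Agent.R350
namespace B4

variable {k s L e : ℕ} {CM : Type}

/-- splitting the variables -/
def eqv (k s L e : ℕ) (CM : Type) : (VX k s L e CM → Bool) ≃
    ((B s × (Fin L × B e)) → (FV k s → Bool)) × ((B s × B s → Bool) × (B L × Mem s CM → Bool)) where
  toFun X := (fun ji v => X (Sum.inl (ji.1, (ji.2, v))),
    (fun ja => X (Sum.inr (Sum.inl ja)), fun q => X (Sum.inr (Sum.inr q))))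
  invFun Y := fun v => match v with
    | Sum.inl (j, (i, v)) => Y.1 (j, i) v
    | Sum.inr (Sum.inl ja) => Y.2.1 ja
    | Sum.inr (Sum.inr q) => Y.2.2 q
  left_inv X := by
    funext v
    rcases v with ⟨j, i, v⟩ | ja | q <;> rfl
  right_inv Y := by
    rcases Y with ⟨Y1, Y2, Y3⟩
    rfl

theorem sum_pi {I Ω : Type} [Fintype I] [DecidableEq I] [Fintype Ω] (w : I → Ω → ℝ) :
    ∑ Z : I → Ω, ∏ i, w i (Z i) = ∏ i, ∑ z, w i z := by
  rw [Finset.prod_univ_sum]
  rw [Fintype.piFinset_univ]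

set_option synthInstance.maxSize 1000 in
set_option synthInstance.maxHeartbeats 400000 in
theorem sum_form [Fintype CM] [Fintype (VX k s L e CM → Bool)] (a : B s → (Fin L × B e) → (FV k s → Bool) → ℝ)
    (m : B s × B s → Bool → ℝ) (c : B L × Mem s CM → Bool → ℝ) :
    ∑ X : VX k s L e CM → Bool,
      (∏ j : B s, ∏ i : Fin L × B e, a j i (fun v => X (Sum.inl (j, (i, v))))) *
        (∏ ja : B s × B s, m ja (X (Sum.inr (Sum.inl ja)))) *
        (∏ q : B L × Mem s CM, c q (X (Sum.inr (Sum.inr q))))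
      = (∏ j : B s, ∏ i : Fin L × B e, ∑ z, a j i z) * (∏ ja : B s × B s, ∑ x, m ja x) *
        (∏ q : B L × Mem s CM, ∑ x, c q x) := by
  refine (Fintype.sum_equiv (eqv k s L e CM) _
    (fun Y : ((B s × (Fin L × B e)) → (FV k s → Bool)) ×
            ((B s × B s → Bool) × (B L × Mem s CM → Bool)) =>
          (∏ ji : B s × (Fin L × B e), a ji.1 ji.2 (Y.1 ji)) * ((∏ ja, m ja (Y.2.1 ja)) *
            ∏ q, c q (Y.2.2 q))) ?_).trans ?_
  · intro X
    simp only [eqv, Equiv.coe_fn_mk]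
    rw [mul_assoc]
    congr 1
    exact (Fintype.prod_prod_type (fun x : B s × (Fin L × B e) =>
      a x.1 x.2 fun v => X (Sum.inl (x.1, x.2, v)))).symm
  rw [Fintype.sum_prod_type]
  simp only [Fintype.sum_prod_type]
  simp only [← Finset.mul_sum, ← Finset.sum_mul]
  rw [sum_pi (fun (ji : B s × (Fin L × B e)) => a ji.1 ji.2), sum_pi m, sum_pi c,
    Fintype.prod_prod_type]
  ring

/-- `x` if `P`, else `0` -/
noncomputable def cnd (P : Prop) (x : ℝ) : ℝ := if P then x else 0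

/-- `0` if `P`, else `x` -/
noncomputable def ncd (P : Prop) (x : ℝ) : ℝ := if P then 0 else x

theorem cnd_pos {P : Prop} (h : P) (x : ℝ) : cnd P x = x := if_pos h
theorem cnd_neg {P : Prop} (h : ¬ P) (x : ℝ) : cnd P x = 0 := if_neg h
theorem ncd_pos {P : Prop} (h : P) (x : ℝ) : ncd P x = 0 := if_pos h
theorem ncd_neg {P : Prop} (h : ¬ P) (x : ℝ) : ncd P x = x := if_neg h
theorem cnd_nonneg {P : Prop} {x : ℝ} (h : 0 ≤ x) : 0 ≤ cnd P x := by
  unfold cnd; split_ifs <;> [exact h; exact le_rfl]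
theorem ncd_nonneg {P : Prop} {x : ℝ} (h : 0 ≤ x) : 0 ≤ ncd P x := by
  unfold ncd; split_ifs <;> [exact le_rfl; exact h]
theorem ncd_le {P : Prop} {x : ℝ} (h : 0 ≤ x) : ncd P x ≤ x := by
  unfold ncd; split_ifs <;> [exact h; exact le_rfl]

/-- factor weights -/
noncomputable def wI (μ : (FV k s → Bool) → ℝ) (b : B s) (r : B L) (j : B s) (i : Fin L × B e)
    (z : FV k s → Bool) : ℝ :=
  if j = b ∧ r i.1 = true then μ z else 1 / 2 ^ (Fintype.card (FV k s))

noncomputable def wm (s : ℕ) (p : ℝ) (_ : B s × B s) (x : Bool) : ℝ := if x then p else 1 - p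

noncomputable def wc (s L : ℕ) (CM : Type) (_ : B L × Mem s CM) (x : Bool) : ℝ := if x then 0 else 1

theorem wI_nonneg (μ : (FV k s → Bool) → ℝ) (b : B s) (r : B L) (hμ : ∀ z, 0 ≤ μ z) (j : B s)
    (i : Fin L × B e) (z : FV k s → Bool) : 0 ≤ wI μ b r j i z := by
  unfold wI
  split_ifs
  · exact hμ z
  · positivity

theorem wI_sum (μ : (FV k s → Bool) → ℝ) (b : B s) (r : B L) (hμ : ∑ z, μ z = 1) (j : B s)
    (i : Fin L × B e) : ∑ z, wI μ b r j i z = 1 := by
  unfold wI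
  split_ifs
  · exact hμ
  · rw [Finset.sum_const, nsmul_eq_mul, Finset.card_univ, Fintype.card_fun, Fintype.card_bool]
    push_cast
    field_simp

theorem wm_sum (p : ℝ) (ja : B s × B s) : ∑ x, wm s p ja x = 1 := by
  simp [wm]

theorem wc_sum (q : B L × Mem s CM) : ∑ x, wc s L CM q x = 1 := by
  simp [wc]

theorem plW_eq [Fintype CM] (μ : (FV k s → Bool) → ℝ) (p : ℝ) (b : B s) (r : B L)
    (X : VX k s L e CM → Bool) : plW μ p b r X =
      (∏ j : B s, ∏ i : Fin L × B e, wI μ b r j i (fun v => X (Sum.inl (j, (i, v))))) *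
        (∏ ja : B s × B s, wm s p ja (X (Sum.inr (Sum.inl ja)))) *
        (∏ q : B L × Mem s CM, wc s L CM q (X (Sum.inr (Sum.inr q)))) := rfl

theorem plW_nonneg [Fintype CM] (μ : (FV k s → Bool) → ℝ) (p : ℝ) (b : B s) (r : B L)
    (hp0 : 0 ≤ p) (hp1 : p ≤ 1) (hμ : ∀ z, 0 ≤ μ z)
    (X : VX k s L e CM → Bool) : 0 ≤ plW μ p b r X := by
  rw [plW_eq]
  refine mul_nonneg (mul_nonneg ?_ ?_) ?_
  · exact Finset.prod_nonneg (fun j _ => Finset.prod_nonneg (fun i _ => wI_nonneg μ b r hμ j i _))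
  · refine Finset.prod_nonneg (fun j _ => ?_)
    unfold wm
    split_ifs
    · exact hp0
    · linarith
  · refine Finset.prod_nonneg (fun j _ => ?_)
    unfold wc
    split_ifs
    · exact le_rfl
    · exact zero_le_one

theorem total [Fintype CM] (μ : (FV k s → Bool) → ℝ) (p : ℝ) (b : B s) (r : B L)
    (hμ1 : ∑ z, μ z = 1) : ∑ X : VX k s L e CM → Bool, plW μ p b r X = 1 := by
  have h := sum_form (CM := CM) (wI (e := e) μ b r) (wm s p) (wc s L CM)
  simp only [wI_sum μ b r hμ1, wm_sum, wc_sum, Finset.prod_const_one, mul_one] at h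
  exact h

/-- the event (a) -/
theorem evA [Fintype CM] (μ : (FV k s → Bool) → ℝ) (p : ℝ) (b : B s) (r : B L) (j₀ : B s)
    (hμ1 : ∑ z, μ z = 1) :
    ∑ X : VX k s L e CM → Bool, (if ∀ a, mark X j₀ a = false then plW μ p b r X else 0)
      = (1 - p) ^ (2 ^ s) := by
  have h := sum_form (CM := CM) (wI (e := e) μ b r)
    (fun ja x => if ja.1 = j₀ ∧ x = true then 0 else wm s p ja x) (wc s L CM)
  simp only [wI_sum μ b r hμ1, wc_sum, Finset.prod_const_one, mul_one, one_mul] at h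
  have h2 : ∀ ja : B s × B s, ∑ x : Bool, (if ja.1 = j₀ ∧ x = true then 0 else wm s p ja x)
      = if ja.1 = j₀ then 1 - p else 1 := by
    intro ja
    by_cases hj : ja.1 = j₀
    · simp [hj, wm]
    · simp [hj, wm]
  simp only [h2] at h
  have h3 : ∏ ja : B s × B s, (if ja.1 = j₀ then 1 - p else 1) = (1 - p) ^ (2 ^ s) := by
    rw [Fintype.prod_prod_type]
    rw [Finset.prod_eq_single j₀]
    · simp
    · intro j _ hj
      simp [hj]
    · intro hj
      exact absurd (Finset.mem_univ _) hj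
  rw [h3] at h
  rw [← h]
  refine Finset.sum_congr rfl (fun X _ => ?_)
  split_ifs with hX
  · rw [plW_eq]
    congr 2
    refine Finset.prod_congr rfl (fun ja _ => ?_)
    rw [if_neg]
    rintro ⟨h1, h2⟩
    have := hX ja.2
    unfold mark at this
    rw [← h1] at this
    simp [h2] at this
  · push Not at hX
    obtain ⟨a, ha⟩ := hX
    rw [Finset.prod_eq_zero (i := (j₀, a)) (Finset.mem_univ _) (s := (univ : Finset (B s × B s)))]
    · simp
    · unfold mark at ha
      simp [ha]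

theorem prod_single (b : B s) (l₀ : Fin L) (x : ℝ) :
    ∏ j : B s, ∏ i : Fin L × B e, (if j = b ∧ i.1 = l₀ then x else 1) = x ^ (2 ^ e) := by
  rw [Finset.prod_eq_single b]
  · rw [Fintype.prod_prod_type]
    rw [Finset.prod_eq_single l₀]
    · simp
    · intro j _ hj
      simp [hj]
    · intro hj
      exact absurd (Finset.mem_univ _) hj
  · intro j _ hj
    simp [hj]
  · intro hj
    exact absurd (Finset.mem_univ _) hj

theorem prod_single' (b : B s) (i₀ : Fin L × B e) (x : ℝ) :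
    ∏ j : B s, ∏ i : Fin L × B e, (if j = b ∧ i = i₀ then x else 1) = x := by
  rw [Finset.prod_eq_single b]
  · rw [Finset.prod_eq_single i₀]
    · simp
    · intro j _ hj
      simp [hj]
    · intro hj
      exact absurd (Finset.mem_univ _) hj
  · intro j _ hj
    simp [hj]
  · intro hj
    exact absurd (Finset.mem_univ _) hj

/-- a general event on the instances of block `b` -/
theorem evGen [Fintype CM] (μ : (FV k s → Bool) → ℝ) (p : ℝ) (b : B s) (r : B L)
    (hμ : ∀ z, 0 ≤ μ z) (hμ1 : ∑ z, μ z = 1) (I : Fin L × B e → Prop)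
    (G : (FV k s → Bool) → Prop) (x : ℝ)
    (hx : ∀ i, I i → ∑ z, ncd (G z) (wI μ b r b i z) ≤ x) :
    ∑ X : VX k s L e CM → Bool,
      cnd (∀ i, I i → ¬ G (fun v => X (Sum.inl (b, (i, v))))) (plW μ p b r X)
      ≤ ∏ j : B s, ∏ i : Fin L × B e, (if j = b ∧ I i then x else 1) := by
  have h := sum_form (CM := CM)
    (fun j i z => ncd (j = b ∧ I i ∧ G z) (wI μ b r j i z)) (wm s p) (wc s L CM)
  simp only [wm_sum, wc_sum, Finset.prod_const_one, mul_one] at h
  have h2 : ∑ X : VX k s L e CM → Bool,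
      cnd (∀ i, I i → ¬ G (fun v => X (Sum.inl (b, (i, v))))) (plW μ p b r X)
      = ∏ j : B s, ∏ i : Fin L × B e, ∑ z, ncd (j = b ∧ I i ∧ G z) (wI μ b r j i z) := by
    rw [← h]
    refine Finset.sum_congr rfl (fun X _ => ?_)
    by_cases hX : ∀ i, I i → ¬ G (fun v => X (Sum.inl (b, (i, v))))
    · rw [cnd_pos hX, plW_eq]
      congr 2
      refine Finset.prod_congr rfl (fun j _ => Finset.prod_congr rfl (fun i _ => ?_))
      rw [ncd_neg]
      rintro ⟨h1, h2, h3⟩
      subst h1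
      exact hX i h2 h3
    · rw [cnd_neg hX]
      push Not at hX
      obtain ⟨i, hi, hG⟩ := hX
      have h0 : (∏ j : B s, ∏ i : Fin L × B e,
          ncd (j = b ∧ I i ∧ G (fun v => X (Sum.inl (j, (i, v)))))
            (wI μ b r j i (fun v => X (Sum.inl (j, (i, v)))))) = 0 := by
        refine Finset.prod_eq_zero (Finset.mem_univ b) ?_
        exact Finset.prod_eq_zero (Finset.mem_univ i) (ncd_pos ⟨rfl, hi, hG⟩ _)
      rw [h0]
      simp
  rw [h2]
  refine Finset.prod_le_prod (fun j _ => Finset.prod_nonneg (fun i _ => Finset.sum_nonneg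
    (fun z _ => ncd_nonneg (wI_nonneg μ b r hμ _ _ _))))
    (fun j _ => Finset.prod_le_prod (fun i _ => Finset.sum_nonneg
    (fun z _ => ncd_nonneg (wI_nonneg μ b r hμ _ _ _))) (fun i _ => ?_))
  split_ifs with hji
  · obtain ⟨h1, h2'⟩ := hji
    subst h1
    have := hx i h2'
    simp only [h2', true_and]
    exact this
  · exact le_trans (Finset.sum_le_sum (fun z _ => ncd_le (wI_nonneg μ b r hμ _ _ _)))
      (le_of_eq (wI_sum μ b r hμ1 j i))

/-- the event terms -/
noncomputable def tA [Fintype CM] (μ : (FV k s → Bool) → ℝ) (p : ℝ) (b : B s) (r : B L)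
    (j : B s) (X : VX k s L e CM → Bool) : ℝ :=
  if ∀ a, mark X j a = false then plW μ p b r X else 0

noncomputable def tB [Fintype CM] (μ : (FV k s → Bool) → ℝ) (p θ₁ : ℝ) (b : B s) (r : B L)
    (l : Fin L) (X : VX k s L e CM → Bool) : ℝ :=
  if r l = true then cnd (∀ i : Fin L × B e, i.1 = l →
            ¬ θ₁ ≤ phi (fun v => X (Sum.inl (b, (i, v))))) (plW μ p b r X) else 0

noncomputable def tC [Fintype CM] (μ : (FV k s → Bool) → ℝ) (p θ₀ : ℝ) (b : B s) (r : B L)
    (lc : Fin L × B e) (X : VX k s L e CM → Bool) : ℝ :=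
  if r lc.1 = false then cnd (∀ i : Fin L × B e, i = lc →
            ¬ |phi (fun v => X (Sum.inl (b, (i, v))))| ≤ θ₀) (plW μ p b r X) else 0

theorem hub [Fintype CM] (μ : (FV k s → Bool) → ℝ) (p θ₁ θ₀ : ℝ) (b : B s) (r : B L)
    (hp0 : 0 ≤ p) (hp1 : p ≤ 1) (hμ : ∀ z, 0 ≤ μ z) (X : VX k s L e CM → Bool) :
      (if (∀ j, ∃ a, mark X j a = true) ∧ good θ₁ θ₀ r (zblk X b) then 0 else plW μ p b r X)
      ≤ ∑ j : B s, tA μ p b r j X + ∑ l : Fin L, tB μ p θ₁ b r l X
        + ∑ lc : Fin L × B e, tC μ p θ₀ b r lc X := by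
  have hw := plW_nonneg (e := e) (CM := CM) μ p b r hp0 hp1 hμ X
  have t1 : ∀ j : B s, 0 ≤ tA μ p b r j X := by
    intro j; unfold tA; split_ifs <;> [exact hw; exact le_rfl]
  have t2 : ∀ l : Fin L, 0 ≤ tB μ p θ₁ b r l X := by
    intro l; unfold tB; split_ifs <;> [exact cnd_nonneg hw; exact le_rfl]
  have t3 : ∀ lc : Fin L × B e, 0 ≤ tC μ p θ₀ b r lc X := by
    intro l; unfold tC; split_ifs <;> [exact cnd_nonneg hw; exact le_rfl]
  have s1 : 0 ≤ ∑ j : B s, tA μ p b r j X := Finset.sum_nonneg (fun j _ => t1 j)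
  have s2 : 0 ≤ ∑ l : Fin L, tB μ p θ₁ b r l X := Finset.sum_nonneg (fun j _ => t2 j)
  have s3 : 0 ≤ ∑ lc : Fin L × B e, tC μ p θ₀ b r lc X := Finset.sum_nonneg (fun l _ => t3 l)
  by_cases hb : (∀ j, ∃ a, mark X j a = true) ∧ good θ₁ θ₀ r (zblk X b)
  · rw [if_pos hb]; linarith
  · rw [if_neg hb]
    by_cases hA : ∀ j, ∃ a, mark X j a = true
    · have hG : ¬ good θ₁ θ₀ r (zblk X b) := fun h => hb ⟨hA, h⟩
      unfold good at hG
      push Not at hG
      obtain ⟨l, hl⟩ := hG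
      by_cases hc : r l = true
      · have hno : ∀ c : B e, ¬ θ₁ ≤ phi (fun v => zblk X b ((l, c), v)) := by
          intro c hcc
          obtain ⟨h1, _⟩ := hl (fun _ => ⟨c, hcc⟩)
          rw [hc] at h1; exact absurd h1 (by simp)
        have h4 : tB μ p θ₁ b r l X ≤ ∑ l : Fin L, tB μ p θ₁ b r l X :=
          Finset.single_le_sum (fun j _ => t2 j) (Finset.mem_univ l)
        have h5 : tB μ p θ₁ b r l X = plW μ p b r X := by
          unfold tB
          rw [if_pos hc, cnd_pos]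
          rintro ⟨l', c⟩ hi
          change l' = l at hi
          subst hi
          exact hno c
        linarith
      · have hc' : r l = false := by simpa using hc
        obtain ⟨_, c, hcc⟩ := hl (fun h => absurd h hc)
        have h4 : tC μ p θ₀ b r (l, c) X ≤ ∑ lc : Fin L × B e, tC μ p θ₀ b r lc X :=
          Finset.single_le_sum (fun j _ => t3 j) (Finset.mem_univ (l, c))
        have h5 : tC μ p θ₀ b r (l, c) X = plW μ p b r X := by
          unfold tC
          rw [if_pos hc', cnd_pos]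
          intro i hi
          subst hi
          exact not_le.mpr hcc
        linarith
    · push Not at hA
      obtain ⟨j, hj⟩ := hA
      have h4 : tA μ p b r j X ≤ ∑ j : B s, tA μ p b r j X :=
        Finset.single_le_sum (fun j _ => t1 j) (Finset.mem_univ j)
      have h5 : tA μ p b r j X = plW μ p b r X := by
        unfold tA
        rw [if_pos]
        intro a
        have := hj a
        simpa using this
      linarith

theorem evB [Fintype CM] (μ : (FV k s → Bool) → ℝ) (p θ₁ : ℝ) (b : B s) (r : B L)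
    (hμ : ∀ z, 0 ≤ μ z) (hμ1 : ∑ z, μ z = 1) (hθ₁1 : θ₁ ≤ 1)
    (hx1 : ∑ z, ncd (θ₁ ≤ phi z) (μ z) ≤ 1 - θ₁) (l : Fin L) :
    ∑ X : VX k s L e CM → Bool, tB μ p θ₁ b r l X ≤ (1 - θ₁) ^ (2 ^ e) := by
  by_cases hc : r l = true
  · have h1 : ∀ X : VX k s L e CM → Bool, tB μ p θ₁ b r l X =
        cnd (∀ i : Fin L × B e, i.1 = l →
            ¬ θ₁ ≤ phi (fun v => X (Sum.inl (b, (i, v))))) (plW μ p b r X) :=
      fun X => if_pos hc
    rw [Finset.sum_congr rfl (fun X _ => h1 X)]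
    refine (evGen μ p b r hμ hμ1 (fun i => i.1 = l) (fun z => θ₁ ≤ phi z) (1 - θ₁)
      ?_).trans (le_of_eq ?_)
    · intro i hi
      have h2 : ∀ z, wI μ b r b i z = μ z := by
        intro z
        unfold wI
        rw [if_pos ⟨rfl, by rw [show i.1 = l from hi]; exact hc⟩]
      simp only [h2]
      exact hx1
    · refine Eq.trans ?_ (prod_single (e := e) b l (1 - θ₁))
      refine Finset.prod_congr rfl (fun j _ => Finset.prod_congr rfl (fun i _ => ?_))
      congr
  · have h1 : ∀ X : VX k s L e CM → Bool, tB μ p θ₁ b r l X = 0 := fun X => if_neg hc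
    rw [Finset.sum_congr rfl (fun X _ => h1 X), Finset.sum_const_zero]
    exact pow_nonneg (by linarith) _

theorem evC [Fintype CM] (μ : (FV k s → Bool) → ℝ) (p θ₀ : ℝ) (b : B s) (r : B L)
    (hμ : ∀ z, 0 ≤ μ z) (hμ1 : ∑ z, μ z = 1)
    (hx0 : ∑ z : FV k s → Bool,
      ncd (|phi z| ≤ θ₀) (1 / 2 ^ (Fintype.card (FV k s)) : ℝ)
      ≤ 1 / (2 ^ s * θ₀ ^ 2)) (lc : Fin L × B e) :
    ∑ X : VX k s L e CM → Bool, tC μ p θ₀ b r lc X ≤ 1 / (2 ^ s * θ₀ ^ 2) := by
  by_cases hc : r lc.1 = false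
  · have h1 : ∀ X : VX k s L e CM → Bool, tC μ p θ₀ b r lc X =
        cnd (∀ i : Fin L × B e, i = lc →
            ¬ |phi (fun v => X (Sum.inl (b, (i, v))))| ≤ θ₀) (plW μ p b r X) :=
      fun X => if_pos hc
    rw [Finset.sum_congr rfl (fun X _ => h1 X)]
    refine (evGen μ p b r hμ hμ1 (fun i => i = lc) (fun z => |phi z| ≤ θ₀)
      (1 / (2 ^ s * θ₀ ^ 2)) ?_).trans (le_of_eq ?_)
    · intro i hi
      have h2 : ∀ z, wI μ b r b i z = 1 / 2 ^ (Fintype.card (FV k s)) := by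
        intro z
        unfold wI
        rw [if_neg]
        rintro ⟨_, h3⟩
        rw [show i = lc from hi, hc] at h3
        exact absurd h3 (by simp)
      simp only [h2]
      exact hx0
    · refine Eq.trans ?_ (prod_single' b lc (1 / (2 ^ s * θ₀ ^ 2)))
      refine Finset.prod_congr rfl (fun j _ => Finset.prod_congr rfl (fun i _ => ?_))
      congr
  · have h1 : ∀ X : VX k s L e CM → Bool, tC μ p θ₀ b r lc X = 0 := fun X => if_neg hc
    rw [Finset.sum_congr rfl (fun X _ => h1 X), Finset.sum_const_zero]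
    positivity

end B4

theorem goodProb : PhiP → GoodProb := by
  intro hP k s L e CM _ p θ₁ θ₀ μ b r hp0 hp1 hμ hμ1 hθ₁ hθ₁1 hθ₀ h2
  refine ⟨B4.total μ p b r hμ1, ?_⟩
  have hx1 : ∑ z, B4.ncd (θ₁ ≤ phi z) (μ z) ≤ 1 - θ₁ := by
    have h3 : ∑ z, μ z * phi z ≤ ∑ z, (μ z - (1 - θ₁) * B4.ncd (θ₁ ≤ phi z) (μ z)) := by
      refine Finset.sum_le_sum (fun z _ => ?_)
      have h4 := hP.abs_le k s z
      have h5 := (abs_le.mp h4).2
      by_cases h6 : θ₁ ≤ phi z
      · rw [B4.ncd_pos h6]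
        nlinarith [hμ z]
      · rw [B4.ncd_neg h6]
        push Not at h6
        nlinarith [hμ z]
    rw [Finset.sum_sub_distrib, hμ1, ← Finset.mul_sum] at h3
    have h0 : 0 ≤ ∑ z, B4.ncd (θ₁ ≤ phi z) (μ z) :=
      Finset.sum_nonneg (fun z _ => B4.ncd_nonneg (hμ z))
    have h1' : ∑ z, B4.ncd (θ₁ ≤ phi z) (μ z) ≤ 1 := by
      rw [← hμ1]
      exact Finset.sum_le_sum (fun z _ => B4.ncd_le (hμ z))
    nlinarith
  have hx0 : ∑ z : FV k s → Bool, B4.ncd (|phi z| ≤ θ₀) (1 / 2 ^ (Fintype.card (FV k s)) : ℝ)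
      ≤ 1 / (2 ^ s * θ₀ ^ 2) := by
    have h3 := hP.null k s
    simp only [avg] at h3
    have h3' : ∑ z : FV k s → Bool, phi z ^ 2 = 1 / 2 ^ s * 2 ^ (Fintype.card (FV k s)) := by
      rw [← h3, div_mul_cancel₀ _ (by positivity)]
      exact Finset.sum_congr (by ext; simp) (fun _ _ => rfl)
    have h4 : ∑ z : FV k s → Bool,
        B4.ncd (|phi z| ≤ θ₀) (1 / 2 ^ (Fintype.card (FV k s)) : ℝ)
        ≤ ∑ z : FV k s → Bool, phi z ^ 2 * (1 / (2 ^ (Fintype.card (FV k s)) * θ₀ ^ 2)) := by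
      refine Finset.sum_le_sum (fun z _ => ?_)
      by_cases h5 : |phi z| ≤ θ₀
      · rw [B4.ncd_pos h5]
        positivity
      · rw [B4.ncd_neg h5]
        push Not at h5
        have h6 : θ₀ ^ 2 ≤ phi z ^ 2 := by
          rw [← sq_abs (phi z)]
          exact pow_le_pow_left₀ hθ₀.le h5.le 2
        have h7 : (0:ℝ) < 2 ^ (Fintype.card (FV k s)) := by positivity
        rw [show (1 / 2 ^ (Fintype.card (FV k s)) : ℝ) =
          θ₀ ^ 2 * (1 / (2 ^ (Fintype.card (FV k s)) * θ₀ ^ 2)) by field_simp]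
        exact mul_le_mul_of_nonneg_right h6 (by positivity)
    refine h4.trans (le_of_eq ?_)
    rw [← Finset.sum_mul, h3']
    field_simp
  refine (Finset.sum_le_sum (fun X _ => B4.hub μ p θ₁ θ₀ b r hp0 hp1 hμ X)).trans ?_
  rw [Finset.sum_add_distrib, Finset.sum_add_distrib]
  have e1 : ∑ X : VX k s L e CM → Bool, ∑ j : B s, B4.tA μ p b r j X
      = 2 ^ s * (1 - p) ^ (2 ^ s) := by
    rw [Finset.sum_comm]
    have : ∀ j : B s, ∑ X : VX k s L e CM → Bool, B4.tA μ p b r j X = (1 - p) ^ (2 ^ s) :=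
      fun j => B4.evA μ p b r j hμ1
    rw [Finset.sum_congr rfl (fun j _ => this j), Finset.sum_const, nsmul_eq_mul]
    simp
  have e2 : ∑ X : VX k s L e CM → Bool, ∑ l : Fin L, B4.tB μ p θ₁ b r l X
      ≤ L * (1 - θ₁) ^ (2 ^ e) := by
    rw [Finset.sum_comm]
    refine (Finset.sum_le_sum (fun l _ => B4.evB μ p θ₁ b r hμ hμ1 hθ₁1 hx1 l)).trans ?_
    rw [Finset.sum_const, nsmul_eq_mul]
    simp
  have e3 : ∑ X : VX k s L e CM → Bool, ∑ lc : Fin L × B e, B4.tC μ p θ₀ b r lc X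
      ≤ L * 2 ^ e * (1 / (2 ^ s * θ₀ ^ 2)) := by
    rw [Finset.sum_comm]
    refine (Finset.sum_le_sum (fun l _ => B4.evC μ p θ₀ b r hμ hμ1 hx0 l)).trans ?_
    rw [Finset.sum_const, nsmul_eq_mul]
    simp
  linarith

end Crest.Agent.R350
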