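import Crest.Agent.R350.Defs

/-!
# Row 350 (S0554), task C1: Fourier weight of decision trees at inner points
-/

set_option autoImplicit false

open Finset Classical

namespace Crest.Agent.R350

namespace C1

/-! ## Fourier inversion -/

section inversion
variable {V : Type} [Fintype V]

theorem sgn_mul_self (b : Bool) : sgn b * sgn b = 1 := by
  cases b <;> simp [sgn]

theorem sum_chr_mul_chr (x y : V → Bool) :
    ∑ S : Finset V, chr S x * chr S y = if x = y then 2 ^ (Fintype.card V) else 0 := by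
  have h1 : ∑ S : Finset V, chr S x * chr S y = ∏ v : V, (1 + sgn (x v) * sgn (y v)) := by
    rw [Finset.prod_one_add, Finset.powerset_univ]
    refine Finset.sum_congr rfl fun S _ => ?_
    unfold chr
    rw [Finset.prod_mul_distrib]
  rw [h1]
  split_ifs with h
  · subst h
    rw [Finset.prod_congr rfl (fun v _ => by rw [sgn_mul_self])]
    rw [Finset.prod_const, Finset.card_univ]
    norm_num
  · have : ∃ v, x v ≠ y v := by
      by_contra hc
      push Not at hc
      exact h (funext hc)
    obtain ⟨v, hv⟩ := this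
    refine Finset.prod_eq_zero (Finset.mem_univ v) ?_
    cases hx : x v <;> cases hy : y v <;> simp_all [sgn]

/-- Fourier inversion -/
theorem inversion (g : (V → Bool) → ℝ) (x : V → Bool) :
    g x = ∑ S : Finset V, coef g S * chr S x := by
  unfold coef avg
  have h2 : (2 : ℝ) ^ (Fintype.card V) ≠ 0 := by positivity
  have : ∑ S : Finset V, (∑ y, g y * chr S y) / 2 ^ (Fintype.card V) * chr S x
      = (∑ y, g y * ∑ S : Finset V, chr S y * chr S x) / 2 ^ (Fintype.card V) := by
    simp only [Finset.mul_sum, Finset.sum_div, Finset.sum_mul]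
    rw [Finset.sum_comm]
    refine Finset.sum_congr rfl fun y _ => Finset.sum_congr rfl fun S _ => ?_
    ring
  rw [this]
  simp only [sum_chr_mul_chr]
  simp [h2]

end inversion

/-! ## product expectation -/

section expectation
variable {V : Type} [Fintype V]

/-- weight of one bit -/
noncomputable def wt (z : ℝ) (b : Bool) : ℝ := (1 + sgn b * z) / 2

noncomputable def xi (z : ℝ) (b : Bool) : ℝ := (sgn b - z) / (1 - z ^ 2)

/-- product weight -/
noncomputable def Pz (z : V → ℝ) (x : V → Bool) : ℝ := ∏ v, wt (z v) (x v)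

/-- expectation -/
noncomputable def EE (z : V → ℝ) (G : (V → Bool) → ℝ) : ℝ := ∑ x, Pz z x * G x

/-- `ξ_A` -/
noncomputable def xiS (z : V → ℝ) (A : Finset V) (x : V → Bool) : ℝ := ∏ v ∈ A, xi (z v) (x v)

/-- `P_Z` -/
noncomputable def PZ (z : V → ℝ) (Z : Finset V → ℝ) (x : V → Bool) : ℝ :=
  ∑ A : Finset V, Z A * xiS z A x

theorem sum_wt (z : ℝ) : ∑ b, wt z b = 1 := by
  rw [Fintype.sum_bool]; simp [wt, sgn]; ring

theorem sum_wt_sgn (z : ℝ) : ∑ b, wt z b * sgn b = z := by
  rw [Fintype.sum_bool]; simp [wt, sgn]; ring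

theorem sum_wt_xi (z : ℝ) : ∑ b, wt z b * xi z b = 0 := by
  rw [Fintype.sum_bool]; simp [wt, sgn, xi]; ring

theorem sum_wt_sgn_xi (z : ℝ) (hz : z ^ 2 ≠ 1) : ∑ b, wt z b * (sgn b * xi z b) = 1 := by
  have : 1 - z ^ 2 ≠ 0 := fun h => hz (by linarith)
  rw [Fintype.sum_bool]; simp only [wt, sgn, xi]
  simp only [if_true, Bool.false_eq_true, if_false]
  field_simp
  ring

theorem EE_prod (z : V → ℝ) (h : V → Bool → ℝ) :
    EE z (fun x => ∏ v, h v (x v)) = ∏ v, ∑ b, wt (z v) b * h v b := by
  rw [Fintype.prod_sum]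
  unfold EE Pz
  refine Finset.sum_congr rfl fun x _ => ?_
  rw [Finset.prod_mul_distrib]

/-- the derivative as an expectation -/
theorem dz_eq (z : V → ℝ) (hz : ∀ v, z v ^ 2 ≠ 1) (g : (V → Bool) → ℝ) (S : Finset V) :
    dz g S z = EE z (fun x => g x * xiS z S x) := by
  have h1 : EE z (fun x => g x * xiS z S x)
      = ∑ S' : Finset V, coef g S' * EE z (fun x => chr S' x * xiS z S x) := by
    unfold EE
    simp only [Finset.mul_sum]
    rw [Finset.sum_comm]
    refine Finset.sum_congr rfl fun x _ => ?_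
    rw [inversion g x, Finset.sum_mul, Finset.mul_sum]
    refine Finset.sum_congr rfl fun S' _ => ?_
    ring
  have h2 : ∀ S' : Finset V, EE z (fun x => chr S' x * xiS z S x) =
      if S ⊆ S' then ∏ v ∈ S' \ S, z v else 0 := by
    intro S'
    have : (fun x : V → Bool => chr S' x * xiS z S x)
        = fun x => ∏ v, ((if v ∈ S' then sgn (x v) else 1) * (if v ∈ S then xi (z v) (x v) else 1)) := by
      funext x
      unfold chr xiS
      rw [Finset.prod_mul_distrib, Finset.prod_ite_mem, Finset.prod_ite_mem, Finset.univ_inter,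
        Finset.univ_inter]
    rw [this, EE_prod z (fun v b => (if v ∈ S' then sgn b else 1) * (if v ∈ S then xi (z v) b else 1))]
    split_ifs with hS
    · rw [← Finset.prod_sdiff (Finset.subset_univ (S' \ S))]
      have e1 : ∏ v ∈ univ \ (S' \ S), ∑ b, wt (z v) b * ((if v ∈ S' then sgn b else 1) *
          (if v ∈ S then xi (z v) b else 1)) = 1 := by
        refine Finset.prod_eq_one fun v hv => ?_
        rw [Finset.mem_sdiff, Finset.mem_sdiff] at hv
        by_cases hv1 : v ∈ S
        · have hv2 := hS hv1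
          simp only [hv1, hv2, if_true]
          exact sum_wt_sgn_xi _ (hz v)
        · have hv2 : v ∉ S' := fun h => hv.2 ⟨h, hv1⟩
          simp only [hv1, hv2, if_false, mul_one]
          exact sum_wt _
      rw [e1, one_mul]
      refine Finset.prod_congr rfl fun v hv => ?_
      rw [Finset.mem_sdiff] at hv
      simp only [hv.1, hv.2, if_true, if_false, mul_one]
      exact sum_wt_sgn _
    · rw [Finset.not_subset] at hS
      obtain ⟨v, hv1, hv2⟩ := hS
      refine Finset.prod_eq_zero (Finset.mem_univ v) ?_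
      simp only [hv1, hv2, if_true, if_false, one_mul]
      exact sum_wt_xi _
  rw [h1]
  simp only [h2]
  unfold dz
  rw [Finset.sum_filter]
  refine Finset.sum_congr rfl fun S' _ => ?_
  split_ifs <;> simp

/-- Fubini for one coordinate -/
theorem EE_update (z : V → ℝ) (v : V) (G : (V → Bool) → ℝ) :
    EE z G = ∑ b, wt (z v) b * EE z (fun x => G (Function.update x v b)) := by
  have h1 : ∑ b, wt (z v) b * EE z (fun x => G (Function.update x v b))
      = ∑ xb : (V → Bool) × Bool, Pz z xb.1 * wt (z v) xb.2 * G (Function.update xb.1 v xb.2) := by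
    unfold EE
    rw [Fintype.sum_prod_type, Finset.sum_comm]
    refine Finset.sum_congr rfl fun b _ => ?_
    rw [Finset.mul_sum]
    refine Finset.sum_congr rfl fun x _ => ?_
    ring
  have h2 : EE z G = ∑ xb : (V → Bool) × Bool, Pz z xb.1 * wt (z v) xb.2 * G xb.1 := by
    unfold EE
    rw [Fintype.sum_prod_type]
    refine Finset.sum_congr rfl fun x _ => ?_
    have : ∑ b, Pz z x * wt (z v) b * G x = Pz z x * G x * ∑ b, wt (z v) b := by
      rw [Finset.mul_sum]
      refine Finset.sum_congr rfl fun b _ => ?_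
      ring
    show Pz z x * G x = ∑ b, Pz z x * wt (z v) b * G x
    rw [this, sum_wt, mul_one]
  rw [h1, h2]
  have hinv : Function.Involutive
      (fun xb : (V → Bool) × Bool => ((Function.update xb.1 v xb.2, xb.1 v) : (V → Bool) × Bool)) := by
    rintro ⟨x, b⟩
    simp
  refine Fintype.sum_equiv hinv.toPerm _ _ (fun xb => ?_)
  obtain ⟨x, b⟩ := xb
  show Pz z x * wt (z v) b * G x =
    Pz z (Function.update x v b) * wt (z v) (x v) * G (Function.update (Function.update x v b) v (x v))
  have e1 : Function.update (Function.update x v b) v (x v) = x := by simp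
  rw [e1]
  congr 1
  unfold Pz
  rw [← Finset.mul_prod_erase univ _ (Finset.mem_univ v),
    ← Finset.mul_prod_erase univ (fun u => wt (z u) (Function.update x v b u)) (Finset.mem_univ v)]
  have e2 : ∏ u ∈ univ.erase v, wt (z u) (Function.update x v b u) =
      ∏ u ∈ univ.erase v, wt (z u) (x u) := by
    refine Finset.prod_congr rfl fun u hu => ?_
    rw [Function.update_of_ne (Finset.ne_of_mem_erase hu)]
  rw [e2, Function.update_self]
  ring

/-- conditioning the coefficients -/
noncomputable def cond (z : V → ℝ) (v : V) (b : Bool) (Z : Finset V → ℝ) (A : Finset V) : ℝ :=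
  if v ∈ A then 0 else Z A + xi (z v) b * Z (insert v A)

theorem sum_split (v : V) (F : Finset V → ℝ) :
    ∑ A : Finset V, F A = ∑ A ∈ univ.filter (fun A : Finset V => v ∉ A), (F A + F (insert v A)) := by
  rw [← Finset.sum_filter_add_sum_filter_not univ (fun A : Finset V => v ∉ A),
    Finset.sum_add_distrib]
  congr 1
  refine Finset.sum_nbij' (fun A => A.erase v) (fun A => insert v A) ?_ ?_ ?_ ?_ ?_
  · intro A hA; simp
  · intro A hA; simp
  · intro A hA
    have : v ∈ A := by simpa using hA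
    exact Finset.insert_erase this
  · intro A hA
    have : v ∉ A := by simpa using hA
    exact Finset.erase_insert this
  · intro A hA
    have : v ∈ A := by simpa using hA
    rw [Finset.insert_erase this]

theorem PZ_update (z : V → ℝ) (v : V) (b : Bool) (Z : Finset V → ℝ) (x : V → Bool) :
    PZ z Z (Function.update x v b) = PZ z (cond z v b Z) x := by
  unfold PZ
  rw [sum_split v, sum_split v]
  refine Finset.sum_congr rfl fun A hA => ?_
  have hA : v ∉ A := by simpa using hA
  have h1 : xiS z A (Function.update x v b) = xiS z A x := by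
    unfold xiS
    refine Finset.prod_congr rfl fun u hu => ?_
    have huv : u ≠ v := by
      intro h
      rw [h] at hu
      exact hA hu
    rw [Function.update_of_ne huv]
  have h2 : xiS z (insert v A) (Function.update x v b) = xi (z v) b * xiS z A x := by
    unfold xiS
    rw [Finset.prod_insert hA, Function.update_self]
    congr 1
  rw [h1, h2]
  simp only [cond, hA, Finset.mem_insert_self, if_true, if_false]
  ring

end expectation

/-! ## tree restriction -/

section tree
variable {V : Type}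

/-- fix the variable `v` to `b`. -/
noncomputable def fixv (v : V) (b : Bool) : V → V ⊕ Bool := fun u => if u = v then Sum.inr b else Sum.inl u

theorem eval_fixv {α : Type} (v : V) (b : Bool) (T : Tree V α) (x : V → Bool) :
    (T.fix (fixv v b)).eval x = T.eval (Function.update x v b) := by
  induction T with
  | leaf a => rfl
  | node u t₀ t₁ h₀ h₁ =>
    by_cases hu : u = v
    · subst hu
      simp only [Tree.fix, fixv, if_true, Tree.eval, Function.update_self]
      cases b
      · simpa using h₀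
      · simpa using h₁
    · simp only [Tree.fix, fixv, hu, if_false, Tree.eval, Function.update_of_ne hu]
      rw [← h₀, ← h₁]

theorem depth_fix_le {V' α : Type} (f : V → V' ⊕ Bool) (T : Tree V α) :
    (T.fix f).depth ≤ T.depth := by
  induction T with
  | leaf a => exact le_refl _
  | node u t₀ t₁ h₀ h₁ =>
    simp only [Tree.fix, Tree.depth]
    cases f u with
    | inl w => simp only [Tree.depth]; have := max_le_max h₀ h₁; omega
    | inr b => cases b <;> simp <;> omega

end tree

/-! ## the inequality for one variable -/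

theorem pow_young (p : ℕ) (hp : 1 ≤ p) (n : ℝ) (hn : 1 ≤ n) (a b : ℝ) :
    |a| ^ (2 * p - 2) * b ^ 2 ≤ (1 / n) * a ^ (2 * p) + n ^ (p - 1) * b ^ (2 * p) := by
  obtain ⟨q, rfl⟩ : ∃ q, p = q + 1 := ⟨p - 1, by omega⟩
  have e1 : 2 * (q + 1) - 2 = 2 * q := by omega
  rw [e1, pow_mul, sq_abs, pow_mul, pow_mul, Nat.add_sub_cancel]
  have hn0 : 0 < n := by linarith
  set A := a ^ 2
  set B := b ^ 2
  have hA : 0 ≤ A := sq_nonneg a
  have hB : 0 ≤ B := sq_nonneg b
  rcases le_or_gt (n * B) A with h | h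
  · have h1 : A ^ q * B ≤ (1 / n) * A ^ (q + 1) := by
      rw [pow_succ]
      have : B ≤ A / n := by rw [le_div_iff₀ hn0]; linarith
      calc A ^ q * B ≤ A ^ q * (A / n) := by gcongr
        _ = 1 / n * (A ^ q * A) := by ring
    have h2 : 0 ≤ n ^ q * B ^ (q + 1) := by positivity
    linarith
  · have h1 : A ^ q * B ≤ n ^ q * B ^ (q + 1) := by
      calc A ^ q * B ≤ (n * B) ^ q * B := by gcongr
        _ = n ^ q * B ^ (q + 1) := by ring
    have h2 : 0 ≤ (1 / n) * A ^ (q + 1) := by positivity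
    linarith

theorem pow_mix (p r : ℕ) (hr : 2 ≤ r) (hrp : r ≤ 2 * p) (a b : ℝ) :
    |a| ^ (2 * p - r) * |b| ^ r ≤ |a| ^ (2 * p - 2) * b ^ 2 + b ^ (2 * p) := by
  have e2 : b ^ (2 * p) = |b| ^ (2 * p) := by rw [pow_mul, pow_mul, sq_abs]
  rw [e2, ← sq_abs b]
  set A := |a|
  set B := |b|
  have hA : 0 ≤ A := abs_nonneg a
  have hB : 0 ≤ B := abs_nonneg b
  rcases le_or_gt B A with h | h
  · have h1 : A ^ (2 * p - r) * B ^ r ≤ A ^ (2 * p - 2) * B ^ 2 := by
      have e : B ^ r = B ^ (r - 2) * B ^ 2 := by rw [← pow_add]; congr 1; omega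
      have e' : A ^ (2 * p - 2) = A ^ (2 * p - r) * A ^ (r - 2) := by rw [← pow_add]; congr 1; omega
      rw [e, e']
      calc A ^ (2 * p - r) * (B ^ (r - 2) * B ^ 2) ≤ A ^ (2 * p - r) * (A ^ (r - 2) * B ^ 2) := by
            gcongr
        _ = _ := by ring
    have h2 : 0 ≤ B ^ (2 * p) := by positivity
    linarith
  · have h1 : A ^ (2 * p - r) * B ^ r ≤ B ^ (2 * p) := by
      have e : B ^ (2 * p) = B ^ (2 * p - r) * B ^ r := by rw [← pow_add]; congr 1; omega
      rw [e]
      gcongr
    have h2 : 0 ≤ A ^ (2 * p - 2) * B ^ 2 := by positivity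
    linarith

theorem abs_xi_le (z : ℝ) (hz : |z| ≤ 1 / 2) (b : Bool) : |xi z b| ≤ 2 := by
  unfold xi
  have h1 : 3 / 4 ≤ 1 - z ^ 2 := by
    have : z ^ 2 ≤ (1 / 2) ^ 2 := by
      rw [← sq_abs]; gcongr
    linarith
  rw [abs_div, abs_of_pos (by linarith : 0 < 1 - z ^ 2), div_le_iff₀ (by linarith)]
  have h2 : |sgn b - z| ≤ 3 / 2 := by
    have := abs_sub (sgn b) z
    have hs : |sgn b| = 1 := by cases b <;> simp [sgn]
    linarith
  linarith

theorem wt_nonneg (z : ℝ) (hz : |z| ≤ 1 / 2) (b : Bool) : 0 ≤ wt z b := by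
  unfold wt
  have := abs_le.mp hz
  cases b <;> simp [sgn] <;> linarith

theorem one_var (p : ℕ) (hp : 1 ≤ p) (n : ℝ) (hn : 1 ≤ n) (z : ℝ) (hz : |z| ≤ 1 / 2) (a b : ℝ) :
    ∑ σ, wt z σ * (a + xi z σ * b) ^ (2 * p) ≤
      (1 + 2 * 9 ^ p / n) * a ^ (2 * p) + 2 * 9 ^ p * n ^ (p - 1) * b ^ (2 * p) := by
  have hn0 : 0 < n := by linarith
  -- pointwise bound
  have key : ∀ σ, (a + xi z σ * b) ^ (2 * p) ≤ a ^ (2 * p) + (2 * p) * a ^ (2 * p - 1) * b * xi z σ +
      9 ^ p * (|a| ^ (2 * p - 2) * b ^ 2 + b ^ (2 * p)) := by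
    intro σ
    rw [add_comm a, add_pow]
    have hsplit : range (2 * p + 1) = insert 0 (insert 1 (Finset.Ico 2 (2 * p + 1))) := by
      ext i; simp only [mem_range, mem_insert, mem_Ico]; omega
    rw [hsplit, Finset.sum_insert (by simp), Finset.sum_insert (by simp)]
    have hrest : ∑ i ∈ Finset.Ico 2 (2 * p + 1), (xi z σ * b) ^ i * a ^ (2 * p - i) * ((2 * p).choose i : ℝ)
        ≤ 9 ^ p * (|a| ^ (2 * p - 2) * b ^ 2 + b ^ (2 * p)) := by
      have h9 : (9 : ℝ) ^ p = ∑ i ∈ range (2 * p + 1), (2 : ℝ) ^ i * 1 ^ (2 * p - i) * ((2 * p).choose i : ℝ) := by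
        rw [← add_pow]; norm_num [pow_mul]
      have hM : 0 ≤ |a| ^ (2 * p - 2) * b ^ 2 + b ^ (2 * p) := by
        have : 0 ≤ b ^ (2 * p) := by rw [pow_mul]; positivity
        positivity
      calc ∑ i ∈ Finset.Ico 2 (2 * p + 1), (xi z σ * b) ^ i * a ^ (2 * p - i) * ((2 * p).choose i : ℝ)
          ≤ ∑ i ∈ Finset.Ico 2 (2 * p + 1), (2 : ℝ) ^ i * 1 ^ (2 * p - i) * ((2 * p).choose i : ℝ) *
              (|a| ^ (2 * p - 2) * b ^ 2 + b ^ (2 * p)) := by
            refine Finset.sum_le_sum fun i hi => ?_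
            rw [Finset.mem_Ico] at hi
            have h3 : (xi z σ * b) ^ i * a ^ (2 * p - i) ≤ 2 ^ i * (|a| ^ (2 * p - i) * |b| ^ i) := by
              calc (xi z σ * b) ^ i * a ^ (2 * p - i) ≤ |(xi z σ * b) ^ i * a ^ (2 * p - i)| := le_abs_self _
                _ = |xi z σ| ^ i * (|a| ^ (2 * p - i) * |b| ^ i) := by
                    rw [abs_mul, abs_pow, abs_pow, abs_mul, mul_pow]; ring
                _ ≤ 2 ^ i * (|a| ^ (2 * p - i) * |b| ^ i) := by
                    gcongr
                    exact abs_xi_le z hz σ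
            have h4 := pow_mix p i hi.1 (by omega) a b
            calc (xi z σ * b) ^ i * a ^ (2 * p - i) * ((2 * p).choose i : ℝ)
                ≤ 2 ^ i * (|a| ^ (2 * p - i) * |b| ^ i) * ((2 * p).choose i : ℝ) := by gcongr
              _ ≤ 2 ^ i * (|a| ^ (2 * p - 2) * b ^ 2 + b ^ (2 * p)) * ((2 * p).choose i : ℝ) := by gcongr
              _ = _ := by ring
        _ = (∑ i ∈ Finset.Ico 2 (2 * p + 1), (2 : ℝ) ^ i * 1 ^ (2 * p - i) * ((2 * p).choose i : ℝ)) *
              (|a| ^ (2 * p - 2) * b ^ 2 + b ^ (2 * p)) := by rw [Finset.sum_mul]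
        _ ≤ 9 ^ p * (|a| ^ (2 * p - 2) * b ^ 2 + b ^ (2 * p)) := by
            rw [h9]
            gcongr
            intro i hi
            rw [Finset.mem_Ico] at hi
            rw [Finset.mem_range]
            omega
    have e0 : (xi z σ * b) ^ 0 * a ^ (2 * p - 0) * ((2 * p).choose 0 : ℝ) = a ^ (2 * p) := by simp
    have e1 : (xi z σ * b) ^ 1 * a ^ (2 * p - 1) * ((2 * p).choose 1 : ℝ) =
        (2 * p) * a ^ (2 * p - 1) * b * xi z σ := by
      rw [Nat.choose_one_right]; push_cast; ring
    rw [e0, e1]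
    linarith
  have h1 : ∑ σ, wt z σ * (a + xi z σ * b) ^ (2 * p) ≤
      ∑ σ, wt z σ * (a ^ (2 * p) + (2 * p) * a ^ (2 * p - 1) * b * xi z σ +
      9 ^ p * (|a| ^ (2 * p - 2) * b ^ 2 + b ^ (2 * p))) := by
    refine Finset.sum_le_sum fun σ _ => ?_
    exact mul_le_mul_of_nonneg_left (key σ) (wt_nonneg z hz σ)
  have h2 : ∑ σ, wt z σ * (a ^ (2 * p) + (2 * p) * a ^ (2 * p - 1) * b * xi z σ +
      9 ^ p * (|a| ^ (2 * p - 2) * b ^ 2 + b ^ (2 * p))) =
      a ^ (2 * p) + 9 ^ p * (|a| ^ (2 * p - 2) * b ^ 2 + b ^ (2 * p)) := by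
    have e : ∀ σ, wt z σ * (a ^ (2 * p) + (2 * p) * a ^ (2 * p - 1) * b * xi z σ +
      9 ^ p * (|a| ^ (2 * p - 2) * b ^ 2 + b ^ (2 * p))) =
      wt z σ * (a ^ (2 * p) + 9 ^ p * (|a| ^ (2 * p - 2) * b ^ 2 + b ^ (2 * p))) +
      (2 * p) * a ^ (2 * p - 1) * b * (wt z σ * xi z σ) := by intro σ; ring
    simp only [e]
    rw [Finset.sum_add_distrib, ← Finset.sum_mul, sum_wt, ← Finset.mul_sum, sum_wt_xi]
    ring
  have h3 := pow_young p hp n hn a b
  have h4 : b ^ (2 * p) ≤ n ^ (p - 1) * b ^ (2 * p) := by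
    have hb : 0 ≤ b ^ (2 * p) := by rw [pow_mul]; positivity
    have : 1 ≤ n ^ (p - 1) := one_le_pow₀ hn
    nlinarith
  have ha : 0 ≤ a ^ (2 * p) := by rw [pow_mul]; positivity
  have h9 : (0 : ℝ) < 9 ^ p := by positivity
  calc ∑ σ, wt z σ * (a + xi z σ * b) ^ (2 * p)
      ≤ a ^ (2 * p) + 9 ^ p * (|a| ^ (2 * p - 2) * b ^ 2 + b ^ (2 * p)) := by rw [← h2]; exact h1
    _ ≤ a ^ (2 * p) + 9 ^ p * (((1 / n) * a ^ (2 * p) + n ^ (p - 1) * b ^ (2 * p)) +
          n ^ (p - 1) * b ^ (2 * p)) := by gcongr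
    _ = (1 + 9 ^ p / n) * a ^ (2 * p) + 2 * 9 ^ p * n ^ (p - 1) * b ^ (2 * p) := by ring
    _ ≤ _ := by
        gcongr
        linarith

/-! ## the induction -/

section induction_
variable {V : Type} [Fintype V]

/-- the potential -/
noncomputable def Psi (p : ℕ) (n : ℝ) (m : ℕ) (Z : Finset V → ℝ) : ℝ :=
  (1 + 2 * 9 ^ p / n) ^ m * ∑ A : Finset V, (2 * 9 ^ p * n ^ (p - 1)) ^ A.card *
    (m.choose A.card : ℝ) * Z A ^ (2 * p)

theorem Psi_step (p : ℕ) (hp : 1 ≤ p) (n : ℝ) (hn : 1 ≤ n) (m : ℕ) (z : V → ℝ)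
    (hz : ∀ v, |z v| ≤ 1 / 2) (v : V) (Z : Finset V → ℝ) :
    ∑ b, wt (z v) b * Psi p n m (cond z v b Z) ≤ Psi p n (m + 1) Z := by
  have hn0 : 0 < n := by linarith
  set C : ℝ := 2 * 9 ^ p with hC
  have hC0 : 0 < C := by positivity
  set D : ℝ := C * n ^ (p - 1) with hD
  have hD0 : 0 < D := by positivity
  have hPsi : ∀ (m : ℕ) (Z : Finset V → ℝ), Psi p n m Z =
      (1 + C / n) ^ m * ∑ A : Finset V, D ^ A.card * (m.choose A.card : ℝ) * Z A ^ (2 * p) := by
    intro m Z; rfl
  have hpos : ∀ t : ℝ, 0 ≤ t ^ (2 * p) := fun t => by rw [pow_mul]; positivity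
  have h1 : ∑ b, wt (z v) b * Psi p n m (cond z v b Z) =
      (1 + C / n) ^ m * ∑ A ∈ univ.filter (fun A : Finset V => v ∉ A), D ^ A.card * (m.choose A.card : ℝ) *
        ∑ b, wt (z v) b * (Z A + xi (z v) b * Z (insert v A)) ^ (2 * p) := by
    have : ∀ b, wt (z v) b * Psi p n m (cond z v b Z) =
        (1 + C / n) ^ m * ∑ A ∈ univ.filter (fun A : Finset V => v ∉ A), D ^ A.card * (m.choose A.card : ℝ) *
        (wt (z v) b * (Z A + xi (z v) b * Z (insert v A)) ^ (2 * p)) := by
      intro b
      rw [hPsi, sum_split v]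
      rw [mul_left_comm, Finset.mul_sum]
      congr 1
      refine Finset.sum_congr rfl fun A hA => ?_
      have hA : v ∉ A := by simpa using hA
      simp only [cond, hA, Finset.mem_insert_self, if_true, if_false]
      rw [zero_pow (by omega)]
      ring
    simp only [this]
    rw [← Finset.mul_sum, Finset.sum_comm]
    congr 1
    refine Finset.sum_congr rfl fun A _ => ?_
    rw [Finset.mul_sum]
  rw [h1, hPsi]
  have h2 : ∑ A ∈ univ.filter (fun A : Finset V => v ∉ A), D ^ A.card * (m.choose A.card : ℝ) *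
        ∑ b, wt (z v) b * (Z A + xi (z v) b * Z (insert v A)) ^ (2 * p) ≤
      (1 + C / n) * ∑ A : Finset V, D ^ A.card * ((m + 1).choose A.card : ℝ) * Z A ^ (2 * p) := by
    rw [sum_split v, Finset.mul_sum]
    refine Finset.sum_le_sum fun A hA => ?_
    have hA : v ∉ A := by simpa using hA
    rw [Finset.card_insert_of_notMem hA]
    have h3 := one_var p hp n hn (z v) (hz v) (Z A) (Z (insert v A))
    have hch1 : (m.choose A.card : ℝ) ≤ ((m + 1).choose A.card : ℝ) := by
      exact_mod_cast Nat.choose_le_choose _ (by omega)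
    have hch2 : (m.choose A.card : ℝ) ≤ ((m + 1).choose (A.card + 1) : ℝ) := by
      rw [Nat.choose_succ_succ]; push_cast
      have : (0 : ℝ) ≤ (m.choose (A.card + 1) : ℝ) := by positivity
      linarith
    have hZ1 := hpos (Z A)
    have hZ2 := hpos (Z (insert v A))
    have hCn : 0 ≤ C / n := by positivity
    calc D ^ A.card * (m.choose A.card : ℝ) * ∑ b, wt (z v) b * (Z A + xi (z v) b * Z (insert v A)) ^ (2 * p)
        ≤ D ^ A.card * (m.choose A.card : ℝ) * ((1 + C / n) * Z A ^ (2 * p) +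
            D * Z (insert v A) ^ (2 * p)) := by gcongr
      _ = (1 + C / n) * (D ^ A.card * (m.choose A.card : ℝ) * Z A ^ (2 * p)) +
            1 * (D ^ (A.card + 1) * (m.choose A.card : ℝ) * Z (insert v A) ^ (2 * p)) := by ring
      _ ≤ (1 + C / n) * (D ^ A.card * ((m + 1).choose A.card : ℝ) * Z A ^ (2 * p)) +
            (1 + C / n) * (D ^ (A.card + 1) * ((m + 1).choose (A.card + 1) : ℝ) *
              Z (insert v A) ^ (2 * p)) := by
          gcongr
          linarith
      _ = _ := by ring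
  calc (1 + C / n) ^ m * ∑ A ∈ univ.filter (fun A : Finset V => v ∉ A), D ^ A.card * (m.choose A.card : ℝ) *
        ∑ b, wt (z v) b * (Z A + xi (z v) b * Z (insert v A)) ^ (2 * p)
      ≤ (1 + C / n) ^ m * ((1 + C / n) *
          ∑ A : Finset V, D ^ A.card * ((m + 1).choose A.card : ℝ) * Z A ^ (2 * p)) := by gcongr
    _ = _ := by ring

theorem EE_PZ (z : V → ℝ) (Z : Finset V → ℝ) : EE z (PZ z Z) = Z ∅ := by
  have h1 : EE z (PZ z Z) = ∑ A : Finset V, Z A * EE z (xiS z A) := by
    unfold EE PZ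
    simp only [Finset.mul_sum]
    rw [Finset.sum_comm]
    refine Finset.sum_congr rfl fun A _ => Finset.sum_congr rfl fun x _ => ?_
    ring
  have h2 : ∀ A : Finset V, EE z (xiS z A) = if A = ∅ then 1 else 0 := by
    intro A
    have : xiS z A = fun x => ∏ v, (if v ∈ A then xi (z v) (x v) else 1) := by
      funext x
      unfold xiS
      rw [Finset.prod_ite_mem, Finset.univ_inter]
    rw [this, EE_prod z (fun v b => if v ∈ A then xi (z v) b else 1)]
    split_ifs with hA
    · subst hA
      refine Finset.prod_eq_one fun v _ => ?_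
      simp only [Finset.notMem_empty, if_false, mul_one]
      exact sum_wt _
    · obtain ⟨v, hv⟩ := Finset.nonempty_iff_ne_empty.mpr hA
      refine Finset.prod_eq_zero (Finset.mem_univ v) ?_
      simp only [hv, if_true]
      exact sum_wt_xi _
  rw [h1]
  simp only [h2]
  simp

theorem main_bound (p : ℕ) (hp : 1 ≤ p) (n : ℝ) (hn : 1 ≤ n) (z : V → ℝ)
    (hz : ∀ v, |z v| ≤ 1 / 2) (m : ℕ) :
    ∀ (T : Tree V ℝ), T.depth ≤ m → (∀ x, |T.eval x| ≤ 1) → ∀ Z : Finset V → ℝ,
      (EE z (fun x => T.eval x * PZ z Z x)) ^ (2 * p) ≤ Psi p n m Z := by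
  have hn0 : 0 < n := by linarith
  have hpos : ∀ t : ℝ, 0 ≤ t ^ (2 * p) := fun t => by rw [pow_mul]; positivity
  have hleaf : ∀ (m : ℕ) (a : ℝ), |a| ≤ 1 → ∀ Z : Finset V → ℝ,
      (EE z (fun x => a * PZ z Z x)) ^ (2 * p) ≤ Psi p n m Z := by
    intro m a ha Z
    have h1 : EE z (fun x => a * PZ z Z x) = a * Z ∅ := by
      rw [← EE_PZ z Z]
      unfold EE
      rw [Finset.mul_sum]
      refine Finset.sum_congr rfl fun x _ => ?_
      ring
    rw [h1, mul_pow]
    have h2 : a ^ (2 * p) ≤ 1 := by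
      rw [pow_mul, ← sq_abs, ← pow_mul]
      exact pow_le_one₀ (abs_nonneg a) ha
    have h3 : Z ∅ ^ (2 * p) ≤ ∑ A : Finset V, (2 * 9 ^ p * n ^ (p - 1)) ^ A.card *
        (m.choose A.card : ℝ) * Z A ^ (2 * p) := by
      have := Finset.single_le_sum (f := fun A : Finset V => (2 * 9 ^ p * n ^ (p - 1)) ^ A.card *
        (m.choose A.card : ℝ) * Z A ^ (2 * p)) (fun A _ => by
          have := hpos (Z A)
          positivity) (Finset.mem_univ ∅)
      simpa using this
    have h4 : (1 : ℝ) ≤ (1 + 2 * 9 ^ p / n) ^ m := by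
      refine one_le_pow₀ ?_
      have : 0 ≤ 2 * 9 ^ p / n := by positivity
      linarith
    have h5 := hpos (Z ∅)
    unfold Psi
    calc a ^ (2 * p) * Z ∅ ^ (2 * p) ≤ 1 * Z ∅ ^ (2 * p) := by gcongr
      _ ≤ _ := by gcongr
  induction m with
  | zero =>
    intro T hT hT1 Z
    cases T with
    | leaf a =>
      simp only [Tree.eval]
      exact hleaf 0 a (by simpa [Tree.eval] using hT1 (fun _ => false)) Z
    | node v t₀ t₁ => simp [Tree.depth] at hT
  | succ m ih =>
    intro T hT hT1 Z
    cases T with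
    | leaf a =>
      simp only [Tree.eval]
      exact hleaf _ a (by simpa [Tree.eval] using hT1 (fun _ => false)) Z
    | node v t₀ t₁ =>
      have hd : max t₀.depth t₁.depth + 1 ≤ m + 1 := hT
      have hd0 : t₀.depth ≤ m := by have := le_max_left t₀.depth t₁.depth; omega
      have hd1 : t₁.depth ≤ m := by have := le_max_right t₀.depth t₁.depth; omega
      set tt : Bool → Tree V ℝ := fun b => (if b then t₁ else t₀) with htt
      have hsub : ∀ b, (EE z (fun x => ((tt b).fix (fixv v b)).eval x * PZ z (cond z v b Z) x)) ^ (2 * p)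
          ≤ Psi p n m (cond z v b Z) := by
        intro b
        refine ih _ ?_ ?_ _
        · refine le_trans (depth_fix_le _ _) ?_
          cases b
          · exact hd0
          · exact hd1
        · intro x
          rw [eval_fixv]
          have := hT1 (Function.update x v b)
          simp only [Tree.eval, Function.update_self] at this
          cases b
          · simpa [htt] using this
          · simpa [htt] using this
      have hE : EE z (fun x => (Tree.node v t₀ t₁).eval x * PZ z Z x) =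
          ∑ b, wt (z v) b * EE z (fun x => ((tt b).fix (fixv v b)).eval x * PZ z (cond z v b Z) x) := by
        rw [EE_update z v]
        refine Finset.sum_congr rfl fun b _ => ?_
        congr 2
        funext x
        rw [PZ_update, eval_fixv]
        congr 1
        simp only [Tree.eval, Function.update_self, htt]
        cases b <;> simp
      rw [hE]
      calc (∑ b, wt (z v) b * EE z (fun x => ((tt b).fix (fixv v b)).eval x * PZ z (cond z v b Z) x)) ^ (2 * p)
          ≤ ∑ b, wt (z v) b * (EE z (fun x => ((tt b).fix (fixv v b)).eval x *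
              PZ z (cond z v b Z) x)) ^ (2 * p) :=
            Real.pow_arith_mean_le_arith_mean_pow_of_even univ _ _ (fun b _ => wt_nonneg _ (hz v) b)
              (sum_wt _) (even_two_mul p)
        _ ≤ ∑ b, wt (z v) b * Psi p n m (cond z v b Z) := by
            refine Finset.sum_le_sum fun b _ => ?_
            exact mul_le_mul_of_nonneg_left (hsub b) (wt_nonneg _ (hz v) b)
        _ ≤ _ := Psi_step p hp n hn m z hz v Z

end induction_

end C1

/-- C1 -/
theorem l1k : L1k := by
  intro k p hp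
  refine ⟨Real.exp (2 * 9 ^ p) * (2 * 9 ^ p) ^ k, by positivity, ?_⟩
  intro V _ T d hd hT c hc x'
  set z : V → ℝ := fun v => sgn (x' v) / 2 with hzdef
  have hz : ∀ v, |z v| ≤ 1 / 2 := by
    intro v
    simp only [hzdef]
    cases x' v <;> simp [sgn, abs_div]
  have hz1 : ∀ v, z v ^ 2 ≠ 1 := by
    intro v h
    have := hz v
    have h2 : |z v| ^ 2 ≤ (1 / 2) ^ 2 := by gcongr
    rw [sq_abs, h] at h2
    norm_num at h2
  set Z : Finset V → ℝ := fun S => if S.card = k then c S else 0 with hZ
  have h1 : ∑ S ∈ univ.filter (fun S : Finset V => S.card = k), c S * dz (fun x => T.eval x) S z =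
      C1.EE z (fun x => T.eval x * C1.PZ z Z x) := by
    rw [Finset.sum_filter]
    unfold C1.PZ C1.EE
    simp only [Finset.mul_sum]
    rw [Finset.sum_comm]
    refine Finset.sum_congr rfl fun S _ => ?_
    simp only [hZ]
    split_ifs with h
    · rw [C1.dz_eq z hz1]
      unfold C1.EE
      rw [Finset.mul_sum]
      refine Finset.sum_congr rfl fun x _ => ?_
      ring
    · simp
  rw [h1, (even_two_mul p).pow_abs]
  have hcpos : ∀ t : ℝ, 0 ≤ t ^ (2 * p) := fun t => by rw [pow_mul]; positivity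
  have hsum : ∀ (D : ℝ) (m : ℕ), 0 ≤ D →
      ∑ A : Finset V, D ^ A.card * (m.choose A.card : ℝ) * Z A ^ (2 * p) ≤
        D ^ k * (m.choose k : ℝ) * (Fintype.card V : ℝ) ^ k := by
    intro D m hD
    have e1 : ∀ A : Finset V, D ^ A.card * (m.choose A.card : ℝ) * Z A ^ (2 * p) ≤
        if A.card = k then D ^ k * (m.choose k : ℝ) else 0 := by
      intro A
      simp only [hZ]
      split_ifs with h
      · rw [h]
        have : c A ^ (2 * p) ≤ 1 := by
          rw [pow_mul, ← sq_abs, ← pow_mul]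
          exact pow_le_one₀ (abs_nonneg _) (hc A)
        have h0 : 0 ≤ D ^ k * (m.choose k : ℝ) := by positivity
        nlinarith
      · rw [zero_pow (by omega), mul_zero]
    refine le_trans (Finset.sum_le_sum fun A _ => e1 A) ?_
    rw [← Finset.sum_filter, Finset.sum_const, nsmul_eq_mul]
    have e2 : (univ.filter (fun A : Finset V => A.card = k)).card = (Fintype.card V).choose k := by
      rw [← Finset.card_univ (α := V), ← Finset.card_powersetCard]
      congr 1
      ext A
      simp [Finset.mem_powersetCard]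
    rw [e2]
    have e3 : ((Fintype.card V).choose k : ℝ) ≤ (Fintype.card V : ℝ) ^ k := by
      exact_mod_cast Nat.choose_le_pow _ _
    calc ((Fintype.card V).choose k : ℝ) * (D ^ k * (m.choose k : ℝ)) ≤
        (Fintype.card V : ℝ) ^ k * (D ^ k * (m.choose k : ℝ)) := by gcongr
      _ = _ := by ring
  rcases Nat.eq_zero_or_pos d with h0 | h0
  · subst h0
    have h2 := C1.main_bound p hp 1 (le_refl _) z hz 0 T hd hT Z
    refine le_trans h2 ?_
    unfold C1.Psi
    rw [pow_zero, one_mul]
    refine le_trans (hsum _ 0 (by positivity)) ?_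
    have hexp : 1 ≤ Real.exp (2 * 9 ^ p) := Real.one_le_exp (by positivity)
    rcases Nat.eq_zero_or_pos k with hk | hk
    · subst hk
      simp only [pow_zero, Nat.choose_self, Nat.cast_one, zero_mul, mul_one]
      exact hexp
    · rw [Nat.choose_eq_zero_of_lt hk]
      have : k * p ≠ 0 := Nat.mul_ne_zero (by omega) (by omega)
      simp [this]
  · have hd1 : (1 : ℝ) ≤ d := by exact_mod_cast h0
    have h2 := C1.main_bound p hp d hd1 z hz d T hd hT Z
    refine le_trans h2 ?_
    unfold C1.Psi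
    have h3 := hsum (2 * 9 ^ p * (d : ℝ) ^ (p - 1)) d (by positivity)
    have h4 : (1 + 2 * 9 ^ p / (d : ℝ)) ^ d ≤ Real.exp (2 * 9 ^ p) := by
      have h5 : 1 + 2 * 9 ^ p / (d : ℝ) ≤ Real.exp (2 * 9 ^ p / (d : ℝ)) := by
        have := Real.add_one_le_exp (2 * 9 ^ p / (d : ℝ)); linarith
      calc (1 + 2 * 9 ^ p / (d : ℝ)) ^ d ≤ (Real.exp (2 * 9 ^ p / (d : ℝ))) ^ d := by gcongr
        _ = Real.exp (2 * 9 ^ p) := by
            rw [← Real.exp_nat_mul]
            congr 1
            field_simp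
    have h6 : (d.choose k : ℝ) ≤ (d : ℝ) ^ k := by exact_mod_cast Nat.choose_le_pow _ _
    calc (1 + 2 * 9 ^ p / (d : ℝ)) ^ d * ∑ A : Finset V, (2 * 9 ^ p * (d : ℝ) ^ (p - 1)) ^ A.card *
          (d.choose A.card : ℝ) * Z A ^ (2 * p)
        ≤ Real.exp (2 * 9 ^ p) * ((2 * 9 ^ p * (d : ℝ) ^ (p - 1)) ^ k * (d : ℝ) ^ k *
            (Fintype.card V : ℝ) ^ k) := by
          gcongr
          · refine Finset.sum_nonneg fun A _ => ?_
            have := hcpos (Z A)
            positivity
          · refine le_trans h3 ?_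
            gcongr
      _ = Real.exp (2 * 9 ^ p) * (2 * 9 ^ p) ^ k * ((d : ℝ) ^ ((p - 1) * k) * (d : ℝ) ^ k) *
            (Fintype.card V : ℝ) ^ k := by
          rw [mul_pow (2 * 9 ^ p) ((d : ℝ) ^ (p - 1)) k, ← pow_mul]
          ring
      _ = _ := by
          rw [← pow_add]
          have : (p - 1) * k + k = k * p := by
            obtain ⟨q, rfl⟩ : ∃ q, p = q + 1 := ⟨p - 1, by omega⟩
            simp only [Nat.add_sub_cancel]
            ring
          rw [this]

end Crest.Agent.R350
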