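import Crest.Agent.R350.C2b

/-!
# Row 350 (S0554), task C2: the Gaussian pair
-/

set_option autoImplicit false

open Finset Classical MeasureTheory ProbabilityTheory

namespace Crest.Agent.R350

namespace C2

/-! ## orthogonality of the Hadamard matrix -/

theorem chi_comm {s : ℕ} (a b : B s) : chi a b = chi b a := by
  unfold chi
  refine Finset.prod_congr rfl fun i _ => ?_
  rw [Bool.and_comm]

theorem chi_orth {s : ℕ} (a a' : B s) :
    ∑ b, chi a b * chi a' b = if a = a' then 2 ^ s else 0 := by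
  have h1 : ∑ b, chi a b * chi a' b =
      ∏ i : Fin s, ∑ t : Bool, (if a i && t then (-1 : ℝ) else 1) * (if a' i && t then (-1 : ℝ) else 1) := by
    rw [Fintype.prod_sum]
    refine Finset.sum_congr rfl fun b _ => ?_
    unfold chi
    rw [Finset.prod_mul_distrib]
  rw [h1]
  split_ifs with h
  · subst h
    have : ∀ i : Fin s, ∑ t : Bool, (if a i && t then (-1 : ℝ) else 1) * (if a i && t then (-1 : ℝ) else 1) = 2 := by
      intro i
      rw [Fintype.sum_bool]
      cases a i <;> norm_num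
    rw [Finset.prod_congr rfl (fun i _ => this i)]
    simp
  · have : ∃ i, a i ≠ a' i := by
      by_contra hc
      push Not at hc
      exact h (funext hc)
    obtain ⟨i, hi⟩ := this
    refine Finset.prod_eq_zero (Finset.mem_univ i) ?_
    rw [Fintype.sum_bool]
    cases h1 : a i <;> cases h2 : a' i <;> simp_all

theorem Had_comm {s : ℕ} (a b : B s) : Had a b = Had b a := by
  unfold Had; rw [chi_comm]

theorem Had_orth {s : ℕ} (a a' : B s) :
    ∑ b, Had a b * Had a' b = if a = a' then 1 else 0 := by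
  have h1 : ∑ b, Had a b * Had a' b = (∑ b, chi a b * chi a' b) / 2 ^ s := by
    rw [Finset.sum_div]
    refine Finset.sum_congr rfl fun b _ => ?_
    unfold Had
    rw [div_mul_div_comm, Real.mul_self_sqrt (by positivity)]
  rw [h1, chi_orth]
  split_ifs
  · exact div_self (by positivity)
  · simp

/-! ## rotation invariance -/

section rot
variable {ι : Type} [Fintype ι] [DecidableEq ι]

theorem map_rot [Nonempty ι] (H : ι → ι → ℝ)
    (hH : ∀ b b', ∑ a, H a b * H a b' = if b = b' then 1 else 0) :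
    (gm ι).map (fun g a => ∑ b, H a b * g b) = gm ι := by
  set v : ι → EuclideanSpace ℝ ι := fun b => WithLp.toLp 2 (fun a => H a b) with hv
  have hon : Orthonormal ℝ v := by
    rw [orthonormal_iff_ite]
    intro i j
    rw [PiLp.inner_apply]
    simp only [hv]
    rw [← hH i j]
    refine Finset.sum_congr rfl fun a _ => ?_
    simp [mul_comm]
  have hcard : Fintype.card ι = Module.finrank ℝ (EuclideanSpace ℝ ι) := by simp
  set bb := (basisOfOrthonormalOfCardEqFinrank hon hcard).toOrthonormalBasis (by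
    rw [coe_basisOfOrthonormalOfCardEqFinrank]; exact hon) with hbb
  have hbv : ∀ i, bb i = v i := by
    intro i
    rw [hbb, Module.Basis.coe_toOrthonormalBasis, coe_basisOfOrthonormalOfCardEqFinrank]
  have h1 := map_pi_eq_stdGaussian (ι := ι)
  rw [stdGaussian_eq_map_pi_orthonormalBasis bb] at h1
  have h2 : (fun x : ι → ℝ => ∑ i, x i • bb i) =
      (WithLp.toLp 2) ∘ (fun (g : ι → ℝ) (a : ι) => ∑ b, H a b * g b) := by
    funext x
    ext a
    simp only [hbv, hv, Function.comp]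
    simp [mul_comm]
  rw [h2] at h1
  have hm1 : Measurable (fun (g : ι → ℝ) (a : ι) => ∑ b, H a b * g b) := by fun_prop
  have hm2 : Measurable (WithLp.toLp 2 : (ι → ℝ) → EuclideanSpace ℝ ι) := by fun_prop
  have hm3 : Measurable (WithLp.ofLp : EuclideanSpace ℝ ι → (ι → ℝ)) := by fun_prop
  rw [← Measure.map_map hm2 hm1] at h1
  have h3 := congrArg (Measure.map (WithLp.ofLp : EuclideanSpace ℝ ι → (ι → ℝ))) h1
  rw [Measure.map_map hm3 hm2, Measure.map_map hm3 hm2] at h3
  have h4 : (WithLp.ofLp : EuclideanSpace ℝ ι → (ι → ℝ)) ∘ WithLp.toLp 2 = id := rfl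
  rw [h4, Measure.map_id, Measure.map_id] at h3
  exact h3.symm

end rot

/-! ## the bound -/

section bound
variable {ι : Type} [Fintype ι]

theorem max_bound (u : ℝ) (r : ℕ) (hr : 1 ≤ r) : ((|1 + u| + |1 - u|) / 2) ^ 2 ≤ 1 + u ^ (2 * r) := by
  rcases le_or_gt (u ^ 2) 1 with h | h
  · have h1 : |u| ≤ 1 := by
      rw [← sq_abs] at h
      nlinarith [abs_nonneg u]
    obtain ⟨h2, h3⟩ := abs_le.mp h1
    rw [abs_of_nonneg (by linarith), abs_of_nonneg (by linarith)]
    have : 0 ≤ u ^ (2 * r) := by rw [pow_mul]; positivity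
    nlinarith
  · have h1 : ((|1 + u| + |1 - u|) / 2) ^ 2 ≤ u ^ 2 := by
      rcases le_or_gt 0 u with hu | hu
      · have : 1 < u := by nlinarith
        rw [abs_of_nonneg (by linarith), abs_of_neg (by linarith)]
        nlinarith
      · have : u < -1 := by nlinarith
        rw [abs_of_neg (by linarith), abs_of_nonneg (by linarith)]
        nlinarith
    have h2 : u ^ 2 ≤ u ^ (2 * r) := by
      rw [pow_mul]
      exact le_self_pow₀ h.le (by omega)
    linarith

theorem sum_prod_abs [DecidableEq ι] (u : ι → ℝ) :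
    ∑ y : ι → Bool, ∏ b, |1 + sgn (y b) * u b| = ∏ b, (|1 + u b| + |1 - u b|) := by
  rw [← Fintype.prod_sum (fun b t => |1 + sgn t * u b|)]
  refine Finset.prod_congr rfl fun b _ => ?_
  rw [Fintype.sum_bool]
  simp only [sgn, if_true, Bool.false_eq_true, if_false, one_mul, neg_one_mul]
  rw [add_comm, ← sub_eq_add_neg]

theorem integrable_Phi (d : ℝ) (r : ℕ) :
    Integrable (fun g : ι → ℝ => ∏ b, (1 + (d * g b) ^ (2 * r))) (gm ι) := by
  refine Integrable.fintype_prod (f := fun (_ : ι) (x : ℝ) => 1 + (d * x) ^ (2 * r)) (fun _ => ?_)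
  refine (integrable_const 1).add ?_
  simp only [mul_pow]
  exact (integrable_pow _).const_mul _

theorem integral_Phi (d : ℝ) (r : ℕ) :
    ∫ g : ι → ℝ, ∏ b, (1 + (d * g b) ^ (2 * r)) ∂(gm ι) ≤
      Real.exp (Fintype.card ι * ((2 * r).factorial : ℝ) * d ^ (2 * r)) := by
  rw [integral_fintype_prod_eq_prod (fun (_ : ι) (x : ℝ) => 1 + (d * x) ^ (2 * r))]
  have h1 : ∫ x, (1 + (d * x) ^ (2 * r)) ∂γ = 1 + d ^ (2 * r) * mom (2 * r) := by
    simp only [mul_pow]
    rw [integral_add (integrable_const 1) ((integrable_pow _).const_mul _), integral_const_mul]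
    simp [mom]
  simp only [h1]
  rw [Finset.prod_const, Finset.card_univ]
  have hd : 0 ≤ d ^ (2 * r) := by rw [pow_mul]; positivity
  have h2 := (mom_le (2 * r)).2
  have h3 := (mom_le (2 * r)).1
  calc (1 + d ^ (2 * r) * mom (2 * r)) ^ Fintype.card ι
      ≤ (Real.exp (((2 * r).factorial : ℝ) * d ^ (2 * r))) ^ Fintype.card ι := by
        gcongr
        have h4 := Real.add_one_le_exp (((2 * r).factorial : ℝ) * d ^ (2 * r))
        nlinarith
    _ = _ := by
        rw [← Real.exp_nat_mul]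
        congr 1
        ring

end bound

section final
variable {s : ℕ}

/-- the polynomial whose expectation is the pair density -/
noncomputable def Pyw (δ₁ δ₂ : ℝ) (y w : B s → Bool) : MvPolynomial (B s) ℝ :=
  (∏ b, (1 + MvPolynomial.C (δ₁ * sgn (y b)) * MvPolynomial.X b)) *
    ∏ a, (1 + MvPolynomial.C (δ₂ * sgn (w a)) * Lf Had a)

theorem hpair_eq (δ₁ δ₂ : ℝ) (y w : B s → Bool) :
    hpair (Wm Had) δ₁ δ₂ y w = E (Pyw δ₁ δ₂ y w) := by
  have h1 : Pyw δ₁ δ₂ y w = ∑ S : Finset (B s), ∑ S' : Finset (B s),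
      MvPolynomial.C (δ₁ ^ S.card * δ₂ ^ S'.card * chr S y * chr S' w) * Qp Had S S' := by
    unfold Pyw
    rw [Finset.prod_one_add, Finset.prod_one_add, Finset.powerset_univ, Finset.sum_mul_sum]
    refine Finset.sum_congr rfl fun S _ => Finset.sum_congr rfl fun S' _ => ?_
    have e : ∀ (T : Finset (B s)) (d : ℝ) (y : B s → Bool) (f : B s → MvPolynomial (B s) ℝ),
        ∏ i ∈ T, MvPolynomial.C (d * sgn (y i)) * f i =
          MvPolynomial.C (d ^ T.card * chr T y) * ∏ i ∈ T, f i := by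
      intro T d y f
      rw [Finset.prod_mul_distrib, ← map_prod, Finset.prod_mul_distrib, Finset.prod_const]
      rfl
    rw [e, e]
    unfold Qp
    rw [show δ₁ ^ S.card * δ₂ ^ S'.card * chr S y * chr S' w =
      (δ₁ ^ S.card * chr S y) * (δ₂ ^ S'.card * chr S' w) by ring,
      map_mul MvPolynomial.C (δ₁ ^ S.card * chr S y) (δ₂ ^ S'.card * chr S' w)]
    exact mul_mul_mul_comm _ _ _ _
  rw [h1, E_sum]
  unfold hpair
  refine Finset.sum_congr rfl fun S _ => ?_
  rw [E_sum]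
  refine Finset.sum_congr rfl fun S' _ => ?_
  rw [E_C_mul]
  unfold Wm
  ring

theorem eval_Pyw (δ₁ δ₂ : ℝ) (y w : B s → Bool) (g : B s → ℝ) :
    MvPolynomial.eval g (Pyw δ₁ δ₂ y w) =
      (∏ b, (1 + sgn (y b) * (δ₁ * g b))) * ∏ a, (1 + sgn (w a) * (δ₂ * ∑ b, Had a b * g b)) := by
  unfold Pyw Lf
  simp only [map_mul, map_prod, map_add, map_one, MvPolynomial.eval_C, MvPolynomial.eval_X, map_sum]
  congr 1
  · refine Finset.prod_congr rfl fun b _ => ?_
    ring
  · refine Finset.prod_congr rfl fun a _ => ?_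
    ring

theorem L1_bound (δ₁ δ₂ : ℝ) (r : ℕ) (h1 : 0 ≤ δ₁) (h2 : 0 ≤ δ₂) (hr : 1 ≤ r) :
    L1p (hpair (Wm (Had (s := s))) δ₁ δ₂) ≤
      Real.exp (2 ^ s * ((2 * r).factorial : ℝ) * (δ₁ ^ (2 * r) + δ₂ ^ (2 * r))) := by
  set rot : (B s → ℝ) → (B s → ℝ) := fun g a => ∑ b, Had a b * g b with hrot
  have hmap : (gm (B s)).map rot = gm (B s) := by
    refine map_rot Had (fun b b' => ?_)
    rw [← Had_orth b b']
    refine Finset.sum_congr rfl fun a _ => ?_
    rw [Had_comm a b, Had_comm a b']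
  have hmeas : Measurable rot := by
    simp only [hrot]
    fun_prop
  have hcard : (Fintype.card (B s) : ℝ) = 2 ^ s := by simp [B]
  have hcard' : Fintype.card (B s) = 2 ^ s := by simp [B]
  -- pointwise
  have hpt : ∀ g : B s → ℝ,
      (∑ y : B s → Bool, ∑ w : B s → Bool, |MvPolynomial.eval g (Pyw δ₁ δ₂ y w)|) / (2 ^ (2 ^ s)) ^ 2 ≤
        (∏ b, (1 + (δ₁ * g b) ^ (2 * r)) + ∏ a, (1 + (δ₂ * rot g a) ^ (2 * r))) / 2 := by
    intro g
    have e1 : ∑ y : B s → Bool, ∑ w : B s → Bool, |MvPolynomial.eval g (Pyw δ₁ δ₂ y w)| =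
        (∏ b, (|1 + δ₁ * g b| + |1 - δ₁ * g b|)) * ∏ a, (|1 + δ₂ * rot g a| + |1 - δ₂ * rot g a|) := by
      rw [← sum_prod_abs (fun b => δ₁ * g b), ← sum_prod_abs (fun a => δ₂ * rot g a),
        Finset.sum_mul_sum]
      refine Finset.sum_congr rfl fun y _ => Finset.sum_congr rfl fun w _ => ?_
      rw [eval_Pyw, abs_mul, Finset.abs_prod, Finset.abs_prod]
    have e2 : ∀ f : B s → ℝ, (∏ b, f b) / 2 ^ (2 ^ s) = ∏ b, (f b / 2) := by
      intro f
      rw [Finset.prod_div_distrib, Finset.prod_const, Finset.card_univ, hcard']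
    rw [e1, sq, mul_div_mul_comm, e2, e2]
    have e3 : ∀ f : B s → ℝ, (∏ b, ((|1 + f b| + |1 - f b|) / 2)) ^ 2 ≤ ∏ b, (1 + f b ^ (2 * r)) := by
      intro f
      rw [← Finset.prod_pow]
      refine Finset.prod_le_prod (fun b _ => by positivity) (fun b _ => max_bound (f b) r hr)
    have h3 := e3 (fun b => δ₁ * g b)
    have h4 := e3 (fun a => δ₂ * rot g a)
    nlinarith [sq_nonneg ((∏ b, ((|1 + δ₁ * g b| + |1 - δ₁ * g b|) / 2)) -
      ∏ a, ((|1 + δ₂ * rot g a| + |1 - δ₂ * rot g a|) / 2))]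
  have hint1 := integrable_Phi (ι := B s) δ₁ r
  have hint2 : Integrable (fun g : B s → ℝ => ∏ a, (1 + (δ₂ * rot g a) ^ (2 * r))) (gm (B s)) := by
    have h3 := integrable_Phi (ι := B s) δ₂ r
    rw [← hmap] at h3
    exact h3.comp_measurable hmeas
  have hI2 : ∫ g : B s → ℝ, ∏ a, (1 + (δ₂ * rot g a) ^ (2 * r)) ∂(gm (B s)) ≤
      Real.exp (2 ^ s * ((2 * r).factorial : ℝ) * δ₂ ^ (2 * r)) := by
    have h3 := integral_Phi (ι := B s) δ₂ r
    rw [hcard] at h3
    have h4 : ∫ g : B s → ℝ, ∏ b, (1 + (δ₂ * g b) ^ (2 * r)) ∂((gm (B s)).map rot) =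
        ∫ g : B s → ℝ, ∏ a, (1 + (δ₂ * rot g a) ^ (2 * r)) ∂(gm (B s)) := by
      refine integral_map hmeas.aemeasurable ?_
      rw [hmap]
      exact (integrable_Phi (ι := B s) δ₂ r).aestronglyMeasurable
    rw [hmap] at h4
    rw [← h4]
    exact h3
  have hI1 := integral_Phi (ι := B s) δ₁ r
  rw [hcard] at hI1
  have habs : ∀ y w : B s → Bool, |hpair (Wm Had) δ₁ δ₂ y w| ≤
      ∫ g, |MvPolynomial.eval g (Pyw δ₁ δ₂ y w)| ∂(gm (B s)) := by
    intro y w
    rw [hpair_eq]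
    unfold E
    exact abs_integral_le_integral_abs
  have hintabs : ∀ y w : B s → Bool,
      Integrable (fun g => |MvPolynomial.eval g (Pyw δ₁ δ₂ y w)|) (gm (B s)) := fun y w =>
    (integrable_eval _).abs
  have hsum : (∑ y : B s → Bool, ∑ w : B s → Bool,
      ∫ g, |MvPolynomial.eval g (Pyw δ₁ δ₂ y w)| ∂(gm (B s))) / (2 ^ (2 ^ s)) ^ 2 =
      ∫ g, (∑ y : B s → Bool, ∑ w : B s → Bool, |MvPolynomial.eval g (Pyw δ₁ δ₂ y w)|) /
        (2 ^ (2 ^ s)) ^ 2 ∂(gm (B s)) := by
    rw [integral_div, integral_finsetSum]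
    · congr 1
      refine Finset.sum_congr rfl fun y _ => ?_
      rw [integral_finsetSum]
      intro w _
      exact hintabs y w
    · intro y _
      exact integrable_finsetSum _ (fun w _ => hintabs y w)
  have hpos2 : (0 : ℝ) < (2 ^ (2 ^ s)) ^ 2 := by positivity
  set A1 : ℝ := 2 ^ s * ((2 * r).factorial : ℝ) * δ₁ ^ (2 * r) with hA1
  set A2 : ℝ := 2 ^ s * ((2 * r).factorial : ℝ) * δ₂ ^ (2 * r) with hA2
  have hA1' : 0 ≤ A1 := by positivity
  have hA2' : 0 ≤ A2 := by positivity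
  calc L1p (hpair (Wm Had) δ₁ δ₂)
      = (∑ y, ∑ w, |hpair (Wm Had) δ₁ δ₂ y w|) / (2 ^ (2 ^ s)) ^ 2 := rfl
    _ ≤ (∑ y : B s → Bool, ∑ w : B s → Bool,
          ∫ g, |MvPolynomial.eval g (Pyw δ₁ δ₂ y w)| ∂(gm (B s))) / (2 ^ (2 ^ s)) ^ 2 := by
        gcongr with y _ w _
        exact habs y w
    _ = ∫ g, (∑ y : B s → Bool, ∑ w : B s → Bool, |MvPolynomial.eval g (Pyw δ₁ δ₂ y w)|) /
          (2 ^ (2 ^ s)) ^ 2 ∂(gm (B s)) := hsum
    _ ≤ ∫ g, (∏ b, (1 + (δ₁ * g b) ^ (2 * r)) + ∏ a, (1 + (δ₂ * rot g a) ^ (2 * r))) / 2 ∂(gm (B s)) := by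
        refine integral_mono ?_ ((hint1.add hint2).div_const 2) hpt
        refine Integrable.div_const ?_ _
        exact integrable_finsetSum _ (fun y _ => integrable_finsetSum _ (fun w _ => hintabs y w))
    _ = (∫ g, ∏ b, (1 + (δ₁ * g b) ^ (2 * r)) ∂(gm (B s)) +
          ∫ g, ∏ a, (1 + (δ₂ * rot g a) ^ (2 * r)) ∂(gm (B s))) / 2 := by
        rw [integral_div, integral_add hint1 hint2]
    _ ≤ (Real.exp A1 + Real.exp A2) / 2 := by gcongr
    _ ≤ (Real.exp (A1 + A2) + Real.exp (A1 + A2)) / 2 := by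
        gcongr <;> linarith
    _ = Real.exp (A1 + A2) := by ring
    _ = _ := by
        congr 1
        rw [hA1, hA2]
        ring

end final

end C2

/-- C2 -/
theorem gaussPair : GaussPair := by
  intro s
  refine ⟨C2.Wm Had, ⟨C2.Wm_empty Had, ?_, ?_⟩, ?_⟩
  · intro S S' a ha
    exact C2.Wm_lap1 Had C2.Had_orth S S' a ha
  · intro S S' b hb
    exact C2.Wm_lap2 Had S S' b hb
  · intro δ₁ δ₂ r h1 h2 hr
    exact C2.L1_bound δ₁ δ₂ r h1 h2 hr

end Crest.Agent.R350
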