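import Crest.Agent.R350.Defs

/-!
# Row 350 (S0554), task C2, part a: moments of the Gaussian
-/

set_option autoImplicit false

open Finset Classical MeasureTheory ProbabilityTheory

namespace Crest.Agent.R350

namespace C2

/-- the standard Gaussian on the line -/
noncomputable abbrev γ : Measure ℝ := gaussianReal 0 1

theorem integrable_pow (n : ℕ) : Integrable (fun x : ℝ => x ^ n) γ := by
  rcases Nat.eq_zero_or_pos n with h | h
  · subst h; simp
  · have h1 := memLp_id_gaussianReal (μ := 0) (v := 1) (n : NNReal)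
    have h2 := h1.integrable_norm_rpow (by simp; omega) (by simp)
    have h3 : Integrable (fun x : ℝ => ‖x ^ n‖) γ := by
      refine h2.congr (Filter.Eventually.of_forall fun x => ?_)
      simp
    exact (integrable_norm_iff (by fun_prop)).mp h3

/-- moments -/
noncomputable def mom (n : ℕ) : ℝ := ∫ x, x ^ n ∂γ

theorem mom_zero : mom 0 = 1 := by simp [mom]

theorem hasDerivAt_pdf (x : ℝ) :
    HasDerivAt (gaussianPDFReal 0 1) (-x * gaussianPDFReal 0 1 x) x := by
  rw [gaussianPDFReal_def]
  have h1 : HasDerivAt (fun x : ℝ => -(x - 0) ^ 2 / (2 * ((1 : NNReal) : ℝ))) (-x) x := by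
    have h2 : HasDerivAt (fun x : ℝ => (x - 0) ^ 2) (2 * x) x := by
      have := ((hasDerivAt_id x).sub_const 0).fun_pow 2
      simpa using this
    have h3 := (h2.fun_neg).div_const (2 * ((1 : NNReal) : ℝ))
    exact h3.congr_deriv (by simp; ring)
  have h4 := (h1.exp).const_mul (√(2 * Real.pi * ((1 : NNReal) : ℝ)))⁻¹
  exact h4.congr_deriv (by ring)

theorem integrable_pdf_mul (n : ℕ) : Integrable (fun x : ℝ => gaussianPDFReal 0 1 x * x ^ n) := by
  have h1 := integrable_pow n
  rw [γ, gaussianReal_of_var_ne_zero 0 (by simp : (1 : NNReal) ≠ 0)] at h1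
  rw [integrable_withDensity_iff_integrable_smul' (measurable_gaussianPDF 0 1)
    (Filter.Eventually.of_forall fun x => gaussianPDF_lt_top)] at h1
  refine h1.congr (Filter.Eventually.of_forall fun x => ?_)
  simp [toReal_gaussianPDF]

theorem mom_succ (n : ℕ) : mom (n + 1) = n * mom (n - 1) := by
  have hder : ∀ x : ℝ, HasDerivAt (fun x => gaussianPDFReal 0 1 x * x ^ n)
      (n * (gaussianPDFReal 0 1 x * x ^ (n - 1)) - gaussianPDFReal 0 1 x * x ^ (n + 1)) x := by
    intro x
    have h1 := (hasDerivAt_pdf x).fun_mul (hasDerivAt_pow n x)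
    exact h1.congr_deriv (by ring)
  have hint : Integrable (fun x : ℝ => n * (gaussianPDFReal 0 1 x * x ^ (n - 1)) -
      gaussianPDFReal 0 1 x * x ^ (n + 1)) :=
    ((integrable_pdf_mul (n - 1)).const_mul _).sub (integrable_pdf_mul (n + 1))
  have h0 := integral_eq_zero_of_hasDerivAt_of_integrable hder hint (integrable_pdf_mul n)
  rw [integral_sub ((integrable_pdf_mul (n - 1)).const_mul _) (integrable_pdf_mul (n + 1)),
    integral_const_mul] at h0
  have h2 : ∀ m : ℕ, mom m = ∫ x, gaussianPDFReal 0 1 x * x ^ m := by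
    intro m
    unfold mom γ
    rw [integral_gaussianReal_eq_integral_smul (by simp)]
    rfl
  rw [h2, h2]
  linarith

theorem mom_le (n : ℕ) : 0 ≤ mom n ∧ mom n ≤ n.factorial := by
  induction n using Nat.strong_induction_on with
  | _ n ih =>
    rcases Nat.eq_zero_or_pos n with h | h
    · subst h; rw [mom_zero]; simp
    · obtain ⟨m, rfl⟩ : ∃ m, n = m + 1 := ⟨n - 1, by omega⟩
      rw [mom_succ]
      obtain ⟨h1, h2⟩ := ih (m - 1) (by omega)
      refine ⟨by positivity, ?_⟩
      have h3 : ((m - 1).factorial : ℝ) ≤ m.factorial := by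
        exact_mod_cast Nat.factorial_le (by omega)
      rw [Nat.factorial_succ]
      push_cast
      calc (m : ℝ) * mom (m - 1) ≤ m * m.factorial := by gcongr; linarith
        _ ≤ (m + 1) * m.factorial := by gcongr; linarith

end C2

end Crest.Agent.R350
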