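import Crest.Agent.R350.C2a

/-!
# Row 350 (S0554), task C2, part b: Stein's identity for polynomials of a Gaussian vector
-/

set_option autoImplicit false

open Finset Classical MeasureTheory ProbabilityTheory

namespace Crest.Agent.R350

namespace C2

section
variable {ι : Type} [Fintype ι] [DecidableEq ι]

/-- the standard Gaussian vector -/
noncomputable abbrev gm (ι : Type) [Fintype ι] : Measure (ι → ℝ) := Measure.pi (fun _ : ι => γ)

omit [DecidableEq ι] in
theorem integrable_monomial (α : ι → ℕ) : Integrable (fun g : ι → ℝ => ∏ i, g i ^ α i) (gm ι) :=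
  Integrable.fintype_prod (fun i => integrable_pow (α i))

omit [DecidableEq ι] in
theorem integral_monomial (α : ι → ℕ) : ∫ g, ∏ i, g i ^ α i ∂(gm ι) = ∏ i, mom (α i) :=
  integral_fintype_prod_eq_prod (fun i x => x ^ α i)

omit [DecidableEq ι] in
theorem eval_mono (α : ι →₀ ℕ) (a : ℝ) (g : ι → ℝ) :
    MvPolynomial.eval g (MvPolynomial.monomial α a) = a * ∏ i, g i ^ α i := by
  rw [MvPolynomial.eval_monomial, Finsupp.prod_fintype _ _ (by simp)]

theorem integrable_eval (p : MvPolynomial ι ℝ) :
    Integrable (fun g => MvPolynomial.eval g p) (gm ι) := by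
  induction p using MvPolynomial.induction_on' with
  | monomial α a =>
    simp only [eval_mono]
    exact (integrable_monomial α).const_mul a
  | add p q hp hq =>
    simp only [map_add]
    exact hp.add hq

/-- expectation of a polynomial -/
noncomputable def E (p : MvPolynomial ι ℝ) : ℝ := ∫ g, MvPolynomial.eval g p ∂(gm ι)

theorem E_add (p q : MvPolynomial ι ℝ) : E (p + q) = E p + E q := by
  unfold E
  simp only [map_add]
  exact integral_add (integrable_eval p) (integrable_eval q)

omit [DecidableEq ι] in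
theorem E_C_mul (a : ℝ) (p : MvPolynomial ι ℝ) : E (MvPolynomial.C a * p) = a * E p := by
  unfold E
  simp only [map_mul, MvPolynomial.eval_C]
  exact integral_const_mul _ _

omit [DecidableEq ι] in
theorem E_zero : E (0 : MvPolynomial ι ℝ) = 0 := by simp [E]

omit [DecidableEq ι] in
theorem E_one : E (1 : MvPolynomial ι ℝ) = 1 := by simp [E]

theorem E_sum {κ : Type} (s : Finset κ) (f : κ → MvPolynomial ι ℝ) :
    E (∑ i ∈ s, f i) = ∑ i ∈ s, E (f i) := by
  induction s using Finset.induction_on with
  | empty => simp [E_zero]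
  | insert a s ha ih => rw [Finset.sum_insert ha, Finset.sum_insert ha, E_add, ih]

theorem E_monomial (α : ι →₀ ℕ) (a : ℝ) :
    E (MvPolynomial.monomial α a) = a * ∏ i, mom (α i) := by
  unfold E
  simp only [eval_mono]
  rw [integral_const_mul, integral_monomial]

/-- Stein's identity -/
theorem stein (b : ι) (p : MvPolynomial ι ℝ) :
    E (MvPolynomial.X b * p) = E (MvPolynomial.pderiv b p) := by
  induction p using MvPolynomial.induction_on' with
  | monomial α a =>
    rw [MvPolynomial.pderiv_monomial, MvPolynomial.X, MvPolynomial.monomial_mul, one_mul,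
      E_monomial, E_monomial, ← Finset.mul_prod_erase univ _ (Finset.mem_univ b),
      ← Finset.mul_prod_erase univ (fun i => mom ((α - Finsupp.single b 1 : ι →₀ ℕ) i))
        (Finset.mem_univ b)]
    have e1 : ∏ i ∈ univ.erase b, mom ((Finsupp.single b 1 + α : ι →₀ ℕ) i) = ∏ i ∈ univ.erase b, mom (α i) := by
      refine Finset.prod_congr rfl fun i hi => ?_
      have hne : b ≠ i := (Finset.ne_of_mem_erase hi).symm
      rw [Finsupp.add_apply, Finsupp.single_eq_of_ne' hne, zero_add]
    have e2 : ∏ i ∈ univ.erase b, mom ((α - Finsupp.single b 1 : ι →₀ ℕ) i) = ∏ i ∈ univ.erase b, mom (α i) := by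
      refine Finset.prod_congr rfl fun i hi => ?_
      have hne : b ≠ i := (Finset.ne_of_mem_erase hi).symm
      rw [Finsupp.tsub_apply, Finsupp.single_eq_of_ne' hne, Nat.sub_zero]
    rw [e1, e2, Finsupp.add_apply, Finsupp.tsub_apply, Finsupp.single_eq_same, add_comm 1 (α b),
      mom_succ]
    ring
  | add p q hp hq =>
    rw [mul_add, E_add, hp, hq, map_add, E_add]

omit [Fintype ι] [DecidableEq ι] in
theorem pderiv_prod {κ : Type} [DecidableEq κ] (b : ι) (s : Finset κ) (f : κ → MvPolynomial ι ℝ) :
    MvPolynomial.pderiv b (∏ i ∈ s, f i) =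
      ∑ i ∈ s, MvPolynomial.pderiv b (f i) * ∏ j ∈ s.erase i, f j := by
  induction s using Finset.induction_on with
  | empty => simp
  | insert a s ha ih =>
    rw [Finset.prod_insert ha, MvPolynomial.pderiv_mul, ih, Finset.sum_insert ha,
      Finset.erase_insert ha, Finset.mul_sum]
    congr 1
    refine Finset.sum_congr rfl fun i hi => ?_
    have hne : a ≠ i := fun h => ha (h ▸ hi)
    rw [Finset.erase_insert_of_ne hne, Finset.prod_insert (fun h => ha (Finset.mem_of_mem_erase h))]
    ring

end

/-! ## The moment matrix -/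

section
variable {ι : Type} [Fintype ι] [DecidableEq ι] (H : ι → ι → ℝ)

/-- the linear form `L_a = ∑_b H a b g_b`. -/
noncomputable def Lf (a : ι) : MvPolynomial ι ℝ := ∑ b, MvPolynomial.C (H a b) * MvPolynomial.X b

theorem pderiv_Lf (a b : ι) : MvPolynomial.pderiv b (Lf H a) = MvPolynomial.C (H a b) := by
  unfold Lf
  rw [map_sum]
  simp only [MvPolynomial.pderiv_C_mul, MvPolynomial.pderiv_X]
  rw [Finset.sum_eq_single b]
  · simp
  · intro c _ hc
    rw [Pi.single_eq_of_ne hc, mul_zero]
  · intro h; exact absurd (Finset.mem_univ b) h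

/-- `∏_{b∈S} g_b ∏_{a∈S'} L_a` -/
noncomputable def Qp (S S' : Finset ι) : MvPolynomial ι ℝ :=
  (∏ b ∈ S, MvPolynomial.X b) * ∏ a ∈ S', Lf H a

noncomputable def Wm (S S' : Finset ι) : ℝ := E (Qp H S S')

theorem pderiv_Qp (S S' : Finset ι) (b : ι) :
    MvPolynomial.pderiv b (Qp H S S') =
      (if b ∈ S then Qp H (S.erase b) S' else 0) +
        ∑ a ∈ S', MvPolynomial.C (H a b) * Qp H S (S'.erase a) := by
  unfold Qp
  rw [MvPolynomial.pderiv_mul, pderiv_prod, pderiv_prod]
  congr 1
  · split_ifs with h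
    · rw [Finset.sum_eq_single b]
      · rw [MvPolynomial.pderiv_X_self, one_mul]
      · intro c _ hc
        rw [MvPolynomial.pderiv_X_of_ne hc, zero_mul]
      · intro h'; exact absurd h h'
    · rw [Finset.sum_eq_zero, zero_mul]
      intro c hc
      have hne : c ≠ b := by
        intro h'
        rw [h'] at hc
        exact h hc
      rw [MvPolynomial.pderiv_X_of_ne hne, zero_mul]
  · rw [Finset.mul_sum]
    refine Finset.sum_congr rfl fun a _ => ?_
    rw [pderiv_Lf]
    ring

theorem Wm_lap1 (hH : ∀ a a', ∑ b, H a b * H a' b = if a = a' then 1 else 0)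
    (S S' : Finset ι) (a : ι) (ha : a ∈ S') :
    Wm H S S' = ∑ b ∈ S, H a b * Wm H (S.erase b) (S'.erase a) := by
  have h1 : Qp H S S' = ∑ b, MvPolynomial.C (H a b) * (MvPolynomial.X b * Qp H S (S'.erase a)) := by
    unfold Qp
    rw [← Finset.mul_prod_erase S' _ ha]
    rw [show Lf H a = ∑ b, MvPolynomial.C (H a b) * MvPolynomial.X b from rfl, Finset.sum_mul,
      Finset.mul_sum]
    refine Finset.sum_congr rfl fun b _ => ?_
    ring
  unfold Wm
  rw [h1, E_sum]
  simp only [E_C_mul, stein, pderiv_Qp, E_add, E_sum]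
  simp only [mul_add, Finset.sum_add_distrib]
  have h2 : ∑ b, H a b * ∑ a' ∈ S'.erase a, H a' b * E (Qp H S ((S'.erase a).erase a')) = 0 := by
    simp only [Finset.mul_sum]
    rw [Finset.sum_comm]
    refine Finset.sum_eq_zero fun a' ha' => ?_
    have : ∑ b, H a b * (H a' b * E (Qp H S ((S'.erase a).erase a'))) =
        (∑ b, H a b * H a' b) * E (Qp H S ((S'.erase a).erase a')) := by
      rw [Finset.sum_mul]
      refine Finset.sum_congr rfl fun b _ => ?_
      ring
    rw [this, hH, if_neg (Finset.ne_of_mem_erase ha').symm, zero_mul]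
  rw [h2, add_zero]
  rw [← Finset.sum_filter_add_sum_filter_not univ (fun b => b ∈ S)]
  rw [show (univ.filter fun b => b ∈ S) = S by ext; simp]
  have h3 : ∑ x ∈ univ.filter (fun b => ¬ b ∈ S), H a x *
      E (if x ∈ S then Qp H (S.erase x) (S'.erase a) else 0) = 0 := by
    refine Finset.sum_eq_zero fun b hb => ?_
    rw [Finset.mem_filter] at hb
    rw [if_neg hb.2, E_zero, mul_zero]
  rw [h3, add_zero]
  refine Finset.sum_congr rfl fun b hb => ?_
  rw [if_pos hb]

theorem Wm_lap2 (S S' : Finset ι) (b : ι) (hb : b ∈ S) :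
    Wm H S S' = ∑ a ∈ S', H a b * Wm H (S.erase b) (S'.erase a) := by
  have h1 : Qp H S S' = MvPolynomial.X b * Qp H (S.erase b) S' := by
    unfold Qp
    rw [← Finset.mul_prod_erase S _ hb]
    ring
  unfold Wm
  rw [h1, stein, pderiv_Qp, if_neg (Finset.notMem_erase b S), zero_add, E_sum]
  simp only [E_C_mul]

theorem Wm_empty : Wm H ∅ ∅ = 1 := by
  unfold Wm Qp
  simp [E_one]

end

end C2

end Crest.Agent.R350
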