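import Crest.Agent.R350.C5

set_option autoImplicit false

open Finset Classical

namespace Crest.Agent.R350

namespace C3

variable {s : ℕ}

/-- layer values -/
abbrev X (s : ℕ) := B s → Bool

/-- number of layer values -/
def NX (s : ℕ) : ℝ := 2 ^ (2 ^ s)

theorem NX_pos (s : ℕ) : 0 < NX s := by unfold NX; positivity

theorem card_X (s : ℕ) : ((Fintype.card (X s) : ℕ) : ℝ) = NX s := by
  unfold NX; simp

/-- xor of layers -/
def xr (y w : X s) : X s := fun a => xor (y a) (w a)

theorem xr_xr (y w : X s) : xr (xr y w) w = y := by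
  funext a; simp [xr]

theorem sgn_xor (a b : Bool) : sgn (xor a b) = sgn a * sgn b := by
  cases a <;> cases b <;> norm_num [sgn]

theorem chr_xr (S : Finset (B s)) (y w : X s) : chr S (xr y w) = chr S y * chr S w := by
  unfold chr xr
  rw [← Finset.prod_mul_distrib]
  exact Finset.prod_congr rfl (fun a _ => sgn_xor _ _)

/-- composition step -/
noncomputable def comp {m : ℕ} (F : (Fin (m + 1) → X s) → X s → ℝ) (g : X s → X s → ℝ)
    (x : Fin (m + 2) → X s) (w' : X s) : ℝ :=
  (∑ w, F (Fin.init x) w * g (xr (x (Fin.last (m + 1))) w) w') / NX s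

noncomputable def G (h : ℕ → X s → X s → ℝ) : (m : ℕ) → (Fin (m + 1) → X s) → X s → ℝ
  | 0 => fun x w' => h 0 (x 0) w'
  | m + 1 => comp (G h m) (h (m + 1))

/-- L1 sum -/
noncomputable def LL {m : ℕ} (F : (Fin (m + 1) → X s) → X s → ℝ) : ℝ :=
  (∑ x, ∑ w, |F x w|) / NX s ^ (m + 2)

theorem LL_nonneg {m : ℕ} (F : (Fin (m + 1) → X s) → X s → ℝ) : 0 ≤ LL F := by
  unfold LL
  have := NX_pos s
  positivity

theorem L1p_nonneg (g : X s → X s → ℝ) : 0 ≤ L1p g := by
  unfold L1p; positivity

theorem sum_snoc {m : ℕ} {A : Type} [Fintype A] (f : (Fin (m + 2) → A) → ℝ) :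
    ∑ x, f x = ∑ q : Fin (m + 1) → A, ∑ a : A, f (Fin.snoc q a) := by
  rw [← Equiv.sum_comp (Fin.snocEquiv (fun _ : Fin (m + 2) => A)) f, Fintype.sum_prod_type,
    Finset.sum_comm]
  rfl

theorem LL_comp {m : ℕ} (F : (Fin (m + 1) → X s) → X s → ℝ) (g : X s → X s → ℝ) :
    LL (comp F g) ≤ LL F * L1p g := by
  have hN := NX_pos s
  unfold LL L1p
  rw [div_mul_div_comm]
  rw [div_le_div_iff₀ (by positivity) (by positivity)]
  have key : ∑ x : Fin (m + 2) → X s, ∑ w', |comp F g x w'|
      ≤ (∑ x, ∑ w, |F x w|) * (∑ y, ∑ w, |g y w|) / NX s := by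
    rw [sum_snoc]
    have h1 : ∀ (q : Fin (m + 1) → X s) (y w' : X s),
        |comp F g (Fin.snoc q y) w'| ≤ (∑ w, |F q w| * |g (xr y w) w'|) / NX s := by
      intro q y w'
      unfold comp
      rw [Fin.init_snoc, Fin.snoc_last, abs_div, abs_of_pos hN]
      refine div_le_div_of_nonneg_right ?_ hN.le
      refine le_trans (Finset.abs_sum_le_sum_abs _ _) ?_
      refine Finset.sum_le_sum (fun w _ => ?_)
      rw [abs_mul]
    calc ∑ q : Fin (m + 1) → X s, ∑ y : X s, ∑ w', |comp F g (Fin.snoc q y) w'|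
        ≤ ∑ q : Fin (m + 1) → X s, ∑ y : X s, ∑ w', (∑ w, |F q w| * |g (xr y w) w'|) / NX s :=
          Finset.sum_le_sum (fun q _ => Finset.sum_le_sum (fun y _ =>
            Finset.sum_le_sum (fun w' _ => h1 q y w')))
      _ = ∑ q : Fin (m + 1) → X s, (∑ w, |F q w|) * (∑ y, ∑ w, |g y w|) / NX s := by
          refine Finset.sum_congr rfl (fun q _ => ?_)
          simp_rw [← Finset.sum_div]
          congr 1
          have h2 : ∀ y : X s, ∑ w' : X s, ∑ w : X s, |F q w| * |g (xr y w) w'|
              = ∑ w : X s, |F q w| * ∑ w' : X s, |g (xr y w) w'| := by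
            intro y
            rw [Finset.sum_comm]
            exact Finset.sum_congr rfl (fun w _ => by rw [Finset.mul_sum])
          simp_rw [h2]
          rw [Finset.sum_comm, Finset.sum_mul]
          refine Finset.sum_congr rfl (fun w _ => ?_)
          rw [← Finset.mul_sum]
          congr 1
          exact Fintype.sum_bijective (fun y => xr y w)
            (Function.Involutive.bijective (fun y => xr_xr y w)) _ _ (fun y => rfl)
      _ = (∑ x, ∑ w, |F x w|) * (∑ y, ∑ w, |g y w|) / NX s := by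
          rw [← Finset.sum_div, ← Finset.sum_mul]
  have hNX : NX s = 2 ^ (2 ^ s) := rfl
  rw [← hNX]
  calc (∑ x : Fin (m + 2) → X s, ∑ w', |comp F g x w'|) * (NX s ^ (m + 2) * NX s ^ 2)
      ≤ ((∑ x, ∑ w, |F x w|) * (∑ y, ∑ w, |g y w|) / NX s) * (NX s ^ (m + 2) * NX s ^ 2) :=
        mul_le_mul_of_nonneg_right key (by positivity)
    _ = ((∑ x, ∑ w, |F x w|) * (∑ y, ∑ w, |g y w|)) * NX s ^ (m + 1 + 2) := by
        field_simp
        ring

theorem comp_sub {m : ℕ} (F F' : (Fin (m + 1) → X s) → X s → ℝ) (g g' : X s → X s → ℝ)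
    (x : Fin (m + 2) → X s) (w' : X s) :
    comp F g x w' - comp F' g' x w' =
      comp (fun x w => F x w - F' x w) g x w' + comp F' (fun y w => g y w - g' y w) x w' := by
  unfold comp
  rw [← sub_div, ← add_div, ← Finset.sum_sub_distrib, ← Finset.sum_add_distrib]
  congr 1
  exact Finset.sum_congr rfl (fun w _ => by ring)

theorem LL_add {m : ℕ} (F F' : (Fin (m + 1) → X s) → X s → ℝ) :
    LL (fun x w => F x w + F' x w) ≤ LL F + LL F' := by
  unfold LL
  have := NX_pos s
  rw [← add_div]
  refine div_le_div_of_nonneg_right ?_ (by positivity)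
  rw [← Finset.sum_add_distrib]
  refine Finset.sum_le_sum (fun x _ => ?_)
  rw [← Finset.sum_add_distrib]
  exact Finset.sum_le_sum (fun w _ => abs_add_le _ _)

theorem LL_zero (f : (Fin 1 → X s) → X s → ℝ) (h : X s → X s → ℝ)
    (hf : ∀ x w, f x w = h (x 0) w) : LL f = L1p h := by
  unfold LL L1p
  have hNX : NX s = 2 ^ (2 ^ s) := rfl
  rw [← hNX]
  congr 1
  refine Fintype.sum_equiv (Equiv.funUnique (Fin 1) (X s)) _ _ (fun x => ?_)
  simp [hf]

theorem LL_G (h : ℕ → X s → X s → ℝ) : ∀ m, LL (G h m) ≤ ∏ j ∈ Finset.range (m + 1), L1p (h j)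
  | 0 => by
    rw [LL_zero (G h 0) (h 0) (fun x w => rfl)]
    simp
  | m + 1 => by
    rw [Finset.prod_range_succ]
    refine le_trans (LL_comp (G h m) (h (m + 1))) ?_
    exact mul_le_mul_of_nonneg_right (LL_G h m) (L1p_nonneg _)

theorem LL_diff (h h' : ℕ → X s → X s → ℝ) (A : ℝ) (hA : 1 ≤ A) (H : ∀ j, L1p (h j) ≤ A)
    (H' : ∀ j, L1p (h' j) ≤ A) : ∀ m,
    LL (fun x w => G h m x w - G h' m x w)
      ≤ A ^ m * ∑ j ∈ Finset.range (m + 1), L1p (fun y w => h j y w - h' j y w)
  | 0 => by
    have e := LL_zero (fun x w => G h 0 x w - G h' 0 x w) (fun y w => h 0 y w - h' 0 y w)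
      (fun x w => rfl)
    rw [e]
    simp
  | m + 1 => by
    have ih := LL_diff h h' A hA H H' m
    have e : (fun x w => G h (m + 1) x w - G h' (m + 1) x w) = fun x w =>
        comp (fun x w => G h m x w - G h' m x w) (h (m + 1)) x w +
        comp (G h' m) (fun y w => h (m + 1) y w - h' (m + 1) y w) x w := by
      funext x w
      exact comp_sub _ _ _ _ x w
    rw [e]
    refine le_trans (LL_add _ _) ?_
    rw [Finset.sum_range_succ, mul_add]
    have hG' : LL (G h' m) ≤ A ^ (m + 1) := by
      refine le_trans (LL_G h' m) ?_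
      calc ∏ j ∈ Finset.range (m + 1), L1p (h' j) ≤ ∏ j ∈ Finset.range (m + 1), A :=
            Finset.prod_le_prod (fun j _ => L1p_nonneg _) (fun j _ => H' j)
        _ = A ^ (m + 1) := by simp
    have hS : 0 ≤ ∑ j ∈ Finset.range (m + 1), L1p (fun y w => h j y w - h' j y w) :=
      Finset.sum_nonneg (fun j _ => L1p_nonneg _)
    refine add_le_add ?_ ?_
    · refine le_trans (LL_comp _ _) ?_
      calc LL (fun x w => G h m x w - G h' m x w) * L1p (h (m + 1))
          ≤ (A ^ m * ∑ j ∈ Finset.range (m + 1), L1p (fun y w => h j y w - h' j y w)) * A :=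
            mul_le_mul ih (H _) (L1p_nonneg _) (by positivity)
        _ = A ^ (m + 1) * ∑ j ∈ Finset.range (m + 1), L1p (fun y w => h j y w - h' j y w) := by
            ring
    · refine le_trans (LL_comp _ _) ?_
      exact mul_le_mul_of_nonneg_right hG' (L1p_nonneg _)

theorem G_nonneg (h : ℕ → X s → X s → ℝ) (H : ∀ j y w, 0 ≤ h j y w) : ∀ m x w, 0 ≤ G h m x w
  | 0, x, w => H _ _ _
  | m + 1, x, w => by
    unfold G comp
    have := NX_pos s
    refine div_nonneg (Finset.sum_nonneg (fun w _ => mul_nonneg (G_nonneg h H m _ _) (H _ _ _)))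
      this.le

/-! Fourier expansion -/

theorem inv1 (g : X s → ℝ) (x : X s) :
    g x = ∑ S : Finset (B s), ((∑ y, g y * chr S y) / NX s) * chr S x := by
  have h := fourier_inv g x
  have hcard : Fintype.card (B s) = 2 ^ s := by simp
  rw [h]
  refine Finset.sum_congr rfl (fun S _ => ?_)
  congr 1
  unfold coef avg NX
  rw [hcard]
  congr 1
  refine Finset.sum_congr ?_ (fun _ _ => rfl)
  ext x; simp

theorem inv2 (h : X s → X s → ℝ) (y w : X s) :
    h y w = ∑ T : Finset (B s), ∑ T' : Finset (B s), coef2 h T T' * chr T y * chr T' w := by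
  rw [inv1 (fun y => h y w) y]
  refine Finset.sum_congr rfl (fun T _ => ?_)
  have h1 : ∀ y', h y' w = ∑ T' : Finset (B s), ((∑ w', h y' w' * chr T' w') / NX s) * chr T' w :=
    fun y' => inv1 (fun w => h y' w) w
  have h2 : (∑ y', h y' w * chr T y') / NX s
      = ∑ T' : Finset (B s), coef2 h T T' * chr T' w := by
    simp_rw [h1]
    have h3 : ∀ y' : X s, (∑ T' : Finset (B s), ((∑ w', h y' w' * chr T' w') / NX s) * chr T' w)
        * chr T y' = ∑ T' : Finset (B s), (∑ w', h y' w' * chr T y' * chr T' w') * (chr T' w / NX s)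
        := by
      intro y'
      rw [Finset.sum_mul]
      refine Finset.sum_congr rfl (fun T' _ => ?_)
      rw [Finset.sum_mul]
      rw [div_mul_eq_mul_div, div_mul_eq_mul_div, Finset.sum_mul, Finset.sum_mul, Finset.sum_div]
      exact Finset.sum_congr rfl (fun w' _ => by ring)
    simp_rw [h3]
    rw [Finset.sum_comm, Finset.sum_div]
    refine Finset.sum_congr rfl (fun T' _ => ?_)
    rw [← Finset.sum_mul]
    unfold coef2
    have hNX : NX s = 2 ^ (2 ^ s) := rfl
    rw [← hNX]
    ring
  rw [h2, Finset.sum_mul]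
  exact Finset.sum_congr rfl (fun T' _ => by ring)

theorem avg_chr (T T' : Finset (B s)) :
    (∑ w : X s, chr T w * chr T' w) / NX s = if T = T' then 1 else 0 := by
  rw [C5.chr_orthB]
  have := NX_pos s
  unfold NX at *
  split_ifs
  · field_simp
  · simp

theorem G_fourier (h : ℕ → X s → X s → ℝ) : ∀ (m : ℕ) (x : Fin (m + 1) → X s) (w' : X s),
    G h m x w' = ∑ S : Fin (m + 2) → Finset (B s),
      (∏ j : Fin (m + 1), coef2 (h j) (S j.castSucc) (S j.succ)) *
        ((∏ i : Fin (m + 1), chr (S i.castSucc) (x i)) * chr (S (Fin.last (m + 1))) w')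
  | 0, x, w' => by
    unfold G
    rw [inv2 (h 0) (x 0) w', sum_snoc (m := 0)]
    rw [← Equiv.sum_comp (Equiv.funUnique (Fin 1) (Finset (B s))).symm]
    refine Finset.sum_congr rfl (fun T _ => Finset.sum_congr rfl (fun T' _ => ?_))
    rw [Fin.prod_univ_castSucc, Fin.prod_univ_castSucc]
    simp only [Finset.univ_eq_empty, Finset.prod_empty, one_mul]
    have e1 : (Fin.snoc ((Equiv.funUnique (Fin 1) (Finset (B s))).symm T) T' :
        Fin 2 → Finset (B s)) (Fin.last 0).castSucc = T := by
      rw [Fin.snoc_castSucc]; rfl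
    have e2 : (Fin.snoc ((Equiv.funUnique (Fin 1) (Finset (B s))).symm T) T' :
        Fin 2 → Finset (B s)) (Fin.last 0).succ = T' := by
      rw [Fin.succ_last, Fin.snoc_last]
    have e3 : (Fin.snoc ((Equiv.funUnique (Fin 1) (Finset (B s))).symm T) T' :
        Fin 2 → Finset (B s)) (Fin.last 1) = T' := by
      rw [Fin.snoc_last]
    rw [e1, e2, e3]
    have e4 : (Fin.last 0 : Fin 1) = 0 := rfl
    simp only [e4, Fin.val_zero]
    ring
  | m + 1, x, w' => by
    unfold G comp
    have ih := G_fourier h m (Fin.init x)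
    simp_rw [ih]
    have h1 : ∀ w : X s, h (m + 1) (xr (x (Fin.last (m + 1))) w) w' =
        ∑ T : Finset (B s), ∑ T' : Finset (B s), coef2 (h (m + 1)) T T' *
          (chr T (x (Fin.last (m + 1))) * chr T' w') * chr T w := by
      intro w
      rw [inv2 (h (m + 1)) (xr (x (Fin.last (m + 1))) w) w']
      refine Finset.sum_congr rfl (fun T _ => Finset.sum_congr rfl (fun T' _ => ?_))
      rw [chr_xr]; ring
    simp_rw [h1]
    rw [sum_snoc (m := m + 1)]
    have h2 : ∀ w : X s, (∑ S : Fin (m + 2) → Finset (B s),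
        (∏ j : Fin (m + 1), coef2 (h j) (S j.castSucc) (S j.succ)) *
        ((∏ i : Fin (m + 1), chr (S i.castSucc) (Fin.init x i)) * chr (S (Fin.last (m + 1))) w)) *
        (∑ T : Finset (B s), ∑ T' : Finset (B s), coef2 (h (m + 1)) T T' *
          (chr T (x (Fin.last (m + 1))) * chr T' w') * chr T w) =
        ∑ S : Fin (m + 2) → Finset (B s), ∑ T : Finset (B s), ∑ T' : Finset (B s),
          ((∏ j : Fin (m + 1), coef2 (h j) (S j.castSucc) (S j.succ)) *
          (∏ i : Fin (m + 1), chr (S i.castSucc) (Fin.init x i)) *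
          (coef2 (h (m + 1)) T T' * (chr T (x (Fin.last (m + 1))) * chr T' w'))) *
          (chr (S (Fin.last (m + 1))) w * chr T w) := by
      intro w
      rw [Finset.sum_mul_sum]
      refine Finset.sum_congr rfl (fun S _ => Finset.sum_congr rfl (fun T _ => ?_))
      rw [Finset.mul_sum]
      exact Finset.sum_congr rfl (fun T' _ => by ring)
    simp_rw [h2]
    rw [Finset.sum_comm, Finset.sum_div]
    refine Finset.sum_congr rfl (fun S _ => ?_)
    rw [Finset.sum_comm, Finset.sum_div]
    have h3 : ∀ T : Finset (B s), (∑ w : X s, ∑ T' : Finset (B s),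
          ((∏ j : Fin (m + 1), coef2 (h j) (S j.castSucc) (S j.succ)) *
          (∏ i : Fin (m + 1), chr (S i.castSucc) (Fin.init x i)) *
          (coef2 (h (m + 1)) T T' * (chr T (x (Fin.last (m + 1))) * chr T' w'))) *
          (chr (S (Fin.last (m + 1))) w * chr T w)) / NX s =
        ∑ T' : Finset (B s), if S (Fin.last (m + 1)) = T then
          ((∏ j : Fin (m + 1), coef2 (h j) (S j.castSucc) (S j.succ)) *
          (∏ i : Fin (m + 1), chr (S i.castSucc) (Fin.init x i)) *
          (coef2 (h (m + 1)) T T' * (chr T (x (Fin.last (m + 1))) * chr T' w'))) else 0 := by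
      intro T
      rw [Finset.sum_comm, Finset.sum_div]
      refine Finset.sum_congr rfl (fun T' _ => ?_)
      rw [← Finset.mul_sum, mul_div_assoc, avg_chr]
      split_ifs <;> simp
    simp_rw [h3]
    rw [Finset.sum_comm]
    refine Finset.sum_congr rfl (fun T' _ => ?_)
    rw [Finset.sum_ite_eq]
    simp only [Finset.mem_univ, if_true]
    have hA : ∏ j : Fin (m + 2), coef2 (h j)
        ((Fin.snoc S T' : Fin (m + 3) → Finset (B s)) j.castSucc)
        ((Fin.snoc S T' : Fin (m + 3) → Finset (B s)) j.succ)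
        = (∏ j : Fin (m + 1), coef2 (h j) (S j.castSucc) (S j.succ)) *
          coef2 (h (m + 1)) (S (Fin.last (m + 1))) T' := by
      rw [Fin.prod_univ_castSucc]
      congr 1
      · refine Finset.prod_congr rfl (fun j _ => ?_)
        rw [Fin.snoc_castSucc, Fin.succ_castSucc, Fin.snoc_castSucc, Fin.val_castSucc]
      · rw [Fin.snoc_castSucc, Fin.succ_last, Fin.snoc_last, Fin.val_last]
    have hB : ∏ i : Fin (m + 2), chr ((Fin.snoc S T' : Fin (m + 3) → Finset (B s)) i.castSucc) (x i)
        = (∏ i : Fin (m + 1), chr (S i.castSucc) (Fin.init x i)) *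
          chr (S (Fin.last (m + 1))) (x (Fin.last (m + 1))) := by
      rw [Fin.prod_univ_castSucc]
      congr 1
      · refine Finset.prod_congr rfl (fun j _ => ?_)
        rw [Fin.snoc_castSucc]; rfl
      · rw [Fin.snoc_castSucc]
    rw [hA, hB, Fin.snoc_last]
    ring

/-- extend -/
noncomputable def hext {k : ℕ} (h : Fin k → X s → X s → ℝ) (j : ℕ) : X s → X s → ℝ :=
  if hj : j < k then h ⟨j, hj⟩ else fun _ _ => 0

theorem hext_fin {k : ℕ} (h : Fin k → X s → X s → ℝ) (j : Fin k) : hext h j = h j := by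
  unfold hext; rw [dif_pos j.2]

/-- layers of an instance -/
def lay {k : ℕ} (z : FV k s → Bool) (i : Fin (k + 1)) : X s := fun a => z (i, a)

theorem chain_eq {m : ℕ} (h : Fin (m + 1) → X s → X s → ℝ) (z : FV (m + 1) s → Bool) :
    chain h z = G (hext h) m (Fin.init (lay z)) (lay z (Fin.last (m + 1))) := by
  rw [G_fourier]
  unfold chain
  refine Finset.sum_congr rfl (fun S _ => ?_)
  congr 1
  · exact Finset.prod_congr rfl (fun j _ => by rw [hext_fin])
  · unfold chrK
    rw [Fin.prod_univ_castSucc]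
    rfl

theorem sum_lay {m : ℕ} (f : (Fin (m + 1) → X s) → X s → ℝ) :
    avg (fun z : FV (m + 1) s → Bool => f (Fin.init (lay z)) (lay z (Fin.last (m + 1))))
      = (∑ x, ∑ w, f x w) / NX s ^ (m + 2) := by
  have hcard : (2 : ℝ) ^ (Fintype.card (FV (m + 1) s)) = NX s ^ (m + 2) := by
    unfold NX
    rw [← pow_mul]
    congr 1
    simp [mul_comm]
  unfold avg
  rw [hcard]
  congr 1
  have e := Equiv.sum_comp (Equiv.curry (Fin (m + 2)) (B s) Bool)
    (fun x : Fin (m + 2) → X s => f (Fin.init x) (x (Fin.last (m + 1))))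
  have e' : ∑ z : FV (m + 1) s → Bool, f (Fin.init (lay z)) (lay z (Fin.last (m + 1)))
      = ∑ x : Fin (m + 2) → X s, f (Fin.init x) (x (Fin.last (m + 1))) := by
    rw [← e]
    refine Finset.sum_congr ?_ (fun _ _ => rfl)
    ext z; simp
  trans (∑ x : Fin (m + 2) → X s, f (Fin.init x) (x (Fin.last (m + 1))))
  · convert e'
  rw [sum_snoc]
  refine Finset.sum_congr rfl (fun x _ => Finset.sum_congr rfl (fun w _ => ?_))
  rw [Fin.init_snoc, Fin.snoc_last]

end C3

open C3

theorem chainP : ChainP where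
  nonneg := by
    intro k s h hk H z
    obtain ⟨m, rfl⟩ : ∃ m, k = m + 1 := ⟨k - 1, by omega⟩
    rw [chain_eq]
    refine G_nonneg _ (fun j y w => ?_) _ _ _
    unfold hext
    split_ifs
    · exact H _ _ _
    · exact le_refl _
  l1 := by
    intro k s h hk
    obtain ⟨m, rfl⟩ : ∃ m, k = m + 1 := ⟨k - 1, by omega⟩
    simp_rw [chain_eq]
    rw [sum_lay (fun x w => |G (hext h) m x w|)]
    refine le_trans (LL_G (hext h) m) ?_
    rw [Finset.prod_range]
    exact le_of_eq (Finset.prod_congr rfl (fun j _ => by rw [hext_fin]))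
  diff := by
    intro k s h h' A hk hA H H'
    obtain ⟨m, rfl⟩ : ∃ m, k = m + 1 := ⟨k - 1, by omega⟩
    simp_rw [chain_eq]
    rw [sum_lay (fun x w => |G (hext h) m x w - G (hext h') m x w|)]
    have hz : L1p (fun _ _ : X s => (0 : ℝ)) ≤ A := by
      unfold L1p; simp; linarith
    have H1 : ∀ j, L1p (hext h j) ≤ A := by
      intro j; unfold hext; split_ifs
      · exact H _
      · exact hz
    have H1' : ∀ j, L1p (hext h' j) ≤ A := by
      intro j; unfold hext; split_ifs
      · exact H' _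
      · exact hz
    refine le_trans (LL_diff (hext h) (hext h') A hA H1 H1' m) ?_
    rw [Finset.sum_range]
    have e : ∑ j : Fin (m + 1), L1p (fun y w => hext h j y w - hext h' j y w)
        = ∑ j : Fin (m + 1), L1p (fun y w => h j y w - h' j y w) :=
      Finset.sum_congr rfl (fun j _ => by rw [hext_fin, hext_fin])
    rw [e]
    refine mul_le_mul_of_nonneg_right ?_ (Finset.sum_nonneg (fun j _ => L1p_nonneg _))
    exact pow_le_pow_right₀ hA (by omega)
  mean := by
    intro k s h hk
    have h1 : (fun z : FV k s → Bool => chain h z) = fun z => ∑ S : Fin (k + 1) → Finset (B s),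
        (∏ j : Fin k, coef2 (h j) (S j.castSucc) (S j.succ)) *
          (chrK S z * chrK (fun _ => ∅) z) := by
      funext z
      unfold chain
      refine Finset.sum_congr rfl (fun S _ => ?_)
      have : chrK (fun _ : Fin (k + 1) => (∅ : Finset (B s))) z = 1 := by
        unfold chrK; simp
      rw [this, mul_one]
    rw [h1, C5.avg_sum]
    simp_rw [C5.avg_mul, C5.chrK_orth]
    simp

end Crest.Agent.R350
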