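import Crest.Agent.R350.H

set_option autoImplicit false

open Finset Classical

namespace Crest.Agent.R350

namespace C4

variable {k s : ℕ}

/-- layered sets as subsets of `FV` -/
noncomputable def E (S : Fin (k + 1) → Finset (B s)) : Finset (FV k s) :=
  univ.filter (fun v => v.2 ∈ S v.1)

noncomputable def lay (T : Finset (FV k s)) (i : Fin (k + 1)) : Finset (B s) :=
  univ.filter (fun a => (i, a) ∈ T)

theorem mem_E (S : Fin (k + 1) → Finset (B s)) (i : Fin (k + 1)) (a : B s) :
    (i, a) ∈ E S ↔ a ∈ S i := by simp [E]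

noncomputable def Eqv : (Fin (k + 1) → Finset (B s)) ≃ Finset (FV k s) where
  toFun := E
  invFun := lay
  left_inv S := by funext i; ext a; simp [E, lay]
  right_inv T := by ext ⟨i, a⟩; simp [E, lay]

theorem E_inj (S S' : Fin (k + 1) → Finset (B s)) : E S = E S' ↔ S = S' :=
  (Eqv (k := k) (s := s)).injective.eq_iff

theorem prod_E (U : Fin (k + 1) → Finset (B s)) (z : FV k s → ℝ) :
    ∏ v ∈ E U, z v = ∏ i, ∏ a ∈ U i, z (i, a) := by
  unfold E
  rw [Finset.prod_filter, Fintype.prod_prod_type]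
  refine Finset.prod_congr rfl (fun i _ => ?_)
  rw [← Finset.prod_filter]
  refine Finset.prod_congr ?_ (fun _ _ => rfl)
  ext a; simp

theorem chr_E (S : Fin (k + 1) → Finset (B s)) (z : FV k s → Bool) : chr (E S) z = chrK S z :=
  prod_E S (fun v => sgn (z v))

theorem card_B (s : ℕ) : Fintype.card (B s) = 2 ^ s := by simp [B]

theorem chr_orthB (S S' : Finset (B s)) :
    ∑ y : B s → Bool, chr S y * chr S' y = if S = S' then (2 : ℝ) ^ (2 ^ s) else 0 := by
  have h := chr_orth S S'
  rw [card_B] at h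
  convert h

theorem coef2_hpair (W : Finset (B s) → Finset (B s) → ℝ) (d1 d2 : ℝ) (S S' : Finset (B s)) :
    coef2 (hpair W d1 d2) S S' = d1 ^ S.card * d2 ^ S'.card * W S S' := by
  unfold coef2 hpair
  have h : ∑ y : B s → Bool, ∑ w : B s → Bool, (∑ T : Finset (B s), ∑ T' : Finset (B s),
      d1 ^ T.card * d2 ^ T'.card * W T T' * chr T y * chr T' w) * chr S y * chr S' w
      = ∑ T : Finset (B s), ∑ T' : Finset (B s), d1 ^ T.card * d2 ^ T'.card * W T T' *
        ((∑ y, chr T y * chr S y) * (∑ w, chr T' w * chr S' w)) := by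
    have h1 : ∀ (y w : B s → Bool), (∑ T : Finset (B s), ∑ T' : Finset (B s),
        d1 ^ T.card * d2 ^ T'.card * W T T' * chr T y * chr T' w) * chr S y * chr S' w
        = ∑ T : Finset (B s), ∑ T' : Finset (B s), d1 ^ T.card * d2 ^ T'.card * W T T' *
          ((chr T y * chr S y) * (chr T' w * chr S' w)) := by
      intro y w
      rw [Finset.sum_mul, Finset.sum_mul]
      refine Finset.sum_congr rfl (fun T _ => ?_)
      rw [Finset.sum_mul, Finset.sum_mul]
      refine Finset.sum_congr rfl (fun T' _ => ?_)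
      ring
    simp_rw [h1]
    have h2 : ∀ y : B s → Bool, ∑ w : B s → Bool, ∑ T : Finset (B s), ∑ T' : Finset (B s),
        d1 ^ T.card * d2 ^ T'.card * W T T' * ((chr T y * chr S y) * (chr T' w * chr S' w))
        = ∑ T : Finset (B s), ∑ T' : Finset (B s), d1 ^ T.card * d2 ^ T'.card * W T T' *
          ((chr T y * chr S y) * ∑ w, (chr T' w * chr S' w)) := by
      intro y
      rw [Finset.sum_comm]
      refine Finset.sum_congr rfl (fun T _ => ?_)
      rw [Finset.sum_comm]
      refine Finset.sum_congr rfl (fun T' _ => ?_)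
      rw [Finset.mul_sum, Finset.mul_sum]
    simp_rw [h2]
    rw [Finset.sum_comm]
    refine Finset.sum_congr rfl (fun T _ => ?_)
    rw [Finset.sum_comm]
    refine Finset.sum_congr rfl (fun T' _ => ?_)
    rw [Finset.sum_mul, Finset.mul_sum]
  rw [h]
  simp_rw [chr_orthB]
  rw [Finset.sum_eq_single S]
  · rw [Finset.sum_eq_single S']
    · simp only [if_true]
      field_simp
    · intro T' _ hT'
      simp [hT']
    · simp
  · intro T _ hT
    simp [hT]
  · simp

theorem avg_add' {V : Type} [Fintype V] {ι : Type} (t : Finset ι) (f : ι → (V → Bool) → ℝ) :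
    avg (fun x => ∑ i ∈ t, f i x) = ∑ i ∈ t, avg (f i) := by
  unfold avg
  rw [Finset.sum_comm, Finset.sum_div]

theorem avg_const_mul {V : Type} [Fintype V] (c : ℝ) (f : (V → Bool) → ℝ) :
    avg (fun x => c * f x) = c * avg f := by
  unfold avg
  rw [← Finset.mul_sum, mul_div_assoc]

theorem avg_chain_mul (h : Fin k → (B s → Bool) → (B s → Bool) → ℝ) (g : (FV k s → Bool) → ℝ) :
    avg (fun z => chain h z * g z)
      = ∑ S : Fin (k + 1) → Finset (B s),
        (∏ j, coef2 (h j) (S j.castSucc) (S j.succ)) * coef g (E S) := by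
  unfold chain
  have h1 : (fun z : FV k s → Bool => (∑ S : Fin (k + 1) → Finset (B s),
      (∏ j : Fin k, coef2 (h j) (S j.castSucc) (S j.succ)) * chrK S z) * g z)
      = fun z => ∑ S : Fin (k + 1) → Finset (B s),
        (∏ j : Fin k, coef2 (h j) (S j.castSucc) (S j.succ)) * (g z * chr (E S) z) := by
    funext z
    rw [Finset.sum_mul]
    refine Finset.sum_congr rfl (fun S _ => ?_)
    rw [chr_E]; ring
  rw [h1, avg_add']
  refine Finset.sum_congr rfl (fun S _ => ?_)
  rw [avg_const_mul]
  rfl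

theorem coef_chr {V : Type} [Fintype V] (S S' : Finset V) :
    coef (fun x => chr S x) S' = if S = S' then (1 : ℝ) else 0 := by
  unfold coef avg
  rw [chr_orth]
  split_ifs
  · field_simp
  · simp

theorem avg_chain_chr (h : Fin k → (B s → Bool) → (B s → Bool) → ℝ)
    (U : Fin (k + 1) → Finset (B s)) :
    avg (fun z => chain h z * chrK U z)
      = ∏ j, coef2 (h j) (U j.castSucc) (U j.succ) := by
  have h1 : (fun z : FV k s → Bool => chain h z * chrK U z)
      = fun z => chain h z * (fun x => chr (E U) x) z := by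
    funext z; simp only [chr_E]
  rw [h1, avg_chain_mul, Finset.sum_eq_single U]
  · rw [coef_chr]; simp
  · intro S _ hS
    rw [coef_chr, if_neg, mul_zero]
    intro h; exact hS ((E_inj _ _).mp h).symm
  · simp

/-- path expansion -/
theorem path_exp (W : Finset (B s) → Finset (B s) → ℝ) (hW : IsW W) :
    ∀ (k : ℕ) (S : Fin (k + 1) → Finset (B s)),
      ((S (Fin.last k)).card : ℝ) * ∏ j : Fin k, W (S j.castSucc) (S j.succ)
        = ∑ p : Fin (k + 1) → B s, if (∀ i, p i ∈ S i) then
            pathW p * ∏ j : Fin k, W ((S j.castSucc).erase (p j.castSucc))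
              ((S j.succ).erase (p j.succ)) else 0
  | 0, S => by
    have h1 : ∀ p : Fin (0 + 1) → B s, (if (∀ i, p i ∈ S i) then
            pathW p * ∏ j : Fin 0, W ((S j.castSucc).erase (p j.castSucc))
              ((S j.succ).erase (p j.succ)) else 0) = if p 0 ∈ S 0 then (1 : ℝ) else 0 := by
      intro p
      have : (∀ i, p i ∈ S i) ↔ p 0 ∈ S 0 := by
        constructor
        · intro h; exact h 0
        · intro h i
          have : i = 0 := Fin.ext (by omega)
          rw [this]; exact h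
      simp [this, pathW]
    rw [Finset.sum_congr rfl (fun p _ => h1 p)]
    rw [← Equiv.sum_comp (Equiv.funUnique (Fin 1) (B s)).symm]
    simp
  | k + 1, S => by
    have IH := path_exp W hW k (fun i => S i.succ)
    rw [Fin.prod_univ_succ]
    have e1 : ((S (Fin.last (k + 1))).card : ℝ) *
        (W (S (Fin.castSucc 0)) (S (Fin.succ 0)) *
          ∏ i : Fin k, W (S i.succ.castSucc) (S i.succ.succ))
        = W (S 0) (S 1) * (((S (Fin.last k).succ).card : ℝ) *
          ∏ j : Fin k, W (S j.castSucc.succ) (S j.succ.succ)) := by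
      rw [Fin.succ_last]
      simp only [Fin.succ_castSucc, Fin.castSucc_zero, Fin.succ_zero_eq_one]
      ring
    rw [e1, IH]
    rw [← (Fin.consEquiv (fun _ : Fin (k + 2) => B s)).sum_comp, Fintype.sum_prod_type,
      Finset.sum_comm, Finset.mul_sum]
    refine Finset.sum_congr rfl (fun p' _ => ?_)
    by_cases hp : ∀ i, p' i ∈ S i.succ
    · rw [if_pos hp]
      have h0 : p' 0 ∈ S 1 := by simpa using hp 0
      rw [hW.lap₁ (S 0) (S 1) (p' 0) h0, Finset.sum_mul]
      rw [← Finset.sum_filter_add_sum_filter_not univ (fun b : B s => b ∈ S 0)]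
      have hz : ∑ b ∈ univ.filter (fun b : B s => ¬ b ∈ S 0),
          (if (∀ i, (Fin.consEquiv (fun _ : Fin (k + 2) => B s)) (b, p') i ∈ S i) then
            pathW ((Fin.consEquiv (fun _ : Fin (k + 2) => B s)) (b, p')) *
            ∏ j : Fin (k + 1), W ((S j.castSucc).erase
              ((Fin.consEquiv (fun _ : Fin (k + 2) => B s)) (b, p') j.castSucc))
              ((S j.succ).erase ((Fin.consEquiv (fun _ : Fin (k + 2) => B s)) (b, p') j.succ))
              else 0) = 0 := by
        refine Finset.sum_eq_zero (fun b hb => ?_)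
        rw [if_neg]
        intro h
        have := h 0
        simp at this hb
        exact hb this
      rw [hz, add_zero]
      have hf : univ.filter (fun b : B s => b ∈ S 0) = S 0 := by ext; simp
      rw [hf]
      refine Finset.sum_congr rfl (fun b hb => ?_)
      have hall : ∀ i, (Fin.consEquiv (fun _ : Fin (k + 2) => B s)) (b, p') i ∈ S i := by
        intro i
        refine Fin.cases ?_ (fun i => ?_) i
        · simpa using hb
        · simpa using hp i
      rw [if_pos hall]
      have hpath : pathW ((Fin.consEquiv (fun _ : Fin (k + 2) => B s)) (b, p'))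
          = Had (p' 0) b * pathW p' := by
        unfold pathW
        rw [Fin.prod_univ_succ]
        simp [Fin.consEquiv]
      rw [hpath, Fin.prod_univ_succ]
      simp only [Fin.consEquiv, Equiv.coe_fn_mk, Fin.castSucc_zero, Fin.cons_zero, Fin.cons_succ,
        Fin.succ_zero_eq_one, ← Fin.succ_castSucc]
      have hc1 : (Fin.cons b p' : Fin (k + 2) → B s) 1 = p' 0 := rfl
      rw [hc1]
      ring
    · rw [if_neg hp, mul_zero]
      symm
      refine Finset.sum_eq_zero (fun b _ => ?_)
      rw [if_neg]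
      intro h
      apply hp
      intro i
      have := h i.succ
      simpa using this

/-- product of powers of `δ` -/
noncomputable def dp (δ : ℝ) (U : Fin (k + 1) → Finset (B s)) : ℝ :=
  ∏ j : Fin k, (δ ^ (U j.castSucc).card * δ ^ (U j.succ).card)

noncomputable def wp (W : Finset (B s) → Finset (B s) → ℝ) (U : Fin (k + 1) → Finset (B s)) : ℝ :=
  ∏ j : Fin k, W (U j.castSucc) (U j.succ)

/-- remove a path -/
noncomputable def rem (U : Fin (k + 1) → Finset (B s)) (p : Fin (k + 1) → B s) :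
    Fin (k + 1) → Finset (B s) := fun i => (U i).erase (p i)

noncomputable def AA (W : Finset (B s) → Finset (B s) → ℝ) (δ t : ℝ)
    (U : Fin (k + 1) → Finset (B s)) : ℝ :=
  t ^ (U (Fin.last k)).card * dp δ U * wp W U

noncomputable def FF (W : Finset (B s) → Finset (B s) → ℝ) (δ : ℝ) (g : (FV k s → Bool) → ℝ)
    (t : ℝ) : ℝ :=
  ∑ S : Fin (k + 1) → Finset (B s), AA W δ t S * coef g (E S)

noncomputable def FF' (W : Finset (B s) → Finset (B s) → ℝ) (δ : ℝ) (g : (FV k s → Bool) → ℝ)
    (t : ℝ) : ℝ :=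
  ∑ S : Fin (k + 1) → Finset (B s),
    ((S (Fin.last k)).card * t ^ ((S (Fin.last k)).card - 1) * dp δ S * wp W S) * coef g (E S)

theorem hasDeriv (W : Finset (B s) → Finset (B s) → ℝ) (δ : ℝ) (g : (FV k s → Bool) → ℝ)
    (t : ℝ) : HasDerivAt (FF W δ g) (FF' W δ g t) t := by
  unfold FF FF' AA
  refine HasDerivAt.fun_sum (fun S _ => ?_)
  exact (((hasDerivAt_pow _ t).mul_const _).mul_const _).mul_const _

theorem FF_one (W : Finset (B s) → Finset (B s) → ℝ) (δ : ℝ) (g : (FV k s → Bool) → ℝ) :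
    FF W δ g 1 = avg (fun z => chain (fun _ : Fin k => hpair W δ δ) z * g z) := by
  rw [avg_chain_mul]
  unfold FF AA dp wp
  refine Finset.sum_congr rfl (fun S _ => ?_)
  rw [one_pow, one_mul, ← Finset.prod_mul_distrib]
  congr 1
  refine Finset.prod_congr rfl (fun j _ => ?_)
  rw [coef2_hpair]

theorem W_empty_right (W : Finset (B s) → Finset (B s) → ℝ) (hW : IsW W) (S : Finset (B s))
    (hS : S ≠ ∅) : W S ∅ = 0 := by
  obtain ⟨b, hb⟩ := Finset.nonempty_iff_ne_empty.mpr hS
  rw [hW.lap₂ S ∅ b hb]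
  simp

theorem wp_zero (W : Finset (B s) → Finset (B s) → ℝ) (hW : IsW W) :
    ∀ (k : ℕ) (U : Fin (k + 1) → Finset (B s)), U (Fin.last k) = ∅ → U ≠ (fun _ => ∅) →
      wp W U = 0
  | 0, U, h, h' => by
    exfalso
    apply h'
    funext i
    have : i = Fin.last 0 := Fin.ext (by simp)
    rw [this]; exact h
  | k + 1, U, h, h' => by
    unfold wp
    rw [Fin.prod_univ_succ]
    by_cases hU : (fun i : Fin (k + 1) => U i.succ) = fun _ => ∅
    · have h1 : U (Fin.succ 0) = ∅ := congrFun hU 0
      have h0 : U (Fin.castSucc 0) ≠ ∅ := by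
        intro h0
        apply h'
        funext i
        refine Fin.cases ?_ (fun i => ?_) i
        · exact h0
        · exact congrFun hU i
      rw [h1, W_empty_right W hW _ h0, zero_mul]
    · have IH := wp_zero W hW k (fun i => U i.succ) (by rw [Fin.succ_last]; exact h) hU
      unfold wp at IH
      simp only [Fin.succ_castSucc] at IH
      rw [IH, mul_zero]

theorem FF_zero (W : Finset (B s) → Finset (B s) → ℝ) (hW : IsW W) (δ : ℝ)
    (g : (FV k s → Bool) → ℝ) : FF W δ g 0 = avg g := by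
  unfold FF
  rw [Finset.sum_eq_single (fun _ => ∅)]
  · have h1 : AA W δ 0 (fun _ : Fin (k + 1) => (∅ : Finset (B s))) = 1 := by
      simp [AA, dp, wp, hW.empty]
    rw [h1, one_mul]
    unfold coef
    congr 1
    funext x
    have : E (fun _ : Fin (k + 1) => (∅ : Finset (B s))) = ∅ := by
      ext v; simp [E]
    rw [this]
    simp [chr]
  · intro S _ hS
    have : AA W δ 0 S = 0 := by
      unfold AA
      by_cases hl : S (Fin.last k) = ∅
      · rw [wp_zero W hW k S hl hS, mul_zero]
      · have : (S (Fin.last k)).card ≠ 0 := by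
          intro h; exact hl (Finset.card_eq_zero.mp h)
        rw [zero_pow this]; ring
    rw [this, zero_mul]
  · simp

theorem dp_rem (δ : ℝ) (S : Fin (k + 1) → Finset (B s)) (p : Fin (k + 1) → B s)
    (hp : ∀ i, p i ∈ S i) : dp δ S = δ ^ (2 * k) * dp δ (rem S p) := by
  unfold dp rem
  have h : ∀ j : Fin k, δ ^ (S j.castSucc).card * δ ^ (S j.succ).card
      = δ ^ 2 * (δ ^ ((S j.castSucc).erase (p j.castSucc)).card *
        δ ^ ((S j.succ).erase (p j.succ)).card) := by
    intro j
    have h1 := Finset.card_erase_add_one (hp j.castSucc)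
    have h2 := Finset.card_erase_add_one (hp j.succ)
    rw [← h1, ← h2, pow_succ, pow_succ]
    ring
  rw [Finset.prod_congr rfl (fun j _ => h j), Finset.prod_mul_distrib]
  simp [pow_mul]

theorem FF'_eq (W : Finset (B s) → Finset (B s) → ℝ) (hW : IsW W) (δ : ℝ)
    (g : (FV k s → Bool) → ℝ) (t : ℝ) :
    FF' W δ g t = δ ^ (2 * k) * ∑ p : Fin (k + 1) → B s, ∑ S : Fin (k + 1) → Finset (B s),
      if (∀ i, p i ∈ S i) then pathW p * (AA W δ t (rem S p) * coef g (E S)) else 0 := by
  unfold FF'
  rw [Finset.sum_comm, Finset.mul_sum]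
  refine Finset.sum_congr rfl (fun S _ => ?_)
  have h1 := path_exp W hW k S
  have h2 : (((S (Fin.last k)).card : ℝ) * t ^ ((S (Fin.last k)).card - 1) * dp δ S * wp W S) *
      coef g (E S) = (t ^ ((S (Fin.last k)).card - 1) * dp δ S * coef g (E S)) *
        (((S (Fin.last k)).card : ℝ) * ∏ j : Fin k, W (S j.castSucc) (S j.succ)) := by
    unfold wp; ring
  rw [h2, h1, Finset.mul_sum, Finset.mul_sum]
  refine Finset.sum_congr rfl (fun p _ => ?_)
  by_cases hp : ∀ i, p i ∈ S i
  · rw [if_pos hp, if_pos hp, dp_rem δ S p hp]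
    unfold AA wp rem
    rw [Finset.card_erase_of_mem (hp (Fin.last k))]
    ring
  · rw [if_neg hp, if_neg hp, mul_zero, mul_zero]

/-- scales of the auxiliary chain -/
noncomputable def hb (W : Finset (B s) → Finset (B s) → ℝ) (δ t : ℝ) (k : ℕ) (j : Fin k) :
    (B s → Bool) → (B s → Bool) → ℝ :=
  hpair W (2 * δ) (if j.succ = Fin.last k then 2 * (t * δ) else δ)

theorem scale_id (W : Finset (B s) → Finset (B s) → ℝ) (δ t : ℝ) (hk : 1 ≤ k)
    (U : Fin (k + 1) → Finset (B s)) :
    ∏ j, coef2 (hb W δ t k j) (U j.castSucc) (U j.succ)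
      = (∏ i, (2 : ℝ) ^ (U i).card) * AA W δ t U := by
  obtain ⟨m, rfl⟩ : ∃ m, k = m + 1 := ⟨k - 1, by omega⟩
  unfold hb AA dp wp
  simp_rw [coef2_hpair]
  rw [Fin.prod_univ_castSucc, Fin.prod_univ_castSucc, Fin.prod_univ_castSucc,
    Fin.prod_univ_castSucc, Fin.prod_univ_castSucc]
  have h1 : ∀ j : Fin m, ¬ (j.castSucc.succ = Fin.last (m + 1)) := by
    intro j h
    have := congrArg Fin.val h
    have h2 := j.2
    simp at this
    omega
  simp only [h1, if_false, Fin.succ_last, if_true]
  have h3 : ∏ x : Fin m, ((2 * δ) ^ (U x.castSucc.castSucc).card *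
      δ ^ (U x.castSucc.succ).card * W (U x.castSucc.castSucc) (U x.castSucc.succ))
      = (∏ x : Fin m, (2 : ℝ) ^ (U x.castSucc.castSucc).card) *
        (∏ x : Fin m, (δ ^ (U x.castSucc.castSucc).card * δ ^ (U x.castSucc.succ).card)) *
        ∏ x : Fin m, W (U x.castSucc.castSucc) (U x.castSucc.succ) := by
    rw [← Finset.prod_mul_distrib, ← Finset.prod_mul_distrib]
    refine Finset.prod_congr rfl (fun x _ => ?_)
    rw [mul_pow]; ring
  rw [h3, mul_pow, mul_pow, mul_pow]
  ring

theorem avg_hb (W : Finset (B s) → Finset (B s) → ℝ) (δ t : ℝ) (hk : 1 ≤ k)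
    (U : Fin (k + 1) → Finset (B s)) :
    avg (fun x' => chain (hb W δ t k) x' * ∏ i, ∏ a ∈ U i, (sgn (x' (i, a)) / 2))
      = AA W δ t U := by
  have h1 : (fun x' : FV k s → Bool => chain (hb W δ t k) x' *
      ∏ i, ∏ a ∈ U i, (sgn (x' (i, a)) / 2))
      = fun x' => (∏ i, (2 : ℝ) ^ (U i).card)⁻¹ * (chain (hb W δ t k) x' * chrK U x') := by
    funext x'
    have : ∀ i, ∏ a ∈ U i, (sgn (x' (i, a)) / 2) =
        (∏ a ∈ U i, sgn (x' (i, a))) * ((2 : ℝ) ^ (U i).card)⁻¹ := by
      intro i
      rw [Finset.prod_div_distrib, Finset.prod_const, div_eq_mul_inv]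
    simp_rw [this]
    rw [Finset.prod_mul_distrib, Finset.prod_inv_distrib]
    unfold chrK
    ring
  rw [h1, avg_const_mul, avg_chain_chr, scale_id W δ t hk, ← mul_assoc, inv_mul_cancel₀, one_mul]
  exact Finset.prod_ne_zero_iff.mpr (fun i _ => by positivity)

theorem pset_sub (p : Fin (k + 1) → B s) (S : Fin (k + 1) → Finset (B s)) :
    pset p ⊆ E S ↔ ∀ i, p i ∈ S i := by
  unfold pset
  constructor
  · intro h i
    have := h (Finset.mem_image_of_mem (fun i => (i, p i)) (Finset.mem_univ i))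
    exact (mem_E S i (p i)).mp this
  · intro h v hv
    rw [Finset.mem_image] at hv
    obtain ⟨i, _, rfl⟩ := hv
    exact (mem_E S i (p i)).mpr (h i)

theorem dz_pset (g : (FV k s → Bool) → ℝ) (p : Fin (k + 1) → B s) (z : FV k s → ℝ) :
    dz g (pset p) z = ∑ S : Fin (k + 1) → Finset (B s),
      if (∀ i, p i ∈ S i) then coef g (E S) * ∏ i, ∏ a ∈ rem S p i, z (i, a) else 0 := by
  unfold dz
  rw [Finset.sum_filter, ← Equiv.sum_comp (Eqv (k := k) (s := s))]
  refine Finset.sum_congr rfl (fun S _ => ?_)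
  have h0 : (Eqv (k := k) (s := s)) S = E S := rfl
  rw [h0]
  by_cases hp : ∀ i, p i ∈ S i
  · rw [if_pos ((pset_sub p S).mpr hp), if_pos hp]
    congr 1
    rw [← prod_E]
    refine Finset.prod_congr ?_ (fun _ _ => rfl)
    ext ⟨i, a⟩
    rw [@Finset.mem_sdiff _ (fun a b => propDecidable (a = b)), mem_E, mem_E]
    unfold rem pset
    rw [Finset.mem_erase, Finset.mem_image]
    constructor
    · rintro ⟨h1, h2⟩
      refine ⟨fun h => h2 ⟨i, Finset.mem_univ _, ?_⟩, h1⟩
      rw [h]
    · rintro ⟨h1, h2⟩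
      refine ⟨h2, ?_⟩
      rintro ⟨i', _, h'⟩
      rw [Prod.mk.injEq] at h'
      obtain ⟨rfl, h''⟩ := h'
      exact h1 h''.symm
  · rw [if_neg (fun h => hp ((pset_sub p S).mp h)), if_neg hp]

theorem FF'_avg (W : Finset (B s) → Finset (B s) → ℝ) (hW : IsW W) (δ : ℝ) (hk : 1 ≤ k)
    (g : (FV k s → Bool) → ℝ) (t : ℝ) :
    FF' W δ g t = δ ^ (2 * k) * avg (fun x' => chain (hb W δ t k) x' *
      ∑ p : Fin (k + 1) → B s, pathW p * dz g (pset p) (fun v => sgn (x' v) / 2)) := by
  rw [FF'_eq W hW]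
  congr 1
  have h1 : (fun x' : FV k s → Bool => chain (hb W δ t k) x' *
      ∑ p : Fin (k + 1) → B s, pathW p * dz g (pset p) (fun v => sgn (x' v) / 2))
      = fun x' => ∑ p : Fin (k + 1) → B s, ∑ S : Fin (k + 1) → Finset (B s),
        (if (∀ i, p i ∈ S i) then pathW p * coef g (E S) else 0) *
          (chain (hb W δ t k) x' * ∏ i, ∏ a ∈ rem S p i, (sgn (x' (i, a)) / 2)) := by
    funext x'
    rw [Finset.mul_sum]
    refine Finset.sum_congr rfl (fun p _ => ?_)
    rw [dz_pset, Finset.mul_sum, Finset.mul_sum]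
    refine Finset.sum_congr rfl (fun S _ => ?_)
    split_ifs
    · ring
    · ring
  rw [h1, avg_add']
  refine Finset.sum_congr rfl (fun p _ => ?_)
  rw [avg_add']
  refine Finset.sum_congr rfl (fun S _ => ?_)
  rw [avg_const_mul, avg_hb W δ t hk]
  split_ifs
  · ring
  · ring

theorem abs_avg_mul_le {V : Type} [Fintype V] (f h : (V → Bool) → ℝ) (G : ℝ)
    (hG : ∀ x, |h x| ≤ G) : |avg (fun x => f x * h x)| ≤ avg (fun x => |f x|) * G := by
  unfold avg
  rw [abs_div, abs_of_pos (show (0 : ℝ) < 2 ^ Fintype.card V by positivity), div_mul_eq_mul_div]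
  gcongr
  refine (Finset.abs_sum_le_sum_abs _ _).trans ?_
  rw [Finset.sum_mul]
  refine Finset.sum_le_sum (fun x _ => ?_)
  rw [abs_mul]
  exact mul_le_mul_of_nonneg_left (hG x) (abs_nonneg _)

theorem L1p_nonneg {s : ℕ} (h : (B s → Bool) → (B s → Bool) → ℝ) : 0 ≤ L1p h := by
  unfold L1p
  positivity

end C4

open C4 in
theorem derivBound : ChainP → DerivBound := by
  intro hC k s W δ Λ G g hk hW hδ hG hΛ hg
  have hbound : ∀ t ∈ Set.Ico (0 : ℝ) 1, ‖FF' W δ g t‖ ≤ δ ^ (2 * k) * Λ ^ k * G := by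
    intro t ht
    rw [FF'_avg W hW δ hk g t, Real.norm_eq_abs, abs_mul,
      abs_of_nonneg (pow_nonneg hδ (2 * k)), mul_assoc]
    refine mul_le_mul_of_nonneg_left ?_ (pow_nonneg hδ _)
    refine (abs_avg_mul_le _ _ G hg).trans ?_
    refine mul_le_mul_of_nonneg_right ?_ hG
    refine (hC.l1 k s (hb W δ t k) hk).trans ?_
    have : ∏ j : Fin k, L1p (hb W δ t k j) ≤ ∏ _j : Fin k, Λ := by
      refine Finset.prod_le_prod (fun j _ => L1p_nonneg _) (fun j _ => ?_)
      unfold hb
      refine hΛ _ _ (by positivity) le_rfl ?_ ?_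
      · split_ifs
        · have := ht.1; positivity
        · exact hδ
      · split_ifs
        · have := ht.2.le
          have h2 : t * δ ≤ 1 * δ := mul_le_mul_of_nonneg_right this hδ
          linarith
        · linarith
    refine this.trans ?_
    simp
  have := norm_image_sub_le_of_norm_deriv_le_segment_01' (f := FF W δ g) (f' := FF' W δ g)
    (fun t _ => (hasDeriv W δ g t).hasDerivWithinAt) hbound
  rw [FF_one, FF_zero W hW, Real.norm_eq_abs] at this
  exact this

end Crest.Agent.R350
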