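import Crest.Agent.R350.H

set_option autoImplicit false

open Finset Classical

namespace Crest.Agent.R350

namespace C5

/-- generic layer recursion -/
noncomputable def vecg {s : ℕ} (zz : ℕ → B s → ℝ) : ℕ → B s → ℝ
  | 0 => zz 0
  | i + 1 => fun a => zz (i + 1) a * ∑ b, Had a b * vecg zz i b

theorem vecg_sum {s : ℕ} (zz : ℕ → B s → ℝ) : ∀ (m : ℕ) (f : B s → ℝ),
    ∑ a, f a * vecg zz m a = ∑ p : Fin (m + 1) → B s,
      f (p (Fin.last m)) * ((∏ j : Fin m, Had (p j.succ) (p j.castSucc)) *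
        ∏ i : Fin (m + 1), zz i (p i))
  | 0, f => by
    symm
    refine Fintype.sum_equiv (Equiv.funUnique (Fin 1) (B s)) _ _ (fun p => ?_)
    simp [vecg]
  | m + 1, f => by
    have ih := vecg_sum zz m
    have e := Fin.snocEquiv (fun _ : Fin (m + 2) => B s)
    have h1 : ∑ p : Fin (m + 2) → B s,
        f (p (Fin.last (m + 1))) * ((∏ j : Fin (m + 1), Had (p j.succ) (p j.castSucc)) *
          ∏ i : Fin (m + 2), zz i (p i)) =
        ∑ ap : B s × (Fin (m + 1) → B s),
          f ap.1 * ((Had ap.1 (ap.2 (Fin.last m)) *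
            ∏ j : Fin m, Had (ap.2 j.succ) (ap.2 j.castSucc)) *
          (zz (m + 1) ap.1 * ∏ i : Fin (m + 1), zz i (ap.2 i))) := by
      symm
      refine Fintype.sum_equiv (Fin.snocEquiv (fun _ : Fin (m + 2) => B s)) _ _ (fun ap => ?_)
      rcases ap with ⟨a, q⟩
      simp only [Fin.snocEquiv, Equiv.coe_fn_mk]
      have h2 : ∀ j : Fin m, (Fin.snoc q a : Fin (m + 2) → B s) (j.castSucc.succ) = q j.succ := by
        intro j
        rw [Fin.succ_castSucc, Fin.snoc_castSucc]
      have h3 : (Fin.snoc q a : Fin (m + 2) → B s) ((Fin.last m).succ) = a := by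
        rw [Fin.succ_last, Fin.snoc_last]
      have hA : ∏ j : Fin (m + 1), Had ((Fin.snoc q a : Fin (m + 2) → B s) j.succ)
          ((Fin.snoc q a : Fin (m + 2) → B s) j.castSucc)
          = (∏ j : Fin m, Had (q j.succ) (q j.castSucc)) * Had a (q (Fin.last m)) := by
        rw [Fin.prod_univ_castSucc, h3, Fin.snoc_castSucc]
        congr 1
        refine Finset.prod_congr rfl (fun j _ => ?_)
        rw [h2, Fin.snoc_castSucc]
      have hB : ∏ i : Fin (m + 2), zz i ((Fin.snoc q a : Fin (m + 2) → B s) i)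
          = (∏ i : Fin (m + 1), zz i (q i)) * zz (m + 1) a := by
        rw [Fin.prod_univ_castSucc, Fin.snoc_last]
        congr 1
        refine Finset.prod_congr rfl (fun j _ => ?_)
        rw [Fin.snoc_castSucc, Fin.val_castSucc]
      rw [hA, hB, Fin.snoc_last]
      ring
    rw [h1, Fintype.sum_prod_type]
    refine Finset.sum_congr rfl (fun a _ => ?_)
    simp only [vecg]
    rw [ih (fun b => Had a b)]
    rw [Finset.mul_sum, Finset.mul_sum]
    refine Finset.sum_congr rfl (fun q _ => ?_)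
    ring

/-- signs extended by `1`. -/
noncomputable def zext {k s : ℕ} (z : FV k s → Bool) (i : ℕ) (a : B s) : ℝ :=
  if h : i < k + 1 then sgn (z (⟨i, h⟩, a)) else 1

theorem vec_eq {k s : ℕ} (z : FV k s → Bool) : ∀ i, vec z i = vecg (zext z) i
  | 0 => by
    funext a
    simp [vec, vecg, zext]
  | i + 1 => by
    funext a
    simp only [vec, vecg, zext]
    rw [vec_eq z i]

theorem zext_fin {k s : ℕ} (z : FV k s → Bool) (i : Fin (k + 1)) (a : B s) :
    zext z i a = sgn (z (i, a)) := by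
  unfold zext
  rw [dif_pos i.2]

theorem recu (k s : ℕ) (z : FV k s → Bool) : phi z = (∑ a, vec z k a) / 2 ^ s := by
  have h := vecg_sum (zext z) k (fun _ => 1)
  simp only [one_mul] at h
  rw [vec_eq, h]
  unfold phi pathW
  congr 1
  refine Finset.sum_congr rfl (fun p _ => ?_)
  congr 1
  exact Finset.prod_congr rfl (fun i _ => (zext_fin z i (p i)).symm)

theorem sq_sum {s : ℕ} (zz : ℕ → B s → ℝ) (hz : ∀ i a, zz i a ^ 2 = 1) : ∀ m,
    ∑ a, vecg zz m a ^ 2 = 2 ^ s
  | 0 => by
    simp only [vecg, hz]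
    simp
  | m + 1 => by
    have ih := sq_sum zz hz m
    rw [← ih]
    simp only [vecg]
    have h1 : ∀ a, (zz (m + 1) a * ∑ b, Had a b * vecg zz m b) ^ 2
        = ∑ b, ∑ b', (Had a b * Had a b') * (vecg zz m b * vecg zz m b') := by
      intro a
      rw [mul_pow, hz, one_mul, sq, Finset.sum_mul_sum]
      refine Finset.sum_congr rfl (fun b _ => Finset.sum_congr rfl (fun b' _ => by ring))
    simp_rw [h1]
    rw [Finset.sum_comm]
    refine Finset.sum_congr rfl (fun b _ => ?_)
    rw [Finset.sum_comm]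
    simp_rw [← Finset.sum_mul, had_orth']
    simp [sq]

theorem zext_sq {k s : ℕ} (z : FV k s → Bool) (i : ℕ) (a : B s) : zext z i a ^ 2 = 1 := by
  unfold zext
  split_ifs
  · exact sgn_sq _
  · norm_num

theorem abs_le (k s : ℕ) (z : FV k s → Bool) : |phi z| ≤ 1 := by
  rw [recu, abs_div, abs_of_pos (by positivity : (0 : ℝ) < 2 ^ s), div_le_one (by positivity)]
  have h1 : (∑ a, vec z k a) ^ 2 ≤ (2 ^ s) ^ 2 := by
    calc (∑ a, vec z k a) ^ 2 ≤ (Finset.univ : Finset (B s)).card * ∑ a, vec z k a ^ 2 :=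
          sq_sum_le_card_mul_sum_sq
      _ = (2 ^ s) ^ 2 := by
          rw [vec_eq, sq_sum (zext z) (zext_sq z) k, Finset.card_univ]
          simp [sq]
  exact abs_le_of_sq_le_sq h1 (by positivity)

/-- layered set as a set of variables -/
noncomputable def sset {k s : ℕ} (S : Fin (k + 1) → Finset (B s)) : Finset (FV k s) :=
  Finset.univ.filter (fun v => v.2 ∈ S v.1)

theorem mem_sset {k s : ℕ} (S : Fin (k + 1) → Finset (B s)) (i : Fin (k + 1)) (a : B s) :
    (i, a) ∈ sset S ↔ a ∈ S i := by simp [sset]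

theorem sset_inj {k s : ℕ} {S S' : Fin (k + 1) → Finset (B s)} (h : sset S = sset S') : S = S' := by
  funext i
  ext a
  rw [← mem_sset S, ← mem_sset S', h]

theorem chrK_eq {k s : ℕ} (S : Fin (k + 1) → Finset (B s)) (z : FV k s → Bool) :
    chrK S z = chr (sset S) z := by
  unfold chrK chr sset
  rw [Finset.prod_filter, Fintype.prod_prod_type]
  refine Finset.prod_congr rfl (fun i _ => ?_)
  rw [← Finset.prod_filter]
  refine Finset.prod_congr ?_ (fun _ _ => rfl)
  ext a
  simp

theorem chrK_orth {k s : ℕ} (S S' : Fin (k + 1) → Finset (B s)) :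
    avg (fun z : FV k s → Bool => chrK S z * chrK S' z) = if S = S' then 1 else 0 := by
  unfold avg
  simp_rw [chrK_eq]
  rw [chr_orth]
  by_cases h : S = S'
  · subst h; simp
  · rw [if_neg h, if_neg (fun h' => h (sset_inj h'))]; simp

theorem prod_eq_chrK {k s : ℕ} (p : Fin (k + 1) → B s) (z : FV k s → Bool) :
    ∏ i, sgn (z (i, p i)) = chrK (fun i => {p i}) z := by
  unfold chrK
  simp

theorem phi_eq {k s : ℕ} (z : FV k s → Bool) :
    phi z = (∑ p : Fin (k + 1) → B s, pathW p * chrK (fun i => {p i}) z) / 2 ^ s := by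
  unfold phi
  congr 1
  exact Finset.sum_congr rfl (fun p _ => by rw [prod_eq_chrK])

theorem single_inj {k s : ℕ} (p p' : Fin (k + 1) → B s) :
    ((fun i => ({p i} : Finset (B s))) = fun i => {p' i}) ↔ p = p' := by
  constructor
  · intro h
    funext i
    exact Finset.singleton_injective (congrFun h i)
  · rintro rfl; rfl

theorem avg_sum {V ι : Type} [Fintype V] (s : Finset ι) (f : ι → (V → Bool) → ℝ) :
    avg (fun x => ∑ i ∈ s, f i x) = ∑ i ∈ s, avg (f i) := by
  unfold avg
  rw [Finset.sum_comm, Finset.sum_div]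

theorem avg_mul {V : Type} [Fintype V] (c : ℝ) (f : (V → Bool) → ℝ) :
    avg (fun x => c * f x) = c * avg f := by
  unfold avg
  rw [← Finset.mul_sum, mul_div_assoc]

theorem null (k s : ℕ) : avg (fun z : FV k s → Bool => phi z ^ 2) = 1 / 2 ^ s := by
  have h1 : (fun z : FV k s → Bool => phi z ^ 2) = fun z =>
      ∑ p : Fin (k + 1) → B s, ∑ p' : Fin (k + 1) → B s,
        (pathW p * pathW p' / (2 ^ s) ^ 2) *
          (chrK (fun i => {p i}) z * chrK (fun i => {p' i}) z) := by
    funext z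
    rw [phi_eq, div_pow, sq (∑ p, _), Finset.sum_mul_sum, Finset.sum_div]
    refine Finset.sum_congr rfl (fun p _ => ?_)
    rw [Finset.sum_div]
    refine Finset.sum_congr rfl (fun p' _ => ?_)
    ring
  rw [h1, avg_sum]
  simp_rw [avg_sum, avg_mul, chrK_orth, single_inj]
  simp only [mul_ite, mul_one, mul_zero, Finset.sum_ite_eq, Finset.mem_univ, if_true]
  have h2 : ∀ p : Fin (k + 1) → B s, pathW p * pathW p / (2 ^ s) ^ 2
      = 1 / (2 ^ s) ^ k / (2 ^ s) ^ 2 := by
    intro p
    rw [← sq, pathW_sq]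
  simp_rw [h2]
  rw [Finset.sum_const, Finset.card_univ]
  simp only [Fintype.card_pi, Finset.prod_const, Finset.card_univ, Fintype.card_bool,
    Fintype.card_fin, nsmul_eq_mul, Nat.cast_pow, Nat.cast_ofNat]
  rw [pow_succ]
  field_simp

theorem chr_orthB {s : ℕ} (S S' : Finset (B s)) :
    ∑ x : B s → Bool, chr S x * chr S' x = if S = S' then (2 : ℝ) ^ (2 ^ s) else 0 := by
  have h := chr_orth S S'
  have hcard : Fintype.card (B s) = 2 ^ s := by simp
  rw [hcard] at h
  convert h

/-- pair coefficients of `hpair`. -/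
theorem coef2_hpair {s : ℕ} (W : Finset (B s) → Finset (B s) → ℝ) (δ₁ δ₂ : ℝ)
    (S S' : Finset (B s)) :
    coef2 (hpair W δ₁ δ₂) S S' = δ₁ ^ S.card * δ₂ ^ S'.card * W S S' := by
  unfold coef2 hpair
  have h1 : ∀ y w : B s → Bool, (∑ T : Finset (B s), ∑ T' : Finset (B s),
      δ₁ ^ T.card * δ₂ ^ T'.card * W T T' * chr T y * chr T' w) * chr S y * chr S' w
      = ∑ T : Finset (B s), ∑ T' : Finset (B s), δ₁ ^ T.card * δ₂ ^ T'.card * W T T' *
        ((chr T y * chr S y) * (chr T' w * chr S' w)) := by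
    intro y w
    rw [Finset.sum_mul, Finset.sum_mul]
    refine Finset.sum_congr rfl (fun T _ => ?_)
    rw [Finset.sum_mul, Finset.sum_mul]
    exact Finset.sum_congr rfl (fun T' _ => by ring)
  simp_rw [h1]
  have h2 : ∀ y : B s → Bool, (∑ w : B s → Bool, ∑ T : Finset (B s), ∑ T' : Finset (B s),
      δ₁ ^ T.card * δ₂ ^ T'.card * W T T' * ((chr T y * chr S y) * (chr T' w * chr S' w)))
      = ∑ T : Finset (B s), ∑ T' : Finset (B s), δ₁ ^ T.card * δ₂ ^ T'.card * W T T' *
        ((chr T y * chr S y) * ∑ w : B s → Bool, (chr T' w * chr S' w)) := by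
    intro y
    rw [Finset.sum_comm]
    refine Finset.sum_congr rfl (fun T _ => ?_)
    rw [Finset.sum_comm]
    refine Finset.sum_congr rfl (fun T' _ => ?_)
    rw [Finset.mul_sum, Finset.mul_sum]
  simp_rw [h2]
  rw [Finset.sum_comm]
  have h3 : ∀ T : Finset (B s), (∑ y : B s → Bool, ∑ T' : Finset (B s),
      δ₁ ^ T.card * δ₂ ^ T'.card * W T T' *
        ((chr T y * chr S y) * ∑ w : B s → Bool, (chr T' w * chr S' w)))
      = ∑ T' : Finset (B s), δ₁ ^ T.card * δ₂ ^ T'.card * W T T' *
        ((∑ y : B s → Bool, chr T y * chr S y) * ∑ w : B s → Bool, (chr T' w * chr S' w)) := by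
    intro T
    rw [Finset.sum_comm]
    refine Finset.sum_congr rfl (fun T' _ => ?_)
    rw [Finset.sum_mul, Finset.mul_sum]
  simp_rw [h3]
  simp_rw [chr_orthB]
  have h4 : ∀ T : Finset (B s), (∑ T' : Finset (B s), δ₁ ^ T.card * δ₂ ^ T'.card * W T T' *
      ((if T = S then (2 : ℝ) ^ 2 ^ s else 0) * if T' = S' then (2 : ℝ) ^ 2 ^ s else 0))
      = if T = S then δ₁ ^ T.card * δ₂ ^ S'.card * W T S' * ((2 : ℝ) ^ 2 ^ s * (2 : ℝ) ^ 2 ^ s)
        else 0 := by
    intro T
    rw [Finset.sum_eq_single S']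
    · by_cases h : T = S <;> simp [h]
    · intro T' _ h; simp [h]
    · intro h; exact absurd (Finset.mem_univ _) h
  simp_rw [h4]
  rw [Finset.sum_ite_eq' Finset.univ S]
  simp only [Finset.mem_univ, if_true]
  field_simp

theorem W_single {s : ℕ} {W : Finset (B s) → Finset (B s) → ℝ} (hW : IsW W) (b a : B s) :
    W {b} {a} = Had a b := by
  rw [hW.lap₁ {b} {a} a (Finset.mem_singleton_self a)]
  simp [hW.empty]

theorem planted (k s : ℕ) (W : Finset (B s) → Finset (B s) → ℝ) (δ : ℝ) (hW : IsW W) :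
    avg (fun z : FV k s → Bool => chain (fun _ : Fin k => hpair W δ δ) z * phi z)
      = δ ^ (2 * k) := by
  have h1 : (fun z : FV k s → Bool => chain (fun _ : Fin k => hpair W δ δ) z * phi z) = fun z =>
      ∑ S : Fin (k + 1) → Finset (B s), ∑ p : Fin (k + 1) → B s,
        ((∏ j : Fin k, coef2 (hpair W δ δ) (S j.castSucc) (S j.succ)) * pathW p / 2 ^ s) *
          (chrK S z * chrK (fun i => {p i}) z) := by
    funext z
    rw [phi_eq]
    unfold chain
    rw [mul_div_assoc', Finset.sum_mul_sum, Finset.sum_div]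
    refine Finset.sum_congr rfl (fun S _ => ?_)
    rw [Finset.sum_div]
    refine Finset.sum_congr rfl (fun p _ => ?_)
    ring
  rw [h1, avg_sum]
  simp_rw [avg_sum, avg_mul, chrK_orth]
  rw [Finset.sum_comm]
  have h2 : ∀ p : Fin (k + 1) → B s, (∑ S : Fin (k + 1) → Finset (B s),
      ((∏ j : Fin k, coef2 (hpair W δ δ) (S j.castSucc) (S j.succ)) * pathW p / 2 ^ s) *
        (if S = fun i => {p i} then (1 : ℝ) else 0)) = δ ^ (2 * k) / ((2 ^ s) ^ k * 2 ^ s) := by
    intro p
    rw [Finset.sum_eq_single (fun i => ({p i} : Finset (B s)))]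
    · simp only [if_true, mul_one]
      have h3 : ∀ j : Fin k, coef2 (hpair W δ δ) ({p j.castSucc} : Finset (B s)) {p j.succ}
          = δ ^ 2 * Had (p j.succ) (p j.castSucc) := by
        intro j
        rw [coef2_hpair, W_single hW]
        simp [sq]
      simp_rw [h3]
      rw [Finset.prod_mul_distrib]
      have h4 : (∏ j : Fin k, Had (p j.succ) (p j.castSucc)) = pathW p := rfl
      rw [h4]
      have h5 := pathW_sq p
      simp only [Finset.prod_const, Finset.card_univ, Fintype.card_fin, ← pow_mul]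
      have h6 : δ ^ (2 * k) * pathW p * pathW p / 2 ^ s = δ ^ (2 * k) * (pathW p ^ 2) / 2 ^ s := by
        ring
      rw [h6, h5]
      rw [pow_mul 2 s k] 
      field_simp
    · intro S _ h; simp [h]
    · intro h; exact absurd (Finset.mem_univ _) h
  simp_rw [h2]
  rw [Finset.sum_const, Finset.card_univ]
  simp only [Fintype.card_pi, Finset.prod_const, Finset.card_univ, Fintype.card_bool,
    Fintype.card_fin, nsmul_eq_mul, Nat.cast_pow, Nat.cast_ofNat]
  rw [pow_succ]
  field_simp

end C5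

theorem phiP : PhiP where
  recu := C5.recu
  abs_le := C5.abs_le
  null := C5.null
  planted := fun k s W δ _ hW => C5.planted k s W δ hW

end Crest.Agent.R350
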