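import Crest.Agent.R350.Defs

/-!
# Row 350, task C6: hardness of one instance
-/

set_option autoImplicit false

open Finset Classical

namespace Crest.Agent.R350

namespace C6

/-! ### averages -/

section avg
variable {V : Type} [Fintype V]

theorem avg_sub (f g : (V → Bool) → ℝ) : avg (fun z => f z - g z) = avg f - avg g := by
  unfold avg
  rw [Finset.sum_sub_distrib, sub_div]

theorem avg_mono {f g : (V → Bool) → ℝ} (h : ∀ z, f z ≤ g z) : avg f ≤ avg g := by
  unfold avg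
  exact div_le_div_of_nonneg_right (Finset.sum_le_sum fun z _ => h z) (by positivity)

theorem abs_avg_le (f : (V → Bool) → ℝ) : |avg f| ≤ avg fun z => |f z| := by
  unfold avg
  rw [abs_div, abs_of_pos (show (0:ℝ) < 2 ^ Fintype.card V by positivity)]
  exact div_le_div_of_nonneg_right (Finset.abs_sum_le_sum_abs _ _) (by positivity)

theorem sum_avg [DecidableEq V] (a : (V → Bool) → ℝ) :
    ∑ z, a z / 2 ^ (Fintype.card V) = avg a := by
  unfold avg
  rw [Finset.sum_div]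
  exact Finset.sum_congr (by ext; simp) fun z _ => rfl

theorem sum_weight [DecidableEq V] (a T : (V → Bool) → ℝ) :
    ∑ z, a z / 2 ^ (Fintype.card V) * T z = avg fun z => a z * T z := by
  rw [← sum_avg]
  exact Finset.sum_congr rfl fun z _ => by ring

theorem diff_le (a b T : (V → Bool) → ℝ) (hT : ∀ z, |T z| ≤ 1) :
    |avg (fun z => a z * T z) - avg (fun z => b z * T z)| ≤ avg fun z => |a z - b z| := by
  rw [← avg_sub]
  refine (abs_avg_le _).trans (avg_mono fun z => ?_)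
  rw [← sub_mul, abs_mul]
  exact mul_le_of_le_one_right (abs_nonneg _) (hT z)

theorem sum_chr [DecidableEq V] (S : Finset V) :
    ∑ y : V → Bool, chr S y = if S = ∅ then (2:ℝ) ^ (Fintype.card V) else 0 := by
  have h1 : ∀ y : V → Bool, chr S y = ∏ v, (if v ∈ S then sgn (y v) else 1) := by
    intro y
    unfold chr
    rw [Finset.prod_ite_mem, Finset.univ_inter]
  have h2 : ∑ y : V → Bool, chr S y = ∏ v : V, ∑ b : Bool, (if v ∈ S then sgn b else 1) := by
    rw [Finset.prod_univ_sum, Fintype.piFinset_univ]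
    exact Finset.sum_congr rfl fun y _ => h1 y
  rw [h2]
  split_ifs with hS
  · subst hS
    simp
  · obtain ⟨v, hv⟩ := Finset.nonempty_iff_ne_empty.2 hS
    refine Finset.prod_eq_zero (Finset.mem_univ v) ?_
    simp [hv, sgn]

end avg

/-! ### pair functions -/

theorem card_cube (s : ℕ) : Fintype.card (B s) = 2 ^ s := by simp [B]

theorem mean_hpair {s : ℕ} (W : Finset (B s) → Finset (B s) → ℝ) (hW : W ∅ ∅ = 1) (δ₁ δ₂ : ℝ) :
    (∑ y : B s → Bool, ∑ w : B s → Bool, hpair W δ₁ δ₂ y w) = (2 ^ (2 ^ s)) ^ 2 := by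
  have h1 : (∑ y : B s → Bool, ∑ w : B s → Bool, hpair W δ₁ δ₂ y w) =
      ∑ S : Finset (B s), ∑ S' : Finset (B s),
        δ₁ ^ S.card * δ₂ ^ S'.card * W S S' * (∑ y : B s → Bool, chr S y) *
          (∑ w : B s → Bool, chr S' w) := by
    unfold hpair
    have e1 : ∀ y : B s → Bool, ∑ w : B s → Bool, ∑ S : Finset (B s), ∑ S' : Finset (B s),
        δ₁ ^ S.card * δ₂ ^ S'.card * W S S' * chr S y * chr S' w =
        ∑ S : Finset (B s), ∑ S' : Finset (B s),
        δ₁ ^ S.card * δ₂ ^ S'.card * W S S' * chr S y * (∑ w : B s → Bool, chr S' w) := by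
      intro y
      rw [Finset.sum_comm]
      refine Finset.sum_congr rfl fun S _ => ?_
      rw [Finset.sum_comm]
      refine Finset.sum_congr rfl fun S' _ => ?_
      rw [Finset.mul_sum]
    rw [Finset.sum_congr rfl fun y _ => e1 y, Finset.sum_comm]
    refine Finset.sum_congr rfl fun S _ => ?_
    rw [Finset.sum_comm]
    refine Finset.sum_congr rfl fun S' _ => ?_
    rw [← Finset.sum_mul, ← Finset.mul_sum]
  rw [h1, Finset.sum_eq_single ∅, Finset.sum_eq_single ∅]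
  · simp [sum_chr, hW, card_cube]
    ring
  · intro S' _ hS'
    simp [sum_chr, hS']
  · intro h; exact absurd (Finset.mem_univ _) h
  · intro S _ hS
    refine Finset.sum_eq_zero fun S' _ => ?_
    simp [sum_chr, hS]
  · intro h; exact absurd (Finset.mem_univ _) h

theorem coef2_empty {s : ℕ} (h : (B s → Bool) → (B s → Bool) → ℝ) :
    coef2 h ∅ ∅ = (∑ y, ∑ w, h y w) / (2 ^ (2 ^ s)) ^ 2 := by
  unfold coef2
  congr 1
  refine Finset.sum_congr rfl fun y _ => Finset.sum_congr rfl fun w _ => ?_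
  simp [chr]

/-- normalised absolute value of a function of mean one. -/
theorem pos_part {s : ℕ} (h : (B s → Bool) → (B s → Bool) → ℝ)
    (h1 : (∑ y : B s → Bool, ∑ w : B s → Bool, h y w) = (2 ^ (2 ^ s)) ^ 2) (Λ : ℝ)
    (hΛ : L1p h ≤ Λ) :
    ∃ h' : (B s → Bool) → (B s → Bool) → ℝ, (∀ y w, 0 ≤ h' y w) ∧ coef2 h' ∅ ∅ = 1 ∧
      L1p h' = 1 ∧ L1p (fun y w => h' y w - h y w) ≤ 2 * (Λ - 1) ∧ 1 ≤ Λ := by
  set N : ℝ := (2 ^ (2 ^ s)) ^ 2 with hN
  have hNpos : 0 < N := by positivity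
  set m := L1p h with hm
  have hmdef : (∑ y, ∑ w, |h y w|) = m * N := by
    rw [hm]; unfold L1p; rw [← hN]; field_simp
  have hm1 : 1 ≤ m := by
    have : N ≤ m * N := by
      rw [← hmdef]
      calc N = ∑ y : B s → Bool, ∑ w : B s → Bool, h y w := h1.symm
        _ ≤ ∑ y, ∑ w, |h y w| :=
          Finset.sum_le_sum fun y _ => Finset.sum_le_sum fun w _ => le_abs_self _
    nlinarith
  have hm0 : 0 < m := by linarith
  refine ⟨fun y w => |h y w| / m, fun y w => by positivity, ?_, ?_, ?_, hm1.trans hΛ⟩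
  · rw [coef2_empty, ← hN]
    simp_rw [← Finset.sum_div]
    rw [hmdef]
    field_simp
  · unfold L1p
    rw [← hN]
    have : ∀ y w, |(|h y w| / m)| = |h y w| / m := fun y w => abs_of_nonneg (by positivity)
    simp_rw [this, ← Finset.sum_div]
    rw [hmdef]
    field_simp
  · unfold L1p
    rw [← hN, div_le_iff₀ hNpos]
    have key : ∀ y w, |(|h y w| / m) - h y w| ≤ (|h y w| - h y w) + (|h y w| - |h y w| / m) := by
      intro y w
      have e : |h y w| / m ≤ |h y w| := div_le_self (abs_nonneg _) hm1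
      have e' := le_abs_self (h y w)
      rw [abs_le]
      constructor <;> linarith
    calc ∑ y, ∑ w, |(|h y w| / m) - h y w|
        ≤ ∑ y, ∑ w, ((|h y w| - h y w) + (|h y w| - |h y w| / m)) :=
          Finset.sum_le_sum fun y _ => Finset.sum_le_sum fun w _ => key y w
      _ = (∑ y, ∑ w, |h y w| - ∑ y, ∑ w, h y w) +
            (∑ y, ∑ w, |h y w| - (∑ y, ∑ w, |h y w|) / m) := by
          simp_rw [Finset.sum_add_distrib, Finset.sum_sub_distrib, Finset.sum_div]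
      _ = 2 * (m - 1) * N := by
          rw [hmdef, h1]
          field_simp
          ring
      _ ≤ 2 * (Λ - 1) * N := by
          have : m ≤ Λ := hΛ
          have : 2 * (m - 1) ≤ 2 * (Λ - 1) := by linarith
          exact mul_le_mul_of_nonneg_right this hNpos.le

/-! ### paths -/

theorem abs_chi {s : ℕ} (a b : B s) : |chi a b| = 1 := by
  unfold chi
  rw [Finset.abs_prod]
  refine Finset.prod_eq_one fun i _ => ?_
  split_ifs <;> simp

theorem abs_Had {s : ℕ} (a b : B s) : |Had a b| = 1 / Real.sqrt (2 ^ s) := by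
  unfold Had
  rw [abs_div, abs_chi, abs_of_nonneg (Real.sqrt_nonneg _)]

theorem abs_pathW {k s : ℕ} (p : Fin (k + 1) → B s) :
    Real.sqrt (2 ^ s) ^ k * |pathW p| = 1 := by
  unfold pathW
  rw [Finset.abs_prod]
  simp_rw [abs_Had]
  rw [Finset.prod_const, Finset.card_univ, Fintype.card_fin, ← mul_pow]
  have : Real.sqrt (2 ^ s) ≠ 0 := by positivity
  rw [mul_one_div_cancel this, one_pow]

theorem pset_inj {k s : ℕ} : Function.Injective (pset : (Fin (k + 1) → B s) → Finset (FV k s)) := by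
  intro p q h
  funext i
  have : (i, p i) ∈ pset q := by
    rw [← h]
    unfold pset
    exact Finset.mem_image_of_mem _ (Finset.mem_univ i)
  unfold pset at this
  obtain ⟨j, _, hj⟩ := Finset.mem_image.1 this
  rw [Prod.mk.injEq] at hj
  obtain ⟨rfl, h2⟩ := hj
  exact h2.symm

theorem card_pset {k s : ℕ} (p : Fin (k + 1) → B s) : (pset p).card = k + 1 := by
  unfold pset
  rw [Finset.card_image_of_injective, Finset.card_univ, Fintype.card_fin]
  intro i j h
  exact (Prod.mk.injEq _ _ _ _ ▸ h).1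

theorem path_bound (k : ℕ) (η₁ C : ℝ) (hη : 4 ≤ η₁ * (k + 1)) (hC : 0 < C)
    (hL : ∀ (V : Type) [Fintype V] (T : Tree V ℝ) (d : ℕ),
      T.depth ≤ d → (∀ x, |T.eval x| ≤ 1) → ∀ (c : Finset V → ℝ), (∀ S, |c S| ≤ 1) →
      ∀ x' : V → Bool,
        |∑ S ∈ univ.filter (fun S : Finset V => S.card = k + 1),
          c S * dz (fun x => T.eval x) S (fun v => sgn (x' v) / 2)| ^ (2 * (k + 1))
        ≤ C * (d : ℝ) ^ ((k + 1) * (k + 1)) * (Fintype.card V : ℝ) ^ (k + 1))
    (C' : ℝ) (hC' : 1 ≤ C') (hCC : C * ((k : ℝ) + 1) ^ (k + 1) ≤ C')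
    (s : ℕ) (T : Tree (FV k s) ℝ) (hT : ∀ z, |T.eval z| ≤ 1)
    (hd : (T.depth : ℝ) ≤ (2 : ℝ) ^ ((s : ℝ) * (1 - η₁))) (x' : FV k s → Bool) :
    |∑ p : Fin (k + 1) → B s, pathW p *
      dz (fun x => T.eval x) (pset p) (fun v => sgn (x' v) / 2)| ≤ C' * (1 / 2) ^ s := by
  set z : FV k s → ℝ := fun v => sgn (x' v) / 2 with hz
  set Sg := ∑ p : Fin (k + 1) → B s, pathW p * dz (fun x => T.eval x) (pset p) z with hSg
  let c : Finset (FV k s) → ℝ := fun S =>
    if h : ∃ p, pset p = S then Real.sqrt (2 ^ s) ^ k * pathW h.choose else 0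
  have hcp : ∀ p : Fin (k + 1) → B s, c (pset p) = Real.sqrt (2 ^ s) ^ k * pathW p := by
    intro p
    have h : ∃ q : Fin (k + 1) → B s, pset q = pset p := ⟨p, rfl⟩
    have : h.choose = p := pset_inj h.choose_spec
    simp only [c]
    rw [dif_pos h, this]
  have hc : ∀ S, |c S| ≤ 1 := by
    intro S
    by_cases h : ∃ p : Fin (k + 1) → B s, pset p = S
    · obtain ⟨p, rfl⟩ := h
      rw [hcp, abs_mul, abs_of_nonneg (by positivity), abs_pathW]
    · simp only [c]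
      rw [dif_neg h]
      simp
  have hsum : ∑ S ∈ univ.filter (fun S : Finset (FV k s) => S.card = k + 1),
      c S * dz (fun x => T.eval x) S z = Real.sqrt (2 ^ s) ^ k * Sg := by
    have hsub : (univ : Finset (Fin (k + 1) → B s)).image pset ⊆
        univ.filter (fun S : Finset (FV k s) => S.card = k + 1) := by
      intro S hS
      obtain ⟨p, _, rfl⟩ := Finset.mem_image.1 hS
      exact Finset.mem_filter.2 ⟨Finset.mem_univ _, card_pset p⟩
    rw [← Finset.sum_subset hsub]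
    · rw [Finset.sum_image (fun a _ b _ h => pset_inj h), hSg, Finset.mul_sum]
      refine Finset.sum_congr rfl fun p _ => ?_
      rw [hcp, mul_assoc]
    · intro S _ hS
      have h : ¬ ∃ p : Fin (k + 1) → B s, pset p = S := by
        rintro ⟨p, rfl⟩
        exact hS (Finset.mem_image_of_mem _ (Finset.mem_univ p))
      simp only [c]
      rw [dif_neg h, zero_mul]
  have hmain := hL (FV k s) T T.depth le_rfl hT c hc x'
  rw [← hz, hsum] at hmain
  -- from here: arithmetic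
  have hcard : (Fintype.card (FV k s) : ℝ) = ((k : ℝ) + 1) * 2 ^ s := by
    have : Fintype.card (FV k s) = (k + 1) * 2 ^ s := by
      simp [FV, B]
    rw [this]; push_cast; ring
  rw [hcard] at hmain
  have hd' : (T.depth : ℝ) ^ ((k + 1) * (k + 1)) ≤
      ((2 : ℝ) ^ ((s : ℝ) * (1 - η₁))) ^ ((k + 1) * (k + 1)) :=
    pow_le_pow_left₀ (by positivity) hd _
  have hexp : ((2 : ℝ) ^ ((s : ℝ) * (1 - η₁))) ^ ((k + 1) * (k + 1)) * (2 ^ s) ^ (k + 1) ≤
      (2 ^ s) ^ (k * (k + 1)) * ((1 / 2 : ℝ) ^ s) ^ (2 * (k + 1)) := by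
    have e1 : ((2 : ℝ) ^ ((s : ℝ) * (1 - η₁))) ^ ((k + 1) * (k + 1)) * (2 ^ s) ^ (k + 1) =
        (2 : ℝ) ^ ((s : ℝ) * (1 - η₁) * ((k + 1) * (k + 1)) + s * (k + 1)) := by
      rw [Real.rpow_add (by norm_num)]
      congr 1
      · rw [← Real.rpow_natCast, ← Real.rpow_mul (by norm_num)]
        congr 1
        push_cast; ring
      · rw [← Real.rpow_natCast (2:ℝ) s, ← Real.rpow_natCast _ (k + 1),
          ← Real.rpow_mul (by norm_num)]
        congr 1
        push_cast; ring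
    have e2 : ((2:ℝ) ^ s) ^ (k * (k + 1)) * ((1 / 2 : ℝ) ^ s) ^ (2 * (k + 1)) =
        (2 : ℝ) ^ ((s : ℝ) * (k * (k + 1)) + -(s * (2 * (k + 1)))) := by
      rw [Real.rpow_add (by norm_num), Real.rpow_neg (by norm_num)]
      congr 1
      · rw [← Real.rpow_natCast (2:ℝ) s, ← Real.rpow_natCast _ (k * (k + 1)),
          ← Real.rpow_mul (by norm_num)]
        congr 1
        push_cast; ring
      · rw [one_div, inv_pow, inv_pow]
        congr 1
        rw [← Real.rpow_natCast (2:ℝ) s, ← Real.rpow_natCast _ (2 * (k + 1)),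
          ← Real.rpow_mul (by norm_num)]
        congr 1
        push_cast; ring
    rw [e1, e2]
    refine Real.rpow_le_rpow_of_exponent_le (by norm_num) ?_
    have hs : (0:ℝ) ≤ s := Nat.cast_nonneg s
    have hk : (0:ℝ) ≤ k := Nat.cast_nonneg k
    have h1 : 0 ≤ (s:ℝ) * (k + 1) := by positivity
    nlinarith [mul_nonneg h1 (sub_nonneg.2 hη)]
  have hq : 0 < Real.sqrt (2 ^ s) := by positivity
  have hsq : (Real.sqrt (2 ^ s) ^ k) ^ (2 * (k + 1)) = ((2:ℝ) ^ s) ^ (k * (k + 1)) := by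
    rw [← pow_mul, show k * (2 * (k + 1)) = 2 * (k * (k + 1)) by ring, pow_mul,
      Real.sq_sqrt (by positivity)]
  have hfin : |Sg| ^ (2 * (k + 1)) ≤ (C' * (1 / 2) ^ s) ^ (2 * (k + 1)) := by
    rw [abs_mul, mul_pow, abs_of_pos (by positivity : 0 < Real.sqrt (2 ^ s) ^ k), hsq] at hmain
    have hP : (0:ℝ) < (2 ^ s) ^ (k * (k + 1)) := by positivity
    refine le_of_mul_le_mul_left ?_ hP
    refine hmain.trans ?_
    have hC1 : C' ≤ C' ^ (2 * (k + 1)) := by
      calc C' = C' ^ 1 := (pow_one _).symm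
        _ ≤ C' ^ (2 * (k + 1)) := pow_le_pow_right₀ hC' (by omega)
    calc C * (T.depth : ℝ) ^ ((k + 1) * (k + 1)) * (((k:ℝ) + 1) * 2 ^ s) ^ (k + 1)
        = (C * ((k : ℝ) + 1) ^ (k + 1)) *
            ((T.depth : ℝ) ^ ((k + 1) * (k + 1)) * (2 ^ s) ^ (k + 1)) := by
          rw [mul_pow]; ring
      _ ≤ C' ^ (2 * (k + 1)) *
            (((2 : ℝ) ^ ((s : ℝ) * (1 - η₁))) ^ ((k + 1) * (k + 1)) * (2 ^ s) ^ (k + 1)) := by
          refine mul_le_mul (hCC.trans hC1) ?_ (by positivity) (by positivity)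
          exact mul_le_mul_of_nonneg_right hd' (by positivity)
      _ ≤ C' ^ (2 * (k + 1)) *
            ((2 ^ s) ^ (k * (k + 1)) * ((1 / 2 : ℝ) ^ s) ^ (2 * (k + 1))) :=
          mul_le_mul_of_nonneg_left hexp (by positivity)
      _ = (2 ^ s) ^ (k * (k + 1)) * (C' * (1 / 2) ^ s) ^ (2 * (k + 1)) := by
          rw [mul_pow]; ring
  exact le_of_pow_le_pow_left₀ (by omega) (by positivity) hfin

end C6

open C6

theorem forrHard (hL1 : L1k) (hGP : GaussPair) (hCh : ChainP) (hDB : DerivBound) (hPhi : PhiP) :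
    ForrHard := by
  intro k η₁ ε₀ hk hη hε
  obtain ⟨C, hC, hL⟩ := hL1 (k + 1) (k + 1) (by omega)
  set C' : ℝ := max 1 (C * ((k : ℝ) + 1) ^ (k + 1)) with hC'def
  have hC' : 1 ≤ C' := le_max_left _ _
  have hCC : C * ((k : ℝ) + 1) ^ (k + 1) ≤ C' := le_max_right _ _
  obtain ⟨r, hr⟩ := exists_nat_ge (4 / ε₀)
  have hr4 : 4 ≤ ε₀ * r := by
    rw [div_le_iff₀ hε] at hr; linarith
  have hr1 : 1 ≤ r := by
    rcases Nat.eq_zero_or_pos r with h | h
    · subst h; norm_num at hr4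
    · exact h
  -- constants
  set M₁ : ℝ := 2 * (((2 * r).factorial : ℝ) * 2 ^ (2 * r + 1)) with hM1
  set M₂ : ℝ := 2 ^ (k + 2) * k with hM2
  set M₃ : ℝ := 2 ^ (k + 1) * k + 2 ^ k * C' with hM3
  obtain ⟨n₁, hn1⟩ := exists_nat_ge (max M₁ (max M₂ (M₃ ^ 2)))
  refine ⟨n₁, fun s hs g hg hεg hgk => ?_⟩
  have hs2 : (n₁ : ℝ) ≤ 2 ^ s := by
    have h1 : (n₁ : ℝ) ≤ s := by exact_mod_cast hs
    have h2 : (s : ℝ) ≤ 2 ^ s := by exact_mod_cast (Nat.lt_two_pow_self (n := s)).le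
    linarith
  have hF1 : M₁ ≤ 2 ^ s := ((le_max_left _ _).trans hn1).trans hs2
  have hF2 : M₂ ≤ 2 ^ s := (((le_max_left _ _).trans (le_max_right _ _)).trans hn1).trans hs2
  have hF3 : M₃ ^ 2 ≤ 2 ^ s := (((le_max_right _ _).trans (le_max_right _ _)).trans hn1).trans hs2
  obtain ⟨W, hW, hGW⟩ := hGP s
  set δ : ℝ := (1 / 2) ^ g with hδ
  have hδ0 : 0 ≤ δ := by positivity
  have hδ1 : δ ≤ 1 := pow_le_one₀ (by norm_num) (by norm_num)
  set Λ : ℝ := 1 + (1 / 4) ^ s with hΛ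
  have hΛ1 : 1 ≤ Λ := by rw [hΛ]; have : (0:ℝ) < (1/4)^s := by positivity
                         linarith
  have hΛ2 : Λ ≤ 2 := by
    have : ((1:ℝ) / 4) ^ s ≤ 1 := pow_le_one₀ (by norm_num) (by norm_num)
    rw [hΛ]; linarith
  -- scales
  have hscale : ∀ δ₁ δ₂ : ℝ, 0 ≤ δ₁ → δ₁ ≤ 2 * δ → 0 ≤ δ₂ → δ₂ ≤ 2 * δ →
      L1p (hpair W δ₁ δ₂) ≤ Λ := by
    intro δ₁ δ₂ h1 h2 h3 h4
    refine (hGW δ₁ δ₂ r h1 h3 hr1).trans ?_
    have hrg : 4 * s ≤ r * g := by
      have : (4:ℝ) * s ≤ r * g := by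
        have hs0 : (0:ℝ) ≤ s := Nat.cast_nonneg s
        have hr0 : (0:ℝ) ≤ r := Nat.cast_nonneg r
        calc (4:ℝ) * s ≤ (ε₀ * r) * s := mul_le_mul_of_nonneg_right hr4 hs0
          _ = r * (ε₀ * s) := by ring
          _ ≤ r * g := mul_le_mul_of_nonneg_left hεg hr0
      exact_mod_cast this
    have hp : (2 * δ) ^ (2 * r) ≤ 2 ^ (2 * r) * (1 / 2) ^ (8 * s) := by
      rw [mul_pow, hδ, ← pow_mul]
      refine mul_le_mul_of_nonneg_left ?_ (by positivity)
      refine pow_le_pow_of_le_one (by norm_num) (by norm_num) ?_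
      nlinarith
    have hx1 : δ₁ ^ (2 * r) ≤ 2 ^ (2 * r) * (1 / 2) ^ (8 * s) :=
      (pow_le_pow_left₀ h1 h2 _).trans hp
    have hx2 : δ₂ ^ (2 * r) ≤ 2 ^ (2 * r) * (1 / 2) ^ (8 * s) :=
      (pow_le_pow_left₀ h3 h4 _).trans hp
    set x : ℝ := 2 ^ s * ((2 * r).factorial : ℝ) * (δ₁ ^ (2 * r) + δ₂ ^ (2 * r)) with hx
    have hx0 : 0 ≤ x := by rw [hx]; positivity
    have hxb : x ≤ 1 / 2 * (1 / 4) ^ s := by
      have hQ : (0:ℝ) ≤ 2 ^ s * ((2 * r).factorial : ℝ) := by positivity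
      have e1 : x ≤ 2 ^ s * ((2 * r).factorial : ℝ) *
          (2 * (2 ^ (2 * r) * (1 / 2) ^ (8 * s))) := by
        rw [hx]
        refine mul_le_mul_of_nonneg_left ?_ hQ
        linarith
      have e2 : 2 ^ s * ((2 * r).factorial : ℝ) * (2 * (2 ^ (2 * r) * (1 / 2) ^ (8 * s))) =
          M₁ * (2 ^ s * (1 / 2) ^ (8 * s)) / 2 := by
        rw [hM1, pow_succ]; ring
      have e3 : M₁ * (2 ^ s * (1 / 2 : ℝ) ^ (8 * s)) ≤ 2 ^ s * (2 ^ s * (1 / 2) ^ (8 * s)) :=
        mul_le_mul_of_nonneg_right hF1 (by positivity)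
      have e4 : (2:ℝ) ^ s * (2 ^ s * (1 / 2) ^ (8 * s)) = (1 / 4) ^ s * (1 / 16) ^ s := by
        have : ((1:ℝ) / 2) ^ (8 * s) = (1 / 256) ^ s := by rw [pow_mul]; norm_num
        rw [this, ← mul_pow, ← mul_pow, ← mul_pow]
        norm_num
      have e5 : ((1:ℝ) / 16) ^ s ≤ 1 := pow_le_one₀ (by norm_num) (by norm_num)
      have e6 : ((1:ℝ) / 4) ^ s * (1 / 16) ^ s ≤ (1 / 4) ^ s * 1 :=
        mul_le_mul_of_nonneg_left e5 (by positivity)
      linarith
    have hq1 : ((1:ℝ) / 4) ^ s ≤ 1 := pow_le_one₀ (by norm_num) (by norm_num)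
    have hx1' : |x| ≤ 1 := by rw [abs_of_nonneg hx0]; linarith
    have := Real.abs_exp_sub_one_le hx1'
    rw [abs_of_nonneg hx0] at this
    have := (abs_le.1 this).2
    rw [hΛ]; linarith
  have hδδ : δ ≤ 2 * δ := by linarith
  set h : (B s → Bool) → (B s → Bool) → ℝ := hpair W δ δ with hh
  have hLh : L1p h ≤ Λ := hscale δ δ hδ0 hδδ hδ0 hδδ
  obtain ⟨h', hh0, hh1, hh2, hh3, -⟩ := pos_part h (mean_hpair W hW.empty δ δ) Λ hLh
  -- the difference of the chains
  have hdiff : avg (fun z => |chain (fun _ : Fin k => h') z - chain (fun _ : Fin k => h) z|) ≤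
      2 ^ (k + 1) * k * (1 / 4) ^ s := by
    have := hCh.diff k s (fun _ => h') (fun _ => h) Λ hk hΛ1 (fun _ => by rw [hh2]; exact hΛ1)
      (fun _ => hLh)
    refine this.trans ?_
    have e1 : ∑ j : Fin k, L1p (fun y w => h' y w - h y w) ≤ k * (2 * (1 / 4) ^ s) := by
      rw [Finset.sum_const, Finset.card_univ, Fintype.card_fin, nsmul_eq_mul]
      refine mul_le_mul_of_nonneg_left ?_ (Nat.cast_nonneg k)
      refine hh3.trans ?_
      rw [hΛ]; linarith
    have e0 : 0 ≤ ∑ j : Fin k, L1p (fun y w => h' y w - h y w) :=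
      Finset.sum_nonneg fun j _ => by unfold L1p; positivity
    calc Λ ^ k * ∑ j : Fin k, L1p (fun y w => h' y w - h y w)
        ≤ 2 ^ k * (k * (2 * (1 / 4) ^ s)) :=
          mul_le_mul (pow_le_pow_left₀ (by linarith) hΛ2 _) e1 e0 (by positivity)
      _ = 2 ^ (k + 1) * k * (1 / 4) ^ s := by rw [pow_succ]; ring
  refine ⟨fun z => chain (fun _ : Fin k => h') z / 2 ^ (Fintype.card (FV k s)), ?_, ?_, ?_, ?_⟩
  · intro z
    exact div_nonneg (hCh.nonneg k s _ hk (fun _ => hh0) z) (by positivity)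
  · have := hCh.mean k s (fun _ => h') hk
    refine (sum_avg (V := FV k s) _).trans ?_
    rw [this, hh1, Finset.prod_const_one]
  · beta_reduce
    rw [sum_weight]
    have h1 := hPhi.planted k s W δ hk hW
    have h2 := diff_le (chain (fun _ : Fin k => h')) (chain (fun _ : Fin k => h)) phi
      (fun z => hPhi.abs_le k s z)
    rw [← hh] at h1
    have h3 := (abs_le.1 (h2.trans hdiff)).1
    rw [h1] at h3
    have h4 : δ ^ (2 * k) = (1 / 4) ^ (g * k) := by
      rw [hδ, ← pow_mul, show g * (2 * k) = 2 * (g * k) by ring, pow_mul]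
      norm_num
    rw [h4] at h3
    have h5 : 2 ^ (k + 1) * (k:ℝ) * (1 / 4) ^ s ≤ 1 / 2 * (1 / 4) ^ (g * k) := by
      have hgs : s ≤ 2 * (s - g * k) := by
        have : 8 * g * k = 8 * (g * k) := by ring
        omega
      have e1 : ((1:ℝ) / 4) ^ s = (1 / 4) ^ (g * k) * (1 / 4) ^ (s - g * k) := by
        rw [← pow_add]; congr 1
        have : 8 * g * k = 8 * (g * k) := by ring
        omega
      have e2 : ((1:ℝ) / 4) ^ (s - g * k) ≤ (1 / 2) ^ s := by
        have : ((1:ℝ) / 4) ^ (s - g * k) = (1 / 2) ^ (2 * (s - g * k)) := by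
          rw [pow_mul]; norm_num
        rw [this]
        exact pow_le_pow_of_le_one (by norm_num) (by norm_num) hgs
      have e3 : M₂ * (1 / 2) ^ s ≤ 1 := by
        have : M₂ * (1 / 2) ^ s ≤ 2 ^ s * (1 / 2) ^ s :=
          mul_le_mul_of_nonneg_right hF2 (by positivity)
        rwa [← mul_pow, show (2:ℝ) * (1 / 2) = 1 by norm_num, one_pow] at this
      have e4 : 2 ^ (k + 1) * (k:ℝ) * (1 / 4) ^ (s - g * k) ≤ 1 / 2 := by
        have : 2 ^ (k + 1) * (k:ℝ) * (1 / 4) ^ (s - g * k) ≤ 2 ^ (k + 1) * (k:ℝ) * (1 / 2) ^ s :=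
          mul_le_mul_of_nonneg_left e2 (by positivity)
        have e5 : M₂ * (1 / 2) ^ s = 2 * (2 ^ (k + 1) * (k:ℝ) * (1 / 2) ^ s) := by
          rw [hM2, pow_succ (2:ℝ) (k+1)]; ring
        linarith
      calc 2 ^ (k + 1) * (k:ℝ) * (1 / 4) ^ s
          = (2 ^ (k + 1) * (k:ℝ) * (1 / 4) ^ (s - g * k)) * (1 / 4) ^ (g * k) := by
            rw [e1]; ring
        _ ≤ 1 / 2 * (1 / 4) ^ (g * k) := mul_le_mul_of_nonneg_right e4 (by positivity)
    have h6 : avg (fun z => chain (fun _ : Fin k => h') z * phi z) ≥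
        (1 / 4) ^ (g * k) - 2 ^ (k + 1) * (k:ℝ) * (1 / 4) ^ s := by linarith
    linarith
  · intro T hT hTd
    beta_reduce
    rw [sum_weight]
    have h2 := diff_le (chain (fun _ : Fin k => h')) (chain (fun _ : Fin k => h))
      (fun z => T.eval z) hT
    have hG := path_bound k η₁ C hη hC hL C' hC' hCC s T hT hTd
    have h3 := hDB k s W δ Λ (C' * (1 / 2) ^ s) (fun z => T.eval z) hk hW hδ0 (by positivity)
      hscale hG
    rw [← hh] at h3
    have h4 : δ ^ (2 * k) * Λ ^ k * (C' * (1 / 2) ^ s) ≤ 2 ^ k * C' * (1 / 2) ^ s := by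
      have a1 : δ ^ (2 * k) ≤ 1 := pow_le_one₀ hδ0 hδ1
      have a2 : Λ ^ k ≤ 2 ^ k := pow_le_pow_left₀ (by linarith) hΛ2 _
      have a3 : δ ^ (2 * k) * Λ ^ k ≤ 1 * 2 ^ k := mul_le_mul a1 a2 (by positivity) (by norm_num)
      calc δ ^ (2 * k) * Λ ^ k * (C' * (1 / 2) ^ s) ≤ 1 * 2 ^ k * (C' * (1 / 2) ^ s) :=
            mul_le_mul_of_nonneg_right a3 (by positivity)
        _ = _ := by ring
    set x : ℝ := (2:ℝ) ^ (-(s:ℝ) / 2) with hx
    have hx0 : 0 < x := by rw [hx]; positivity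
    have hx2 : x ^ 2 = (1 / 2) ^ s := by
      rw [hx, ← Real.rpow_natCast, ← Real.rpow_mul (by norm_num)]
      rw [show (-(s:ℝ) / 2 * ((2:ℕ):ℝ)) = -(s:ℝ) by push_cast; ring]
      rw [Real.rpow_neg (by norm_num), Real.rpow_natCast, one_div, inv_pow]
    have hx4 : ((1:ℝ) / 4) ^ s ≤ x ^ 2 := by
      rw [hx2]
      exact pow_le_pow_left₀ (by norm_num) (by norm_num) _
    have hM3pos : 0 ≤ M₃ := by rw [hM3]; positivity
    have hMx : M₃ * x ≤ 1 := by
      have h5 : (M₃ * x) ^ 2 ≤ 1 := by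
        rw [mul_pow, hx2]
        calc M₃ ^ 2 * (1 / 2) ^ s ≤ 2 ^ s * (1 / 2) ^ s :=
              mul_le_mul_of_nonneg_right hF3 (by positivity)
          _ = 1 := by rw [← mul_pow]; norm_num
      have h6 : 0 ≤ M₃ * x := by positivity
      nlinarith
    calc |avg (fun z => chain (fun _ : Fin k => h') z * T.eval z) - avg (fun z => T.eval z)|
        ≤ |avg (fun z => chain (fun _ : Fin k => h') z * T.eval z) -
            avg (fun z => chain (fun _ : Fin k => h) z * T.eval z)| +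
          |avg (fun z => chain (fun _ : Fin k => h) z * T.eval z) - avg (fun z => T.eval z)| :=
          abs_sub_le _ _ _
      _ ≤ 2 ^ (k + 1) * k * (1 / 4) ^ s + 2 ^ k * C' * (1 / 2) ^ s :=
          add_le_add (h2.trans hdiff) (h3.trans h4)
      _ ≤ 2 ^ (k + 1) * k * x ^ 2 + 2 ^ k * C' * x ^ 2 := by
          rw [← hx2]
          have : (2:ℝ) ^ (k + 1) * k * (1 / 4) ^ s ≤ 2 ^ (k + 1) * k * x ^ 2 :=
            mul_le_mul_of_nonneg_left hx4 (by positivity)
          linarith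
      _ = (M₃ * x) * x := by rw [hM3]; ring
      _ ≤ 1 * x := mul_le_mul_of_nonneg_right hMx hx0.le
      _ = x := one_mul x

end Crest.Agent.R350
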