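import Crest.Agent.R350.Defs

/-!
# Row 350, task D1: local certification of forrelation values
-/

set_option autoImplicit false

open Finset Classical

namespace Crest.Agent.R350

namespace D1

/-- sign in `ℤ` -/
def sg (b : Bool) : ℤ := if b then -1 else 1

/-- kernel factor of stage `t` at coordinate `i`. -/
def K (t i : ℕ) (x y : Bool) : ℤ :=
  if i < t then (if x && y then -1 else 1) else (if x = y then 1 else 0)

/-- product kernel -/
def KK {s : ℕ} (t : ℕ) (a b : B s) : ℤ := ∏ i : Fin s, K t i.1 (a i) (b i)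

/-- update at a natural index -/
def upd {s : ℕ} (a : B s) (t : ℕ) (x : Bool) : B s := fun i => if i.1 = t then x else a i

/-- bit at a natural index -/
def bitN {s : ℕ} (a : B s) (t : ℕ) : Bool := if h : t < s then a ⟨t, h⟩ else false

/-- integer character -/
def chiZ {s : ℕ} (a b : B s) : ℤ := ∏ i, if a i && b i then (-1 : ℤ) else 1

theorem chiZ_cast {s : ℕ} (a b : B s) : ((chiZ a b : ℤ) : ℝ) = chi a b := by
  unfold chiZ chi
  push_cast
  refine Finset.prod_congr rfl fun i _ => ?_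
  split_ifs <;> simp

theorem sg_cast (b : Bool) : ((sg b : ℤ) : ℝ) = sgn b := by
  unfold sg sgn; split_ifs <;> simp

theorem KK_zero {s : ℕ} (a b : B s) : KK 0 a b = if a = b then 1 else 0 := by
  unfold KK K
  simp only [Nat.not_lt_zero, if_false]
  rw [Finset.prod_ite_zero]
  simp only [Finset.prod_const_one]
  congr 1
  simp only [Finset.mem_univ, true_implies, eq_iff_iff]
  exact ⟨fun h => funext h, fun h i => congrFun h i⟩

theorem KK_last {s : ℕ} (a b : B s) : KK s a b = chiZ a b := by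
  unfold KK K chiZ
  refine Finset.prod_congr rfl fun i _ => ?_
  rw [if_pos i.2]

theorem KK_succ {s : ℕ} (t : ℕ) (ht : t < s) (a b : B s) :
    KK (t + 1) a b = KK t (upd a t false) b + sg (bitN a t) * KK t (upd a t true) b := by
  set j : Fin s := ⟨t, ht⟩ with hj
  have e0 : ∀ (T : ℕ) (c : B s), KK T c b = K T t (c j) (b j) *
      ∏ i ∈ univ.erase j, K T i.1 (c i) (b i) := by
    intro T c
    unfold KK
    rw [← Finset.mul_prod_erase univ _ (Finset.mem_univ j)]
  rw [e0 (t+1) a, e0 t (upd a t false), e0 t (upd a t true)]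
  have e1 : ∀ x, ∏ i ∈ univ.erase j, K t i.1 (upd a t x i) (b i) =
      ∏ i ∈ univ.erase j, K (t+1) i.1 (a i) (b i) := by
    intro x
    refine Finset.prod_congr rfl fun i hi => ?_
    have hne : i.1 ≠ t := by
      intro h
      have : i = j := Fin.ext h
      exact (Finset.ne_of_mem_erase hi) this
    unfold upd K
    rw [if_neg hne]
    by_cases h : i.1 < t
    · rw [if_pos h, if_pos (show i.1 < t + 1 by omega)]
    · rw [if_neg h, if_neg (show ¬ i.1 < t + 1 by omega)]
  rw [e1, e1]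
  have e2 : bitN a t = a j := by unfold bitN; rw [dif_pos ht]
  have e3 : ∀ x, upd a t x j = x := fun x => by unfold upd; rw [if_pos rfl]
  rw [e2, e3, e3, ← mul_assoc, ← add_mul]
  congr 1
  unfold K sg
  rw [if_pos (Nat.lt_succ_self t), if_neg (lt_irrefl t), if_neg (lt_irrefl t)]
  cases a j <;> cases b j <;> simp

theorem KK_abs {s : ℕ} (t : ℕ) (a b : B s) : |KK t a b| ≤ 1 := by
  unfold KK
  rw [Finset.abs_prod]
  refine Finset.prod_le_one (fun _ _ => abs_nonneg _) fun i _ => ?_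
  unfold K
  split_ifs <;> simp

section lay
variable {k s : ℕ}

/-- integer layers -/
def Lay (z : FV k s → Bool) : ℕ → B s → ℤ
  | 0 => fun a => sg (z (0, a))
  | i + 1 => fun a => sg (z (Fin.ofNat (k+1) (i + 1), a)) * ∑ b, chiZ a b * Lay z i b

/-- true transcript -/
def tv (z : FV k s → Bool) (i t : ℕ) (a : B s) : ℤ := ∑ b, KK t a b * Lay z i b

theorem tv_zero (z : FV k s → Bool) (i : ℕ) (a : B s) : tv z i 0 a = Lay z i a := by
  unfold tv
  simp only [KK_zero, ite_mul, one_mul, zero_mul]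
  simp

theorem tv_last (z : FV k s → Bool) (i : ℕ) (a : B s) :
    tv z i s a = ∑ b, chiZ a b * Lay z i b := by
  unfold tv
  simp only [KK_last]

theorem tv_succ (z : FV k s → Bool) (i t : ℕ) (ht : t < s) (a : B s) :
    tv z i (t + 1) a = tv z i t (upd a t false) + sg (bitN a t) * tv z i t (upd a t true) := by
  unfold tv
  rw [Finset.mul_sum, ← Finset.sum_add_distrib]
  refine Finset.sum_congr rfl fun b _ => ?_
  rw [KK_succ t ht]
  ring

theorem sg_abs (b : Bool) : |sg b| = 1 := by unfold sg; split_ifs <;> simp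

theorem sum_KK_abs (z : FV k s → Bool) (i t : ℕ) (a : B s) (M : ℤ)
    (h : ∀ b, |Lay z i b| ≤ M) : |tv z i t a| ≤ 2 ^ s * M := by
  unfold tv
  refine le_trans (Finset.abs_sum_le_sum_abs _ _) ?_
  have : ∀ b ∈ (univ : Finset (B s)), |KK t a b * Lay z i b| ≤ M := by
    intro b _
    rw [abs_mul]
    calc |KK t a b| * |Lay z i b| ≤ 1 * M :=
          mul_le_mul (KK_abs t a b) (h b) (abs_nonneg _) zero_le_one
      _ = M := one_mul M
  refine le_trans (Finset.sum_le_card_nsmul _ _ _ this) ?_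
  simp

theorem Lay_abs (z : FV k s → Bool) : ∀ (i : ℕ) (a : B s), |Lay z i a| ≤ 2 ^ (s * i)
  | 0, a => by simp [Lay, sg_abs]
  | i + 1, a => by
    have h := sum_KK_abs z i s a (2 ^ (s * i)) (Lay_abs z i)
    rw [tv_last] at h
    simp only [Lay]
    rw [abs_mul, sg_abs, one_mul]
    refine le_trans h (le_of_eq ?_)
    rw [← pow_add]; congr 1; ring

theorem tv_abs (z : FV k s → Bool) (i t : ℕ) (a : B s) (hi : i ≤ k) :
    |tv z i t a| ≤ 2 ^ (s * (k + 1)) := by
  refine le_trans (sum_KK_abs z i t a (2 ^ (s * i)) (Lay_abs z i)) ?_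
  rw [← pow_add]
  refine pow_le_pow_right₀ (by norm_num) ?_
  nlinarith

theorem Lay_cast (z : FV k s → Bool) : ∀ (i : ℕ) (_ : i ≤ k) (a : B s),
    ((Lay z i a : ℤ) : ℝ) = (Real.sqrt (2 ^ s)) ^ i * vec z i a
  | 0, _, a => by simp [Lay, vec, sg_cast]
  | i + 1, hi, a => by
    have hs : (0 : ℝ) < Real.sqrt (2 ^ s) := Real.sqrt_pos.mpr (by positivity)
    simp only [Lay, vec]
    rw [dif_pos (by omega)]
    push_cast
    rw [sg_cast]
    have e1 : (Fin.ofNat (k+1) (i+1)) = (⟨i + 1, by omega⟩ : Fin (k+1)) := by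
      ext; simp [Fin.ofNat, Nat.mod_eq_of_lt (show i + 1 < k + 1 by omega)]
    rw [e1]
    have e2 : ∑ x, ((chiZ a x : ℤ) : ℝ) * ((Lay z i x : ℤ) : ℝ) =
        (Real.sqrt (2 ^ s)) ^ (i + 1) * ∑ b, Had a b * vec z i b := by
      rw [Finset.mul_sum]
      refine Finset.sum_congr rfl fun b _ => ?_
      rw [Lay_cast z i (by omega) b, chiZ_cast]
      unfold Had
      field_simp
      ring
    rw [e2]
    ring

theorem chiZ_zero (b : B s) : chiZ (fun _ => false) b = 1 := by
  unfold chiZ; simp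

theorem tv_final (hP : PhiP) (z : FV k s → Bool) :
    ((tv z k s (fun _ => false) : ℤ) : ℝ) = (Real.sqrt (2 ^ s)) ^ k * 2 ^ s * phi z := by
  rw [tv_last, hP.recu]
  push_cast
  simp only [chiZ_zero, Int.cast_one, one_mul]
  rw [Finset.sum_congr rfl (fun b _ => Lay_cast z k le_rfl b), ← Finset.mul_sum]
  field_simp

end lay

/-! ### Decoding integers -/

/-- number of bits -/
def Bt (k s : ℕ) : ℕ := s * (k + 1) + 2

theorem exists_dcd (k s : ℕ) : ∃ dcd : (Fin (Bt k s) → Bool) → ℤ,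
    ∀ i : ℤ, |i| ≤ 2 ^ (s * (k + 1)) → ∃ b, dcd b = i := by
  set M : ℕ := 2 ^ (s * (k + 1)) with hM
  have hM1 : 1 ≤ M := Nat.one_le_two_pow
  have hc : Fintype.card (Fin (2 * M + 1)) ≤ Fintype.card (Fin (Bt k s) → Bool) := by
    simp only [Fintype.card_fin, Fintype.card_fun, Fintype.card_bool]
    unfold Bt
    rw [pow_add, ← hM]
    omega
  obtain ⟨f⟩ := Function.Embedding.nonempty_of_card_le hc
  refine ⟨fun b => ((Function.invFun f b : Fin (2 * M + 1)) : ℕ) - (M : ℤ), fun i hi => ?_⟩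
  have hi' : |i| ≤ (M : ℤ) := by rw [hM]; push_cast; exact hi
  rw [abs_le] at hi'
  have hlt : (i + M).toNat < 2 * M + 1 := by omega
  refine ⟨f ⟨(i + M).toNat, hlt⟩, ?_⟩
  show ((Function.invFun f (f ⟨(i + M).toNat, hlt⟩) : Fin (2 * M + 1)) : ℕ) - (M : ℤ) = i
  rw [Function.leftInverse_invFun f.injective]
  simp only
  omega

/-! ### Local equations -/

section loc
variable {k s : ℕ}

/-- local predicate -/
def Pr (i t : ℕ) (a : B s) (v w₁ w₂ : ℤ) (x : Bool) : Prop :=
  if t = 0 then (if i = 0 then v = sg x else v = sg x * w₁)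
  else v = w₁ + sg (bitN a (t - 1)) * w₂

/-- first predecessor -/
def f1 (i t : ℕ) (a : B s) : ℕ × ℕ × B s :=
  if t = 0 then (i - 1, s, a) else (i, t - 1, upd a (t - 1) false)

/-- second predecessor -/
def f2 (i t : ℕ) (a : B s) : ℕ × ℕ × B s :=
  if t = 0 then (i - 1, s, a) else (i, t - 1, upd a (t - 1) true)

/-- all local equations -/
def LocOK (Y : ℕ → ℕ → B s → ℤ) (z : FV k s → Bool) (i t : ℕ) (a : B s) : Prop :=
  Pr i t a (Y i t a) (Y (f1 i t a).1 (f1 i t a).2.1 (f1 i t a).2.2)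
    (Y (f2 i t a).1 (f2 i t a).2.1 (f2 i t a).2.2) (z (Fin.ofNat (k + 1) i, a))

theorem tv_LocOK (z : FV k s → Bool) (i t : ℕ) (a : B s) (ht : t ≤ s) :
    LocOK (tv z) z i t a := by
  unfold LocOK Pr f1 f2
  by_cases h : t = 0
  · subst h
    simp only [if_true]
    rw [tv_zero]
    cases i with
    | zero => simp [Lay]
    | succ i =>
      rw [if_neg (Nat.succ_ne_zero i), Nat.add_sub_cancel, tv_last]
      rfl
  · simp only [if_neg h]
    obtain ⟨t', rfl⟩ := Nat.exists_eq_succ_of_ne_zero h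
    simp only [Nat.succ_eq_add_one, Nat.add_sub_cancel]
    exact tv_succ z i t' (by omega) a

theorem LocOK_unique (z : FV k s → Bool) (Y : ℕ → ℕ → B s → ℤ)
    (h : ∀ i ≤ k, ∀ t ≤ s, ∀ a, LocOK Y z i t a) :
    ∀ i ≤ k, ∀ t ≤ s, ∀ a, Y i t a = tv z i t a := by
  intro i
  induction i with
  | zero =>
    intro _ t
    induction t with
    | zero =>
      intro _ a
      have := h 0 (Nat.zero_le k) 0 (Nat.zero_le s) a
      simp only [LocOK, Pr, if_true] at this
      rw [this, tv_zero]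
      simp [Lay]
    | succ t ih =>
      intro ht a
      have := h 0 (Nat.zero_le k) (t + 1) ht a
      simp only [LocOK, Pr, f1, f2, if_neg (Nat.succ_ne_zero t), Nat.add_sub_cancel] at this
      rw [this, ih (by omega), ih (by omega), tv_succ z 0 t (by omega)]
  | succ i ihi =>
    intro hi t
    induction t with
    | zero =>
      intro _ a
      have := h (i + 1) hi 0 (Nat.zero_le s) a
      simp only [LocOK, Pr, f1, f2, if_true, if_neg (Nat.succ_ne_zero i), Nat.add_sub_cancel] at this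
      rw [this, tv_zero, ihi (by omega) s le_rfl, tv_last]
      rfl
    | succ t ih =>
      intro ht a
      have := h (i + 1) hi (t + 1) ht a
      simp only [LocOK, Pr, f1, f2, if_neg (Nat.succ_ne_zero t), Nat.add_sub_cancel] at this
      rw [this, ih (by omega), ih (by omega), tv_succ z (i + 1) t (by omega)]

end loc

/-! ### The certification scheme -/

/-- cells -/
abbrev Cell (k s L e : ℕ) := (Fin L × B e) × Fin (k + 1) × Fin (s + 1) × B s

/-- memory -/
abbrev CMt (k s L e : ℕ) := (Cell k s L e × Fin (Bt k s)) ⊕ (Fin L × Fin e)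

/-- checks -/
abbrev CEt (k s L e : ℕ) := Cell k s L e ⊕ (Fin L ⊕ (Fin L × B e))

section cert
variable {k s L e : ℕ} (dcd : (Fin (Bt k s) → Bool) → ℤ)

/-- read an integer -/
noncomputable def rd (lc : Fin L × B e) (p : ℕ × ℕ × B s) : Tree (Zb k s L e ⊕ CMt k s L e) ℤ :=
  (Tree.readAll (Bt k s) (fun j => Sum.inr (Sum.inl
    ((lc, Fin.ofNat (k + 1) p.1, Fin.ofNat (s + 1) p.2.1, p.2.2), j)))).map dcd

/-- decoded memory -/
def Yv (y : CMt k s L e → Bool) (lc : Fin L × B e) (i t : ℕ) (a : B s) : ℤ :=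
  dcd (fun j => y (Sum.inl ((lc, Fin.ofNat (k + 1) i, Fin.ofNat (s + 1) t, a), j)))

theorem eval_rd (z : Zb k s L e → Bool) (y : CMt k s L e → Bool) (lc : Fin L × B e)
    (p : ℕ × ℕ × B s) : (rd dcd lc p).eval (Sum.elim z y) = Yv dcd y lc p.1 p.2.1 p.2.2 := by
  unfold rd Yv
  rw [Tree.eval_map, Tree.eval_readAll]
  rfl

theorem depth_rd (lc : Fin L × B e) (p : ℕ × ℕ × B s) :
    (rd (k := k) (s := s) dcd lc p).depth = Bt k s := by
  unfold rd
  rw [Tree.depth_map, Tree.depth_readAll]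

/-- the local check -/
noncomputable def locT (c : Cell k s L e) : Tree (Zb k s L e ⊕ CMt k s L e) Bool :=
  (rd dcd c.1 (c.2.1.1, c.2.2.1.1, c.2.2.2)).bind fun v =>
    (rd dcd c.1 (f1 c.2.1.1 c.2.2.1.1 c.2.2.2)).bind fun w₁ =>
      (rd dcd c.1 (f2 c.2.1.1 c.2.2.1.1 c.2.2.2)).bind fun w₂ =>
        Tree.node (Sum.inl (c.1, (Fin.ofNat (k + 1) c.2.1.1, c.2.2.2)))
          (Tree.leaf (decide (Pr c.2.1.1 c.2.2.1.1 c.2.2.2 v w₁ w₂ false)))
          (Tree.leaf (decide (Pr c.2.1.1 c.2.2.1.1 c.2.2.2 v w₁ w₂ true)))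

theorem eval_locT (z : Zb k s L e → Bool) (y : CMt k s L e → Bool) (c : Cell k s L e) :
    (locT dcd c).eval (Sum.elim z y) = true ↔
      LocOK (Yv dcd y c.1) (fun v : FV k s => z (c.1, v)) c.2.1.1 c.2.2.1.1 c.2.2.2 := by
  unfold locT LocOK
  rw [Tree.eval_bind, Tree.eval_bind, Tree.eval_bind, eval_rd, eval_rd, eval_rd]
  simp only [Tree.eval, Sum.elim_inl]
  split_ifs with h
  · rw [h]; simp
  · rw [Bool.not_eq_true] at h
    rw [h]; simp

theorem depth_locT (c : Cell k s L e) : (locT dcd c).depth ≤ 3 * Bt k s + 1 := by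
  unfold locT
  refine le_trans (Tree.depth_bind _ _ (2 * Bt k s + 1) (fun v => ?_)) ?_
  · refine le_trans (Tree.depth_bind _ _ (Bt k s + 1) (fun v => ?_)) ?_
    · refine le_trans (Tree.depth_bind _ _ 1 (fun v => ?_)) ?_
      · simp [Tree.depth]
      · rw [depth_rd]
    · rw [depth_rd]; omega
  · rw [depth_rd]; omega

/-- normalisation -/
noncomputable def Nrm (k s : ℕ) : ℝ := (Real.sqrt (2 ^ s)) ^ k * 2 ^ s

/-- all checks -/
noncomputable def chkT (θ₁ θ₀ : ℝ) (r : B L) : CEt k s L e → Tree (Zb k s L e ⊕ CMt k s L e) Bool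
  | Sum.inl c => locT dcd c
  | Sum.inr (Sum.inl l) =>
      if r l = true then
        (Tree.readAll e (fun j => Sum.inr (Sum.inr (l, j)))).bind fun c =>
          (rd dcd (l, c) (k, s, fun _ => false)).map
            (fun v : ℤ => decide (Nrm k s * θ₁ ≤ (v : ℝ)))
      else Tree.leaf true
  | Sum.inr (Sum.inr lc) =>
      if r lc.1 = false then
        (rd dcd lc (k, s, fun _ => false)).map (fun v : ℤ => decide (|(v : ℝ)| ≤ Nrm k s * θ₀))
      else Tree.leaf true

theorem depth_chkT (θ₁ θ₀ : ℝ) (r : B L) (ce : CEt k s L e) :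
    (chkT dcd θ₁ θ₀ r ce).depth ≤ 3 * Bt k s + 1 + e := by
  rcases ce with c | l | lc
  · have := depth_locT dcd c
    simp only [chkT]; omega
  · simp only [chkT]
    split_ifs with h
    · refine le_trans (Tree.depth_bind _ _ (Bt k s) (fun v => ?_)) ?_
      · rw [Tree.depth_map, depth_rd]
      · rw [Tree.depth_readAll]; omega
    · simp [Tree.depth]
  · simp only [chkT]
    split_ifs with h
    · rw [Tree.depth_map, depth_rd]; omega
    · simp [Tree.depth]

theorem Nrm_pos : 0 < Nrm k s := by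
  unfold Nrm
  have : 0 < Real.sqrt (2 ^ s) := Real.sqrt_pos.mpr (by positivity)
  positivity

theorem ofNat_val {n : ℕ} (i : Fin (n + 1)) : Fin.ofNat (n + 1) i.1 = i := by
  ext; simp [Fin.ofNat, Nat.mod_eq_of_lt i.2]

theorem sound (hP : PhiP) (θ₁ θ₀ : ℝ) (r : B L) (z : Zb k s L e → Bool) (y : CMt k s L e → Bool)
    (h : ∀ ce, (chkT dcd θ₁ θ₀ r ce).eval (Sum.elim z y) = true) : good θ₁ θ₀ r z := by
  have h1 : ∀ lc : Fin L × B e, ∀ i ≤ k, ∀ t ≤ s, ∀ a,
      Yv dcd y lc i t a = tv (fun v : FV k s => z (lc, v)) i t a := by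
    intro lc
    apply LocOK_unique
    intro i hi t ht a
    have := h (Sum.inl (lc, ⟨i, by omega⟩, ⟨t, by omega⟩, a))
    simp only [chkT] at this
    rw [eval_locT] at this
    exact this
  have h2 : ∀ lc : Fin L × B e, ((Yv dcd y lc k s (fun _ => false) : ℤ) : ℝ) =
      Nrm k s * phi (fun v : FV k s => z (lc, v)) := by
    intro lc
    rw [h1 lc k le_rfl s le_rfl, tv_final hP]
    rfl
  have hN : 0 < Nrm k s := Nrm_pos
  intro l
  refine ⟨fun hl => ?_, fun hl c => ?_⟩
  · have := h (Sum.inr (Sum.inl l))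
    simp only [chkT] at this
    rw [if_pos hl, Tree.eval_bind, Tree.eval_map, eval_rd, decide_eq_true_eq] at this
    rw [h2] at this
    exact ⟨_, le_of_mul_le_mul_left this hN⟩
  · have := h (Sum.inr (Sum.inr (l, c)))
    simp only [chkT] at this
    rw [if_pos hl, Tree.eval_map, eval_rd, decide_eq_true_eq] at this
    rw [h2, abs_mul, abs_of_pos hN] at this
    exact le_of_mul_le_mul_left this hN

theorem complete (hP : PhiP) (hd : ∀ i : ℤ, |i| ≤ 2 ^ (s * (k + 1)) → ∃ b, dcd b = i)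
    (θ₁ θ₀ : ℝ) (r : B L) (z : Zb k s L e → Bool) (hg : good θ₁ θ₀ r z) :
    ∃ y : CMt k s L e → Bool, ∀ ce, (chkT dcd θ₁ θ₀ r ce).eval (Sum.elim z y) = true := by
  have hex : ∀ (lc : Fin L × B e) (i : Fin (k + 1)) (t : Fin (s + 1)) (a : B s),
      ∃ b, dcd b = tv (fun v : FV k s => z (lc, v)) i.1 t.1 a :=
    fun lc i t a => hd _ (tv_abs _ _ _ _ (by omega))
  choose enc henc using hex
  have hcp : ∀ l : Fin L, ∃ c : B e, r l = true → θ₁ ≤ phi (fun v => z ((l, c), v)) := by
    intro l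
    by_cases hl : r l = true
    · obtain ⟨c, hc⟩ := (hg l).1 hl
      exact ⟨c, fun _ => hc⟩
    · exact ⟨fun _ => false, fun h => absurd h hl⟩
  choose cp hcp using hcp
  let y : CMt k s L e → Bool := Sum.elim
    (fun cj => enc cj.1.1 cj.1.2.1 cj.1.2.2.1 cj.1.2.2.2 cj.2) (fun lj => cp lj.1 lj.2)
  have hY : ∀ (lc : Fin L × B e) (i : ℕ) (_ : i ≤ k) (t : ℕ) (_ : t ≤ s) (a : B s),
      Yv dcd y lc i t a = tv (fun v : FV k s => z (lc, v)) i t a := by
    intro lc i hi t ht a
    have e1 : Fin.ofNat (k + 1) i = ⟨i, by omega⟩ := ofNat_val ⟨i, by omega⟩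
    have e2 : Fin.ofNat (s + 1) t = ⟨t, by omega⟩ := ofNat_val ⟨t, by omega⟩
    show dcd (fun j => enc lc (Fin.ofNat (k + 1) i) (Fin.ofNat (s + 1) t) a j) = _
    rw [e1, e2]
    exact henc lc ⟨i, _⟩ ⟨t, _⟩ a
  have hF : ∀ lc : Fin L × B e, ((Yv dcd y lc k s (fun _ => false) : ℤ) : ℝ) =
      Nrm k s * phi (fun v : FV k s => z (lc, v)) := by
    intro lc
    rw [hY lc k le_rfl s le_rfl, tv_final hP]
    rfl
  have hN : 0 < Nrm k s := Nrm_pos
  refine ⟨y, ?_⟩
  rintro (⟨lc, i, t, a⟩ | l | lc)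
  · simp only [chkT]
    rw [eval_locT]
    have h0 := tv_LocOK (fun v : FV k s => z (lc, v)) i.1 t.1 a (by omega)
    have hi : i.1 ≤ k := by omega
    have ht : t.1 ≤ s := by omega
    simp only [LocOK] at h0 ⊢
    rw [hY lc i.1 hi t.1 ht a]
    have g1 : (f1 i.1 t.1 a).1 ≤ k ∧ (f1 i.1 t.1 a).2.1 ≤ s := by
      unfold f1; split_ifs <;> constructor <;> simp only <;> omega
    have g2 : (f2 i.1 t.1 a).1 ≤ k ∧ (f2 i.1 t.1 a).2.1 ≤ s := by
      unfold f2; split_ifs <;> constructor <;> simp only <;> omega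
    rw [hY lc _ g1.1 _ g1.2, hY lc _ g2.1 _ g2.2]
    exact h0
  · simp only [chkT]
    split_ifs with hl
    · rw [Tree.eval_bind, Tree.eval_map, eval_rd, decide_eq_true_eq, hF, Tree.eval_readAll]
      exact mul_le_mul_of_nonneg_left (hcp l hl) hN.le
    · rfl
  · simp only [chkT]
    split_ifs with hl
    · rw [Tree.eval_map, eval_rd, decide_eq_true_eq, hF, abs_mul, abs_of_pos hN]
      exact mul_le_mul_of_nonneg_left ((hg lc.1).2 hl lc.2) hN.le
    · rfl

end cert

end D1

open D1 in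
theorem certExists (hP : PhiP) : CertExists := by
  intro k
  refine ⟨3 * k + 10, fun s L e θ₁ θ₀ hs => ?_⟩
  obtain ⟨dcd, hd⟩ := exists_dcd k s
  refine ⟨CMt k s L e, CEt k s L e, inferInstance, inferInstance, ?_, ⟨?_⟩⟩
  · simp only [Fintype.card_sum, Fintype.card_prod, Fintype.card_fin, Fintype.card_fun,
      Fintype.card_bool]
    have h1 : 1 ≤ 2 ^ e := Nat.one_le_two_pow
    have h2 : 1 ≤ 2 ^ s := Nat.one_le_two_pow
    set E := 2 ^ e
    set S := 2 ^ s
    have a1 : L * E * ((k + 1) * ((s + 1) * S)) ≤ (k + 1) * ((s + 1) * (L + 1) * E * S) := by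
      have : L * E * ((k + 1) * ((s + 1) * S)) = (k + 1) * ((s + 1) * L * E * S) := by ring
      rw [this]
      gcongr
      omega
    have a2 : L * E ≤ (s + 1) * (L + 1) * E * S := by
      calc L * E = 1 * L * E * 1 := by ring
        _ ≤ (s + 1) * (L + 1) * E * S := by gcongr <;> omega
    have a3 : L ≤ (s + 1) * (L + 1) * E * S := le_trans (Nat.le_mul_of_pos_right L (by omega)) a2
    have a4 : (3 * k + 10) * (s + 1) * (L + 1) * E * S =
      (3 * k + 10) * ((s + 1) * (L + 1) * E * S) := by ring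
    rw [a4]
    set Q := (s + 1) * (L + 1) * E * S
    nlinarith
  · exact
      { chk := chkT dcd θ₁ θ₀
        depth_le := fun r ce => by
          refine le_trans (depth_chkT dcd θ₁ θ₀ r ce) ?_
          unfold Bt
          nlinarith
        sound := sound dcd hP θ₁ θ₀
        complete := complete dcd hP hd θ₁ θ₀ }

end Crest.Agent.R350
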