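import Crest.Agent.R350.A10

/-!
# Row 350 (S0554), task D3: the algorithm for one instance
-/

set_option autoImplicit false

open Finset Classical

namespace Crest.Agent.R350

theorem xAlg (hP : RealBasic) (_hC : RealBind) (_hM : RealMono) (hR : RealReindex)
    (hS : StageAlg) (hG : CandGen') : XAlg := by
  intro k s L e Kt T u D θ₁ θ₀ CM CE _ _ C h1 h1' h0 hA hB hT
  have hneV : Nonempty (VX k s L e CM) := ⟨Sum.inr (Sum.inl (fun _ => false, fun _ => false))⟩
  -- the candidate generator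
  obtain ⟨PA, hPA, hPAg⟩ : ∃ PA : (VX k s L e CM → Bool) → B L → ℝ,
      Realizable PA (L * 2 ^ e * Kt * (k + 1)) ∧
      ∀ X b r, good θ₁ θ₀ r (zblk X b) → 1 ≤ PA X r * (2 * 2 ^ s) := by
    rcases Nat.eq_zero_or_pos L with hL | hL
    · subst hL
      refine ⟨fun _ _ => 1, hP.pure _ (B 0) (fun _ => (1 : ℝ)) _ (fun _ => zero_le_one) (by simp), ?_⟩
      intro X b r _
      have : (1 : ℝ) ≤ 2 ^ s := one_le_pow₀ (by norm_num)
      linarith
    · obtain ⟨PA, hPA, hPAg⟩ := hG k s L e Kt θ₁ θ₀ hL h1 h1' h0 hA hB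
      refine ⟨fun X => PA (fun v => X (Sum.inl v)), ?_, ?_⟩
      · exact hR (VX k s L e CM) (B s × Zb k s L e) (B L) Sum.inl PA _ hPA
      · intro X b r hg
        exact hPAg (fun v => X (Sum.inl v)) b r hg
  obtain ⟨P, hPr, hP1, hP0⟩ := hS (VX k s L e CM) (B s) (B L) (covT k s L e CM) PA (s + 1)
    (L * 2 ^ e * Kt * (k + 1)) s L T u (fun r j => depth_covT r j) hPA (by simp [B]) (by simp [B]) hT
  refine ⟨P, hPr, ?_⟩
  intro X β r hv
  have hsum := hP.sum_one _ Bool P _ hPr X
  rw [Fintype.sum_bool] at hsum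
  cases β with
  | true =>
    rw [valid_true_iff] at hv
    have := hP1 X ⟨r, fun j => by rw [eval_covT]; exact hv.1 j,
      hPAg X (beta X r) r (C.sound r _ _ hv.2)⟩
    linarith
  | false =>
    rw [valid_false_iff] at hv
    have := hP0 X ⟨dec s r, fun r' => by rw [eval_covT]; exact hv _⟩
    linarith

end Crest.Agent.R350
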