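import Crest.Agent.R350.H

set_option autoImplicit false

open Finset Classical

namespace Crest.Agent.R350

namespace D4

theorem sum_prodW {V : Type} [Fintype V] (pr : V → ℝ) : ∑ x : V → Bool, prodW pr x = 1 := by
  unfold prodW
  have h2 := Finset.prod_univ_sum (fun _ : V => (Finset.univ : Finset Bool))
    (fun v (x : Bool) => (if x then pr v else 1 - pr v))
  rw [Fintype.piFinset_univ] at h2
  rw [← h2]
  simp

theorem prodW_nonneg {V : Type} [Fintype V] (pr : V → ℝ) (h : ∀ v, 0 ≤ pr v ∧ pr v ≤ 1)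
    (x : V → Bool) : 0 ≤ prodW pr x := by
  unfold prodW
  refine Finset.prod_nonneg (fun v _ => ?_)
  split_ifs
  · exact (h v).1
  · linarith [(h v).2]

theorem prX_mem (k s L e : ℕ) (CM : Type) (p : ℝ) (h0 : 0 ≤ p) (h1 : p ≤ 1)
    (v : VX k s L e CM) : 0 ≤ prX k s L e CM p v ∧ prX k s L e CM p v ≤ 1 := by
  rcases v with v | v | v
  · simp only [prX]; norm_num
  · simp only [prX]; exact ⟨h0, h1⟩
  · simp only [prX]; norm_num

section
variable {k s L e : ℕ} {CM CE : Type} {θ₁ θ₀ : ℝ} {D : ℕ}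

noncomputable def YY (C : Cert k s L e θ₁ θ₀ CM CE D) (b : B s) (r : B L)
    (X : VX k s L e CM → Bool) : VX k s L e CM → Bool
  | Sum.inl v => X (Sum.inl v)
  | Sum.inr (Sum.inl v) => X (Sum.inr (Sum.inl v))
  | Sum.inr (Sum.inr (r', Sum.inl (j, i))) =>
      if r' = r then (if h : ∃ a, mark X j a = true then h.choose i else false)
      else X (Sum.inr (Sum.inr (r', Sum.inl (j, i))))
  | Sum.inr (Sum.inr (r', Sum.inr (Sum.inl i))) =>
      if r' = r then b i else X (Sum.inr (Sum.inr (r', Sum.inr (Sum.inl i))))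
  | Sum.inr (Sum.inr (r', Sum.inr (Sum.inr m))) =>
      if r' = r then
        (if h : good θ₁ θ₀ r (zblk X b) then (C.complete r (zblk X b) h).choose m else false)
      else X (Sum.inr (Sum.inr (r', Sum.inr (Sum.inr m))))

theorem agree_YY (C : Cert k s L e θ₁ θ₀ CM CE D) (b : B s) (r : B L)
    (X : VX k s L e CM → Bool) : AgreeOff r X (YY C b r X) := by
  refine ⟨fun v => rfl, fun v => rfl, fun r' m hr => ?_⟩
  rcases m with ⟨j, i⟩ | i | m <;> simp [YY, hr]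

theorem valid_YY (C : Cert k s L e θ₁ θ₀ CM CE D) (b : B s) (r : B L)
    (X : VX k s L e CM → Bool) (hm : ∀ j, ∃ a, mark X j a = true)
    (hg : good θ₁ θ₀ r (zblk X b)) : valid (chkX C) true r (YY C b r X) := by
  rw [valid_true_iff]
  have hbeta : beta (YY C b r X) r = b := by
    funext i
    simp [beta, YY]
  have hz : zblk (YY C b r X) b = zblk X b := rfl
  have hc : cmem (YY C b r X) r = (C.complete r (zblk X b) hg).choose := by
    funext m
    simp [cmem, YY, hg]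
  refine ⟨fun j => ?_, ?_⟩
  · have hr : rho (YY C b r X) r j = (hm j).choose := by
      funext i
      simp [rho, YY, hm j]
    rw [hr]
    exact (hm j).choose_spec
  · rw [hbeta, hz, hc]
    exact (C.complete r (zblk X b) hg).choose_spec

theorem valid_erase (C : Cert k s L e θ₁ θ₀ CM CE D) (r : B L) (X : VX k s L e CM → Bool) :
    valid (chkX C) false r (eraseM (dec s r) X) := by
  rw [valid_false_iff]
  intro a
  simp [mark, eraseM]

end

theorem plW_nonneg {k s L e : ℕ} {CM : Type} [Fintype CM] (μ : (FV k s → Bool) → ℝ)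
    (hμ : ∀ z, 0 ≤ μ z) (p : ℝ) (h0 : 0 ≤ p) (h1 : p ≤ 1) (b : B s) (r : B L)
    (X : VX k s L e CM → Bool) : 0 ≤ plW μ p b r X := by
  unfold plW
  refine mul_nonneg (mul_nonneg ?_ ?_) ?_
  · refine Finset.prod_nonneg (fun j _ => Finset.prod_nonneg (fun i _ => ?_))
    split_ifs
    · exact hμ _
    · positivity
  · refine Finset.prod_nonneg (fun j _ => ?_)
    split_ifs
    · exact h0
    · linarith
  · refine Finset.prod_nonneg (fun j _ => ?_)
    split_ifs <;> norm_num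

theorem tool1 (c K : ℝ) (hc : 0 < c) : ∃ s₀ : ℕ, ∀ s : ℕ, s₀ ≤ s →
    K * (s : ℝ) ^ 2 * (2 : ℝ) ^ (-(c * s)) ≤ 1 := by
  have hr : |(2 : ℝ) ^ (-c)| < 1 := by
    rw [abs_of_pos (by positivity)]
    exact Real.rpow_lt_one_of_one_lt_of_neg (by norm_num) (by linarith)
  have h := (tendsto_pow_const_mul_const_pow_of_abs_lt_one 2 hr).const_mul K
  rw [mul_zero] at h
  have h2 := h.eventually (ge_mem_nhds (show (0 : ℝ) < 1 by norm_num))
  rw [Filter.eventually_atTop] at h2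
  obtain ⟨s₀, hs⟩ := h2
  refine ⟨s₀, fun s hs0 => ?_⟩
  have h3 := hs s hs0
  have e1 : (2 : ℝ) ^ (-(c * s)) = ((2 : ℝ) ^ (-c)) ^ s := by
    rw [← Real.rpow_mul_natCast (by norm_num)]
    congr 1; ring
  rw [e1, mul_assoc]
  exact h3

/-- `exp (-2^g)` is tiny -/
theorem tool2 (ε₀ : ℝ) (hε : 0 < ε₀) : ∃ M : ℝ, 0 < M ∧ ∀ s g : ℕ, ε₀ * s ≤ g →
    Real.exp (-(2 : ℝ) ^ g) ≤ M * (2 : ℝ) ^ (-(2 * (s : ℝ))) := by
  obtain ⟨m, hm⟩ := exists_nat_ge (2 / ε₀)
  refine ⟨(m.factorial : ℝ), by positivity, fun s g hg => ?_⟩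
  have h1 := Real.pow_div_factorial_le_exp ((2 : ℝ) ^ g) (by positivity) m
  have h2 : (2 : ℝ) ^ (2 * (s : ℝ)) ≤ ((2 : ℝ) ^ g) ^ m := by
    rw [← pow_mul, ← Real.rpow_natCast]
    refine Real.rpow_le_rpow_of_exponent_le (by norm_num) ?_
    push_cast
    have h3 : 2 ≤ ε₀ * m := by
      rw [div_le_iff₀ hε] at hm; linarith
    have hs : (0 : ℝ) ≤ s := Nat.cast_nonneg s
    have hmm : (0 : ℝ) ≤ m := Nat.cast_nonneg m
    nlinarith [mul_le_mul_of_nonneg_right hg hmm, mul_le_mul_of_nonneg_right h3 hs]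
  have h4 : (0 : ℝ) < m.factorial := by positivity
  have h5 : (2 : ℝ) ^ (2 * (s : ℝ)) / m.factorial ≤ Real.exp ((2 : ℝ) ^ g) :=
    (div_le_div_of_nonneg_right h2 h4.le).trans h1
  rw [Real.exp_neg, Real.rpow_neg (by norm_num)]
  rw [inv_le_comm₀ (Real.exp_pos _) (by positivity)]
  rw [mul_inv, inv_inv]
  rw [div_eq_mul_inv, mul_comm] at h5
  exact h5

/-- the numbers -/
theorem numb (η : ℝ) (k s g R : ℕ) (hη : 0 < η) (hη' : η ≤ 1 / 10)
    (hg : 100 * (k + 1) * (g : ℝ) ≤ η * s) (hR : (R : ℝ) ≤ (2 : ℝ) ^ ((s : ℝ) * (2 - η))) :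
    (R : ℝ) * (2 ^ g / 2 ^ s) / 2 ^ s ≤ (2 : ℝ) ^ (-(η / 2 * s)) ∧
    (R : ℝ) / 2 ^ (3 * s) ≤ (2 : ℝ) ^ (-(η / 2 * s)) ∧
    (2 : ℝ) ^ (eP k g) * (2 : ℝ) ^ (-(s : ℝ) / 2) ≤ 4 * (2 : ℝ) ^ (-(η / 2 * s)) ∧
    (R : ℝ) / (2 ^ s * (⌊(2 : ℝ) ^ ((s : ℝ) * (1 - η / 4))⌋₊ : ℝ)) ≤
      2 * (2 : ℝ) ^ (-(η / 2 * s)) ∧
    (2 : ℝ) ^ (-(s : ℝ)) ≤ (2 : ℝ) ^ (-(η / 2 * s)) ∧
    (2 : ℝ) ^ g ≤ 2 ^ s := by
  have hs : (0 : ℝ) ≤ s := Nat.cast_nonneg s
  have hgn : (0 : ℝ) ≤ g := Nat.cast_nonneg g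
  have hkn : (0 : ℝ) ≤ k := Nat.cast_nonneg k
  have hkg : (0 : ℝ) ≤ k * g := mul_nonneg hkn hgn
  have hηs : η * s ≤ 1 / 10 * s := mul_le_mul_of_nonneg_right hη' hs
  have hηs0 : 0 ≤ η * s := mul_nonneg hη.le hs
  have hg1 : 100 * (k * g : ℝ) + 100 * g ≤ η * s := by nlinarith
  have p2 : ∀ n : ℕ, (2 : ℝ) ^ n = (2 : ℝ) ^ (n : ℝ) := fun n => (Real.rpow_natCast 2 n).symm
  have hp : ∀ x : ℝ, (0 : ℝ) < (2 : ℝ) ^ x := fun x => Real.rpow_pos_of_pos (by norm_num) x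
  have hmono : ∀ x y : ℝ, x ≤ y → (2 : ℝ) ^ x ≤ (2 : ℝ) ^ y := fun x y h =>
    Real.rpow_le_rpow_of_exponent_le (by norm_num) h
  refine ⟨?_, ?_, ?_, ?_, ?_, ?_⟩
  · calc (R : ℝ) * (2 ^ g / 2 ^ s) / 2 ^ s
        ≤ (2 : ℝ) ^ ((s : ℝ) * (2 - η)) * (2 ^ g / 2 ^ s) / 2 ^ s := by gcongr
      _ = (2 : ℝ) ^ ((s : ℝ) * (2 - η) + g - s - s) := by
          rw [Real.rpow_sub (by norm_num), Real.rpow_sub (by norm_num),
            Real.rpow_add (by norm_num), p2 g, p2 s]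
          ring
      _ ≤ _ := hmono _ _ (by nlinarith)
  · calc (R : ℝ) / 2 ^ (3 * s) ≤ (2 : ℝ) ^ ((s : ℝ) * (2 - η)) / 2 ^ (3 * s) := by gcongr
      _ = (2 : ℝ) ^ ((s : ℝ) * (2 - η) - (3 * s : ℝ)) := by
          rw [Real.rpow_sub (by norm_num), p2 (3 * s)]
          push_cast
          ring
      _ ≤ _ := hmono _ _ (by nlinarith)
  · have he : (2 : ℝ) ^ (eP k g) = 4 * (2 : ℝ) ^ (2 * (g : ℝ) * k + g) := by
      unfold eP
      rw [pow_add, p2 (2 * g * k + g)]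
      push_cast
      ring
    rw [he, mul_assoc, ← Real.rpow_add (by norm_num)]
    refine mul_le_mul_of_nonneg_left (hmono _ _ (by nlinarith)) (by norm_num)
  · have hx : 1 ≤ (2 : ℝ) ^ ((s : ℝ) * (1 - η / 4)) := by
      rw [← Real.rpow_zero 2]
      refine hmono _ _ ?_
      refine mul_nonneg hs (by linarith)
    have hfl : (2 : ℝ) ^ ((s : ℝ) * (1 - η / 4)) / 2 ≤
        (⌊(2 : ℝ) ^ ((s : ℝ) * (1 - η / 4))⌋₊ : ℝ) := by
      have h1 := Nat.lt_floor_add_one ((2 : ℝ) ^ ((s : ℝ) * (1 - η / 4)))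
      have h2 : (1 : ℝ) ≤ (⌊(2 : ℝ) ^ ((s : ℝ) * (1 - η / 4))⌋₊ : ℝ) := by
        have : 1 ≤ ⌊(2 : ℝ) ^ ((s : ℝ) * (1 - η / 4))⌋₊ := Nat.le_floor (by exact_mod_cast hx)
        exact_mod_cast this
      linarith
    calc (R : ℝ) / (2 ^ s * (⌊(2 : ℝ) ^ ((s : ℝ) * (1 - η / 4))⌋₊ : ℝ))
        ≤ (2 : ℝ) ^ ((s : ℝ) * (2 - η)) / (2 ^ s * ((2 : ℝ) ^ ((s : ℝ) * (1 - η / 4)) / 2)) := by
          gcongr
      _ = 2 * (2 : ℝ) ^ ((s : ℝ) * (2 - η) - s - (s : ℝ) * (1 - η / 4)) := by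
          rw [Real.rpow_sub (by norm_num), Real.rpow_sub (by norm_num), p2 s]
          field_simp
      _ ≤ _ := by
          refine mul_le_mul_of_nonneg_left (hmono _ _ (by nlinarith)) (by norm_num)
  · exact hmono _ _ (by nlinarith)
  · rw [p2 g, p2 s]
    exact hmono _ _ (by nlinarith)

theorem th1_mul (k g : ℕ) : th1 k g * 2 ^ (eP k g) = (2 : ℝ) ^ g := by
  unfold th1 eP
  rw [show 2 * g * k + g + 2 = (2 * g * k + 2) + g by ring, pow_add (2 : ℝ) (2 * g * k + 2) g,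
    ← mul_assoc, ← mul_pow]
  norm_num

theorem th0_sq (s : ℕ) : 1 / ((2 : ℝ) ^ s * th0 s ^ 2) = (2 : ℝ) ^ (-(s : ℝ) / 2) := by
  unfold th0
  rw [← Real.rpow_natCast 2 s, ← Real.rpow_natCast _ 2, ← Real.rpow_mul (by norm_num),
    ← Real.rpow_add (by norm_num), one_div, ← Real.rpow_neg (by norm_num)]
  congr 1
  push_cast
  ring

theorem fin_est (K' s u x : ℝ) (hs : 0 < s) (h : 200 * K' * s ^ 2 * u ≤ 1)
    (hx : x ≤ K' * s * u) : x ≤ 1 / (200 * s) := by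
  rw [le_div_iff₀ (by positivity)]
  nlinarith

/-- `(1-x)^n ≤ exp(-(x n))`. -/
theorem one_sub_pow_le (x : ℝ) (n : ℕ) (hx : x ≤ 1) : (1 - x) ^ n ≤ Real.exp (-(x * n)) := by
  have h1 : 1 - x ≤ Real.exp (-x) := by
    have := Real.add_one_le_exp (-x); linarith
  calc (1 - x) ^ n ≤ (Real.exp (-x)) ^ n := pow_le_pow_left₀ (by linarith) h1 n
    _ = Real.exp (-(x * n)) := by rw [← Real.exp_nat_mul]; congr 1; ring

def Om (k s L e : ℕ) (CM : Type) : Bool → Type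
  | true => B s × B L × (VX k s L e CM → Bool)
  | false => B L × (VX k s L e CM → Bool)

theorem avg_le (s L : ℕ) (F : B s → B L → ℝ) (ε : ℝ) (h : ∀ b r, F b r ≤ ε) :
    ∑ b : B s, ∑ r : B L, (1 / 2 ^ s : ℝ) * (1 / 2 ^ L) * F b r ≤ ε := by
  calc ∑ b : B s, ∑ r : B L, (1 / 2 ^ s : ℝ) * (1 / 2 ^ L) * F b r
      ≤ ∑ b : B s, ∑ r : B L, (1 / 2 ^ s : ℝ) * (1 / 2 ^ L) * ε :=
        Finset.sum_le_sum (fun b _ => Finset.sum_le_sum (fun r _ =>
          mul_le_mul_of_nonneg_left (h b r) (by positivity)))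
    _ = ε := by
        simp [B]
        field_simp

theorem avg_eq (s L : ℕ) (F : B s → B L → ℝ) (ε : ℝ) (h : ∀ b r, F b r = ε) :
    ∑ b : B s, ∑ r : B L, (1 / 2 ^ s : ℝ) * (1 / 2 ^ L) * F b r = ε := by
  simp_rw [h]
  simp [B]
  field_simp

theorem avg_eq1 (L : ℕ) (F : B L → ℝ) (ε : ℝ) (h : ∀ r, F r = ε) :
    ∑ r : B L, (1 / 2 ^ L : ℝ) * F r = ε := by
  simp_rw [h]
  simp [B]

noncomputable def OmF (k s L e : ℕ) (CM : Type) [Fintype CM] :
    ∀ β, Fintype (Om k s L e CM β)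
  | true => (inferInstance : Fintype (B s × B L × (VX k s L e CM → Bool)))
  | false => (inferInstance : Fintype (B L × (VX k s L e CM → Bool)))

noncomputable def ww (k s L e : ℕ) (CM : Type) [Fintype CM] (μ : (FV k s → Bool) → ℝ) (p : ℝ) :
    ∀ β, Om k s L e CM β → ℝ
  | true, ω => (1 / 2 ^ s : ℝ) * (1 / 2 ^ L) * plW μ p ω.1 ω.2.1 ω.2.2
  | false, ω => (1 / 2 ^ L : ℝ) * prodW (prX k s L e CM p) ω.2

noncomputable def XX {k s L e : ℕ} {CM CE : Type} {θ₁ θ₀ : ℝ} {D : ℕ}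
    (C : Cert k s L e θ₁ θ₀ CM CE D) : ∀ β, Om k s L e CM β → VX k s L e CM → Bool
  | true, ω => YY C ω.1 ω.2.1 ω.2.2
  | false, ω => eraseM (dec s ω.1) ω.2

def ptt (k s L e : ℕ) (CM : Type) : ∀ β, Om k s L e CM β → B L
  | true, ω => ω.2.1
  | false, ω => ω.1

end D4

open D4 in
theorem xLower : ForrHard → Adv0 → Adv1 → GoodProb → XLower := by
  intro hF hA0 hA1 hGP η k ε₀ hη hη' hk hηk hε
  obtain ⟨s₁, hs₁⟩ := hF k (η / 4) ε₀ hk (by linarith) hε
  obtain ⟨M, hM, hM'⟩ := tool2 ε₀ hε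
  obtain ⟨s₂, hs₂⟩ := tool1 (η / 2) (200 * (4 * M + 125)) (by linarith)
  refine ⟨max 1 (max s₁ s₂), fun s hs g hg hgε hgη => ?_⟩
  have hs1 : 1 ≤ s := (le_max_left _ _).trans hs
  have hss1 : s₁ ≤ s := (le_max_left _ _).trans ((le_max_right _ _).trans hs)
  have hss2 : s₂ ≤ s := (le_max_right _ _).trans ((le_max_right _ _).trans hs)
  intro CM CE _ _ D R C hR
  have hsr : (1 : ℝ) ≤ s := by exact_mod_cast hs1
  have hkn : (0 : ℝ) ≤ k := Nat.cast_nonneg k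
  have hgn : (0 : ℝ) ≤ g := Nat.cast_nonneg g
  have h8 : 8 * g * k ≤ s := by
    have h1 : (8 * g * k : ℝ) ≤ s := by
      have h2 : η * s ≤ 1 / 10 * s := mul_le_mul_of_nonneg_right hη' (by linarith)
      have h3 : 0 ≤ (k : ℝ) * g := mul_nonneg hkn hgn
      nlinarith
    exact_mod_cast h1
  obtain ⟨μ, hμ0, hμ1, hμφ, hμT⟩ := hs₁ s hss1 g hg hgε h8
  obtain ⟨n1, n2, n3, n4, n5, n6⟩ := numb η k s g R hη hη' hgη hR
  have hu := hs₂ s hss2
  set u : ℝ := (2 : ℝ) ^ (-(η / 2 * s)) with hu_def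
  have hu0 : 0 < u := Real.rpow_pos_of_pos (by norm_num) _
  set p : ℝ := 2 ^ g / 2 ^ s with hp_def
  have hp0 : 0 ≤ p := by positivity
  have hp1 : p ≤ 1 := by rw [hp_def, div_le_one (by positivity)]; exact n6
  have hth1 : (0 : ℝ) ≤ th1 k g := by unfold th1; positivity
  have hth1' : th1 k g ≤ 1 := by
    unfold th1; exact pow_le_one₀ (by norm_num) (by norm_num)
  have hth0 : 0 < th0 s := Real.rpow_pos_of_pos (by norm_num) _
  have h2th : 2 * th1 k g ≤ ∑ z, μ z * phi z := by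
    refine le_trans (le_of_eq ?_) hμφ
    unfold th1
    rw [show (1 / 4 : ℝ) = (1 / 2) ^ 2 by norm_num, ← pow_mul, pow_add, show 2 * (g * k) = 2 * g * k by ring]
    ring
  have hgp := fun (b : B s) (r : B (3 * s)) =>
    hGP k s (3 * s) (eP k g) CM p (th1 k g) (th0 s) μ b r hp0 hp1 hμ0 hμ1 hth1 hth1' hth0 h2th
  -- the estimates
  have hexp := hM' s g hgε
  have hxs : (2 : ℝ) ^ (-(2 * (s : ℝ))) = (2 : ℝ) ^ (-(s : ℝ)) * (2 : ℝ) ^ (-(s : ℝ)) := by
    rw [← Real.rpow_add (by norm_num)]; congr 1; ring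
  have hx0 : 0 < (2 : ℝ) ^ (-(s : ℝ)) := Real.rpow_pos_of_pos (by norm_num) _
  have hx1 : (2 : ℝ) ^ (-(s : ℝ)) ≤ 1 := by
    rw [← Real.rpow_zero 2]
    exact Real.rpow_le_rpow_of_exponent_le (by norm_num) (by linarith)
  have hE1 : (2 : ℝ) ^ s * (1 - p) ^ (2 ^ s) ≤ M * u := by
    have h1 := one_sub_pow_le p (2 ^ s) hp1
    have h2 : p * ((2 ^ s : ℕ) : ℝ) = 2 ^ g := by
      rw [hp_def]; push_cast; field_simp
    rw [h2] at h1
    have h3 : (2 : ℝ) ^ s * (2 : ℝ) ^ (-(s : ℝ)) = 1 := by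
      rw [← Real.rpow_natCast, ← Real.rpow_add (by norm_num)]; simp
    calc (2 : ℝ) ^ s * (1 - p) ^ (2 ^ s) ≤ (2 : ℝ) ^ s * (M * (2 : ℝ) ^ (-(2 * (s : ℝ)))) :=
          mul_le_mul_of_nonneg_left (h1.trans hexp) (by positivity)
      _ = M * ((2 : ℝ) ^ s * (2 : ℝ) ^ (-(s : ℝ))) * (2 : ℝ) ^ (-(s : ℝ)) := by rw [hxs]; ring
      _ = M * (2 : ℝ) ^ (-(s : ℝ)) := by rw [h3]; ring
      _ ≤ M * u := mul_le_mul_of_nonneg_left n5 hM.le
  have hE2 : ((3 * s : ℕ) : ℝ) * (1 - th1 k g) ^ (2 ^ (eP k g)) ≤ 3 * M * s * u := by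
    have h1 := one_sub_pow_le (th1 k g) (2 ^ (eP k g)) hth1'
    have h2 : th1 k g * ((2 ^ (eP k g) : ℕ) : ℝ) = 2 ^ g := by
      push_cast; exact th1_mul k g
    rw [h2] at h1
    calc ((3 * s : ℕ) : ℝ) * (1 - th1 k g) ^ (2 ^ (eP k g))
        ≤ ((3 * s : ℕ) : ℝ) * (M * (2 : ℝ) ^ (-(2 * (s : ℝ)))) :=
          mul_le_mul_of_nonneg_left (h1.trans hexp) (by positivity)
      _ = 3 * M * s * ((2 : ℝ) ^ (-(s : ℝ)) * (2 : ℝ) ^ (-(s : ℝ))) := by
          rw [hxs]; push_cast; ring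
      _ ≤ 3 * M * s * (1 * u) := by
          refine mul_le_mul_of_nonneg_left ?_ (by positivity)
          exact mul_le_mul hx1 n5 hx0.le (by norm_num)
      _ = _ := by ring
  have hE3 : ((3 * s : ℕ) : ℝ) * 2 ^ (eP k g) * (1 / (2 ^ s * th0 s ^ 2)) ≤ 12 * s * u := by
    rw [th0_sq]
    calc ((3 * s : ℕ) : ℝ) * 2 ^ (eP k g) * (2 : ℝ) ^ (-(s : ℝ) / 2)
        = 3 * s * ((2 : ℝ) ^ (eP k g) * (2 : ℝ) ^ (-(s : ℝ) / 2)) := by push_cast; ring
      _ ≤ 3 * s * (4 * u) := mul_le_mul_of_nonneg_left n3 (by positivity)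
      _ = _ := by ring
  refine ⟨Om k s (3 * s) (eP k g) CM, OmF k s (3 * s) (eP k g) CM, ww k s (3 * s) (eP k g) CM μ p,
    XX C, ptt k s (3 * s) (eP k g) CM, prodW (prX k s (3 * s) (eP k g) CM p), ?_, ?_, ?_, ?_, ?_, ?_⟩
  · intro β ω
    cases β with
    | true =>
      have := plW_nonneg μ hμ0 p hp0 hp1 ω.1 ω.2.1 ω.2.2
      simp only [ww]
      positivity
    | false =>
      have := prodW_nonneg (prX k s (3 * s) (eP k g) CM p) (prX_mem k s (3 * s) (eP k g) CM p hp0 hp1) ω.2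
      simp only [ww]
      positivity
  · intro β
    cases β with
    | true =>
      show ∑ ω : B s × B (3 * s) × (VX k s (3 * s) (eP k g) CM → Bool),
        (1 / 2 ^ s : ℝ) * (1 / 2 ^ (3 * s)) * plW μ p ω.1 ω.2.1 ω.2.2 = 1
      rw [Fintype.sum_prod_type]
      simp_rw [Fintype.sum_prod_type, ← Finset.mul_sum]
      have h9 := avg_eq s (3 * s) (fun b r => ∑ X, plW μ p b r X) 1 (fun b r => (hgp b r).1)
      simp_rw [← Finset.mul_sum] at h9
      exact h9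
    | false =>
      show ∑ ω : B (3 * s) × (VX k s (3 * s) (eP k g) CM → Bool),
        (1 / 2 ^ (3 * s) : ℝ) * prodW (prX k s (3 * s) (eP k g) CM p) ω.2 = 1
      rw [Fintype.sum_prod_type]
      simp_rw [← Finset.mul_sum]
      have h9 := avg_eq1 (3 * s)
        (fun _ => ∑ X, prodW (prX k s (3 * s) (eP k g) CM p) X) 1
        (fun r => by convert sum_prodW (prX k s (3 * s) (eP k g) CM p))
      simp_rw [← Finset.mul_sum] at h9
      exact h9
  · exact prodW_nonneg _ (prX_mem k s (3 * s) (eP k g) CM p hp0 hp1)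
  · convert sum_prodW (prX k s (3 * s) (eP k g) CM p)
  · intro β
    cases β with
    | true =>
      refine fin_est (4 * M + 12) s u _ (by linarith) ?_ ?_
      · refine le_trans ?_ hu
        have : 0 ≤ (s : ℝ) ^ 2 * u := by positivity
        nlinarith
      · show ∑ ω : B s × B (3 * s) × (VX k s (3 * s) (eP k g) CM → Bool),
          (if valid (chkX C) true ω.2.1 (YY C ω.1 ω.2.1 ω.2.2) then 0 else
            (1 / 2 ^ s : ℝ) * (1 / 2 ^ (3 * s)) * plW μ p ω.1 ω.2.1 ω.2.2) ≤ _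
        rw [Fintype.sum_prod_type]
        simp_rw [Fintype.sum_prod_type]
        have hstep : ∀ (b : B s) (r : B (3 * s)),
            ∑ X : VX k s (3 * s) (eP k g) CM → Bool,
              (if valid (chkX C) true r (YY C b r X) then 0 else
                (1 / 2 ^ s : ℝ) * (1 / 2 ^ (3 * s)) * plW μ p b r X)
            = (1 / 2 ^ s : ℝ) * (1 / 2 ^ (3 * s)) *
              ∑ X : VX k s (3 * s) (eP k g) CM → Bool,
              (if valid (chkX C) true r (YY C b r X) then 0 else plW μ p b r X) := by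
          intro b r
          rw [Finset.mul_sum]
          refine Finset.sum_congr rfl (fun X _ => ?_)
          split_ifs <;> simp
        simp_rw [hstep]
        refine avg_le _ _ _ _ (fun b r => ?_)
        have h1 : ∑ X : VX k s (3 * s) (eP k g) CM → Bool,
              (if valid (chkX C) true r (YY C b r X) then 0 else plW μ p b r X)
            ≤ ∑ X : VX k s (3 * s) (eP k g) CM → Bool,
              (if (∀ j, ∃ a, mark X j a = true) ∧ good (th1 k g) (th0 s) r (zblk X b)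
                then 0 else plW μ p b r X) := by
          refine Finset.sum_le_sum (fun X _ => ?_)
          have h0 := plW_nonneg μ hμ0 p hp0 hp1 b r X
          by_cases hc : (∀ j, ∃ a, mark X j a = true) ∧ good (th1 k g) (th0 s) r (zblk X b)
          · rw [if_pos (valid_YY C b r X hc.1 hc.2), if_pos hc]
          · rw [if_neg hc]
            split_ifs
            · exact h0
            · exact le_rfl
        refine h1.trans ((hgp b r).2.trans ?_)
        have hMs : M * u ≤ M * s * u := by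
          have : 0 ≤ M * u := by positivity
          nlinarith
        calc _ ≤ M * u + 3 * M * s * u + 12 * s * u := by gcongr
          _ ≤ (4 * M + 12) * s * u := by linarith
    | false =>
      show ∑ ω : B (3 * s) × (VX k s (3 * s) (eP k g) CM → Bool),
        (if valid (chkX C) false ω.1 (eraseM (dec s ω.1) ω.2) then 0 else
          (1 / 2 ^ (3 * s) : ℝ) * prodW (prX k s (3 * s) (eP k g) CM p) ω.2) ≤ _
      rw [Finset.sum_eq_zero]
      · positivity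
      · intro ω _
        rw [if_pos (valid_erase C ω.1 ω.2)]
  · intro β T hT hTd
    cases β with
    | true =>
      show |∑ ω : B s × B (3 * s) × (VX k s (3 * s) (eP k g) CM → Bool),
        (1 / 2 ^ s : ℝ) * (1 / 2 ^ (3 * s)) * plW μ p ω.1 ω.2.1 ω.2.2 *
          T.eval (YY C ω.1 ω.2.1 ω.2.2) - _| ≤ _
      have hd1 : 1 ≤ ⌊(2 : ℝ) ^ ((s : ℝ) * (1 - η / 4))⌋₊ := by
        refine Nat.le_floor ?_
        rw [Nat.cast_one, ← Real.rpow_zero 2]
        refine Real.rpow_le_rpow_of_exponent_le (by norm_num) ?_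
        exact mul_nonneg (by linarith) (by linarith)
      have h1 := hA1 k s (3 * s) (eP k g) R ⌊(2 : ℝ) ^ ((s : ℝ) * (1 - η / 4))⌋₊ CM p
        ((2 : ℝ) ^ (-(s : ℝ) / 2)) μ (YY C) T hp0 hp1 hμ0 hμ1 hd1 (by positivity) ?_
        (agree_YY C) hT hTd
      · refine h1.trans ?_
        refine fin_est 113 s u _ (by linarith) ?_ ?_
        · refine le_trans ?_ hu
          have : 0 ≤ (s : ℝ) ^ 2 * u := by positivity
          nlinarith
        · have e3 : 4 * (((3 * s : ℕ) : ℝ) * 2 ^ (eP k g)) * (2 : ℝ) ^ (-(s : ℝ) / 2) ≤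
              48 * s * u := by
            calc 4 * (((3 * s : ℕ) : ℝ) * 2 ^ (eP k g)) * (2 : ℝ) ^ (-(s : ℝ) / 2)
                = 12 * s * ((2 : ℝ) ^ (eP k g) * (2 : ℝ) ^ (-(s : ℝ) / 2)) := by push_cast; ring
              _ ≤ 12 * s * (4 * u) := mul_le_mul_of_nonneg_left n3 (by positivity)
              _ = _ := by ring
          have e4 : 4 * (R : ℝ) / (2 ^ s * (⌊(2 : ℝ) ^ ((s : ℝ) * (1 - η / 4))⌋₊ : ℝ)) ≤
              8 * u := by
            rw [mul_div_assoc]; linarith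
          have e5 : u ≤ s * u := by nlinarith
          calc _ ≤ u + 2 * (48 * s * u + 8 * u) := by gcongr
            _ ≤ 113 * s * u := by nlinarith
      · intro T' hT' hT'd
        refine hμT T' hT' ?_
        refine le_trans (Nat.cast_le.mpr hT'd) (Nat.floor_le (by positivity))
    | false =>
      show |∑ ω : B (3 * s) × (VX k s (3 * s) (eP k g) CM → Bool),
        (1 / 2 ^ (3 * s) : ℝ) * prodW (prX k s (3 * s) (eP k g) CM p) ω.2 *
          T.eval (eraseM (dec s ω.1) ω.2) - _| ≤ _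
      have h1 := hA0 k s (3 * s) (eP k g) R CM p T (by omega) hp0 hp1 hT hTd
      refine h1.trans ?_
      refine fin_est 1 s u _ (by linarith) ?_ ?_
      · refine le_trans ?_ hu
        have : 0 ≤ (s : ℝ) ^ 2 * u := by positivity
        nlinarith
      · refine n1.trans ?_
        nlinarith

end Crest.Agent.R350
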