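import Crest.Agent.R350.Defs

set_option autoImplicit false

open Finset Classical

namespace Crest.Agent.R350

namespace D5

theorem grow (a : ℕ) (c K : ℝ) (hc : 0 < c) :
    ∃ s₀ : ℕ, ∀ s : ℕ, s₀ ≤ s → K * ((s : ℝ) + 1) ^ a ≤ (2 : ℝ) ^ (c * (s : ℝ)) := by
  have hl : 0 < Real.log 2 := Real.log_pos (by norm_num)
  set b := c * Real.log 2 with hb
  have hb0 : 0 < b := mul_pos hc hl
  have h1 := Real.tendsto_pow_mul_exp_neg_atTop_nhds_zero a
  have h2 : Filter.Tendsto (fun s : ℕ => b * ((s : ℝ) + 1)) Filter.atTop Filter.atTop := by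
    refine Filter.Tendsto.const_mul_atTop hb0 ?_
    exact Filter.tendsto_atTop_add_const_right _ _ tendsto_natCast_atTop_atTop
  have h3 := h1.comp h2
  have hε : 0 < b ^ a / ((|K| + 1) * Real.exp b) := by positivity
  have h4 := (h3.eventually (gt_mem_nhds hε))
  obtain ⟨s₀, hs₀⟩ := Filter.eventually_atTop.mp h4
  refine ⟨s₀, fun s hs => ?_⟩
  have h5 := hs₀ s hs
  simp only [Function.comp] at h5
  rw [mul_pow] at h5
  have hpow : (2 : ℝ) ^ (c * (s : ℝ)) = Real.exp (b * s) := by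
    rw [Real.rpow_def_of_pos (by norm_num)]
    congr 1
    rw [hb]; ring
  rw [hpow]
  have h6 : Real.exp (-(b * ((s : ℝ) + 1))) = Real.exp (-(b * s)) * (Real.exp b)⁻¹ := by
    rw [← Real.exp_neg b, ← Real.exp_add]; congr 1; ring
  rw [h6] at h5
  have he := Real.exp_pos b
  have hes := Real.exp_pos (b * s)
  have hba : 0 < b ^ a := by positivity
  rw [Real.exp_neg] at h5
  have h7 : ((s : ℝ) + 1) ^ a * (|K| + 1) ≤ Real.exp (b * s) := by
    rw [lt_div_iff₀ (by positivity)] at h5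
    have h8 : b ^ a * ((s : ℝ) + 1) ^ a * ((Real.exp (b * s))⁻¹ * (Real.exp b)⁻¹) *
        ((|K| + 1) * Real.exp b) = b ^ a * (((s : ℝ) + 1) ^ a * (|K| + 1) / Real.exp (b * s)) := by
      field_simp
    rw [h8] at h5
    have h9 : ((s : ℝ) + 1) ^ a * (|K| + 1) / Real.exp (b * s) < 1 := by
      by_contra hcon
      push Not at hcon
      have := mul_le_mul_of_nonneg_left hcon hba.le
      linarith
    rw [div_lt_one hes] at h9
    exact h9.le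
  have h10 : K * ((s : ℝ) + 1) ^ a ≤ ((s : ℝ) + 1) ^ a * (|K| + 1) := by
    have : 0 ≤ ((s : ℝ) + 1) ^ a := by positivity
    nlinarith [le_abs_self K]
  exact h10.trans h7

theorem pow_le_exp_neg (x : ℝ) (K : ℕ) (hx1 : x ≤ 1) :
    (1 - x) ^ K ≤ Real.exp (-(K * x)) := by
  have h1 : 1 - x ≤ Real.exp (-x) := Real.one_sub_le_exp_neg x
  calc (1 - x) ^ K ≤ (Real.exp (-x)) ^ K := pow_le_pow_left₀ (by linarith) h1 K
    _ = Real.exp (-(K * x)) := by rw [← Real.exp_nat_mul]; congr 1; ring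

theorem exp_neg_le (y : ℝ) (hy : 0 < y) : Real.exp (-y) ≤ 1 / y := by
  rw [Real.exp_neg, inv_eq_one_div]
  exact one_div_le_one_div_of_le hy (by linarith [Real.add_one_le_exp y])

/-- numeric bound for the total cost. -/
theorem cost_bound (k c₁ s g T T' nE e Kt D : ℕ) (H Y : ℝ)
    (hs : 1 ≤ s) (hH : 1 ≤ H) (hY : 1 ≤ Y)
    (hT : (T : ℝ) ≤ 2 * H) (he : (2 : ℝ) ^ e * Kt ≤ Y) (he' : (2 : ℝ) ^ e ≤ Y)
    (hes : (e : ℝ) ≤ s + 2)
    (hHs : (2 : ℝ) ^ s = H ^ 2)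
    (hnE : (nE : ℝ) ≤ 2 ^ s + c₁ * (s + 1) * (3 * s + 1) * 2 ^ e * 2 ^ s)
    (hT' : T' = Nat.sqrt ((2 * s + 6) * nE) + 1)
    (hD : D = s + 1 + c₁ * (s + e + 1)) :
    (((2 * s + 6) * costF s (3 * s) s T (s + 1) (3 * s * 2 ^ e * Kt * (k + 1)) +
      (2 * s + 6) * (3 * s) + 1 + 48 * T' * (D + 1) : ℕ) : ℝ) ≤
      (12 * (96 + 36 * ((k : ℝ) + 1)) + 19 + 48 * (7 + 18 * (c₁ : ℝ)) * (2 + 4 * c₁)) *
        ((s : ℝ) + 1) ^ 6 * H * Y := by
  set S : ℝ := (s : ℝ) + 1 with hS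
  have hS1 : 1 ≤ S := by rw [hS]; have : (0 : ℝ) ≤ s := by positivity
                         linarith
  have hsS : (s : ℝ) ≤ S := by rw [hS]; linarith
  have hs0 : (0 : ℝ) ≤ s := by positivity
  have hk0 : (0 : ℝ) ≤ k := by positivity
  have hc0 : (0 : ℝ) ≤ c₁ := by positivity
  have hT0 : (0 : ℝ) ≤ T := by positivity
  -- qA
  have hqA : ((3 * s * 2 ^ e * Kt * (k + 1) : ℕ) : ℝ) ≤ 3 * ((k : ℝ) + 1) * S * Y := by
    push_cast
    calc (3 * (s : ℝ) * 2 ^ e * Kt * ((k : ℝ) + 1)) = 3 * ((k : ℝ) + 1) * s * (2 ^ e * Kt) := by ring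
      _ ≤ 3 * ((k : ℝ) + 1) * S * Y := by gcongr
  set qA : ℕ := 3 * s * 2 ^ e * Kt * (k + 1) with hqAdef
  have hcost : ((costF s (3 * s) s T (s + 1) qA : ℕ) : ℝ) ≤
      (96 + 36 * ((k : ℝ) + 1)) * S ^ 5 * T * Y := by
    unfold costF
    push_cast
    have e1 : ((s : ℝ) + 1) = S := rfl
    rw [e1]
    have h1 : (3 * (s : ℝ) + s) * (12 * T * (S * S) * s) ≤ 48 * S ^ 4 * T := by
      calc (3 * (s : ℝ) + s) * (12 * T * (S * S) * s) ≤ (3 * S + S) * (12 * T * (S * S) * S) := by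
            gcongr
        _ = 48 * S ^ 4 * T := by ring
    have h2 : 12 * (T : ℝ) * (qA + (3 * s + s) * S) * s ≤
        (36 * ((k : ℝ) + 1) + 48) * S ^ 3 * T * Y := by
      have h3 : (qA : ℝ) + (3 * s + s) * S ≤ (3 * ((k : ℝ) + 1) + 4) * S ^ 2 * Y := by
        have h4 : (qA : ℝ) ≤ 3 * ((k : ℝ) + 1) * S ^ 2 * Y := by
          refine hqA.trans ?_
          have : S ≤ S ^ 2 := by nlinarith
          gcongr
        have h5 : (3 * (s : ℝ) + s) * S ≤ 4 * S ^ 2 * Y := by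
          calc (3 * (s : ℝ) + s) * S ≤ (3 * S + S) * S := by gcongr
            _ = 4 * S ^ 2 * 1 := by ring
            _ ≤ 4 * S ^ 2 * Y := by gcongr
        linarith
      calc 12 * (T : ℝ) * (qA + (3 * s + s) * S) * s
          ≤ 12 * (T : ℝ) * ((3 * ((k : ℝ) + 1) + 4) * S ^ 2 * Y) * S := by gcongr
        _ = (36 * ((k : ℝ) + 1) + 48) * S ^ 3 * T * Y := by ring
    have h6 : 48 * S ^ 4 * (T : ℝ) ≤ 48 * S ^ 4 * T * Y := by
      have : 0 ≤ 48 * S ^ 4 * (T : ℝ) := by positivity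
      nlinarith
    have h7 : (36 * ((k : ℝ) + 1) + 48) * S ^ 3 * T * Y ≤
        (36 * ((k : ℝ) + 1) + 48) * S ^ 4 * T * Y := by
      have : S ^ 3 ≤ S ^ 4 := pow_le_pow_right₀ hS1 (by norm_num)
      gcongr
    calc S * ((3 * (s : ℝ) + s) * (12 * T * (S * S) * s) + 12 * T * (qA + (3 * s + s) * S) * s)
        ≤ S * (48 * S ^ 4 * T * Y + (36 * ((k : ℝ) + 1) + 48) * S ^ 4 * T * Y) :=
          mul_le_mul_of_nonneg_left (add_le_add (h1.trans h6) (h2.trans h7)) (by linarith)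
      _ = (96 + 36 * ((k : ℝ) + 1)) * S ^ 5 * T * Y := by ring
  have hc6 : (2 * (s : ℝ) + 6) ≤ 6 * S := by rw [hS]; linarith
  have hpart1 : (2 * (s : ℝ) + 6) * (costF s (3 * s) s T (s + 1) qA : ℕ) ≤
      12 * (96 + 36 * ((k : ℝ) + 1)) * S ^ 6 * H * Y := by
    calc (2 * (s : ℝ) + 6) * (costF s (3 * s) s T (s + 1) qA : ℕ)
        ≤ (6 * S) * ((96 + 36 * ((k : ℝ) + 1)) * S ^ 5 * T * Y) := by gcongr
      _ ≤ (6 * S) * ((96 + 36 * ((k : ℝ) + 1)) * S ^ 5 * (2 * H) * Y) := by gcongr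
      _ = 12 * (96 + 36 * ((k : ℝ) + 1)) * S ^ 6 * H * Y := by ring
  have hSH : 1 ≤ S ^ 4 * H * Y := by
    have : 1 ≤ S ^ 4 := one_le_pow₀ hS1
    have h := mul_le_mul (mul_le_mul this hH (by norm_num) (by positivity)) hY (by norm_num)
      (by positivity)
    simpa using h
  have hpart2 : (2 * (s : ℝ) + 6) * (3 * s) + 1 ≤ 19 * S ^ 6 * H * Y := by
    calc (2 * (s : ℝ) + 6) * (3 * s) + 1 ≤ (6 * S) * (3 * S) + 1 := by gcongr
      _ ≤ 19 * S ^ 2 := by nlinarith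
      _ = 19 * S ^ 2 * 1 := by ring
      _ ≤ 19 * S ^ 2 * (S ^ 4 * H * Y) := by gcongr
      _ = 19 * S ^ 6 * H * Y := by ring
  -- T'
  have hTb : (T' : ℝ) ≤ (7 + 18 * c₁) * S ^ 2 * H * Y := by
    have h1 : ((Nat.sqrt ((2 * s + 6) * nE) : ℕ) : ℝ) ^ 2 ≤ ((6 + 18 * c₁) * S ^ 2 * H * Y) ^ 2 := by
      have h2 : ((Nat.sqrt ((2 * s + 6) * nE) ^ 2 : ℕ) : ℝ) ≤ (((2 * s + 6) * nE : ℕ) : ℝ) := by
        exact_mod_cast Nat.sqrt_le' _
      push_cast at h2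
      refine h2.trans ?_
      have h3 : (nE : ℝ) ≤ (1 + 3 * c₁) * S ^ 2 * H ^ 2 * Y := by
        refine hnE.trans ?_
        rw [hHs]
        have h4 : (s : ℝ) + 1 = S := rfl
        have h5 : 3 * (s : ℝ) + 1 ≤ 3 * S := by rw [hS]; linarith
        have h6 : H ^ 2 ≤ 1 * S ^ 2 * H ^ 2 * Y := by
          have : 1 ≤ S ^ 2 * Y := by
            have : 1 ≤ S ^ 2 := one_le_pow₀ hS1
            nlinarith
          nlinarith [sq_nonneg H]
        have h7 : (c₁ : ℝ) * S * (3 * s + 1) * 2 ^ e * H ^ 2 ≤ 3 * c₁ * S ^ 2 * H ^ 2 * Y := by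
          calc (c₁ : ℝ) * S * (3 * s + 1) * 2 ^ e * H ^ 2 ≤ (c₁ : ℝ) * S * (3 * S) * Y * H ^ 2 := by
                gcongr
            _ = 3 * c₁ * S ^ 2 * H ^ 2 * Y := by ring
        linarith
      calc (2 * (s : ℝ) + 6) * nE ≤ (6 * S) * ((1 + 3 * c₁) * S ^ 2 * H ^ 2 * Y) := by gcongr
        _ = (6 + 18 * c₁) * (S ^ 3 * H ^ 2 * Y) := by ring
        _ ≤ (6 + 18 * c₁) ^ 2 * (S ^ 4 * H ^ 2 * Y ^ 2) := by
            have h8 : (6 + 18 * (c₁ : ℝ)) ≤ (6 + 18 * (c₁ : ℝ)) ^ 2 := by nlinarith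
            have h9 : S ^ 3 ≤ S ^ 4 := pow_le_pow_right₀ hS1 (by norm_num)
            have h10 : Y ≤ Y ^ 2 := by nlinarith
            gcongr
        _ = ((6 + 18 * c₁) * S ^ 2 * H * Y) ^ 2 := by ring
    have h2 := abs_le_of_sq_le_sq' h1 (by positivity)
    rw [hT']
    push_cast
    have h3 : 1 ≤ S ^ 2 * H * Y := by
      have : 1 ≤ S ^ 2 := one_le_pow₀ hS1
      have h := mul_le_mul (mul_le_mul this hH (by norm_num) (by positivity)) hY (by norm_num)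
        (by positivity)
      simpa using h
    nlinarith [h2.2]
  have hDb : (D : ℝ) + 1 ≤ (2 + 4 * c₁) * S := by
    rw [hD]
    push_cast
    have h1 : (s : ℝ) + e + 1 ≤ 4 * S := by
      rw [hS]; linarith
    have h2 : (c₁ : ℝ) * (s + e + 1) ≤ c₁ * (4 * S) := by gcongr
    rw [hS] at *
    nlinarith
  have hpart3 : 48 * (T' : ℝ) * (D + 1) ≤ 48 * (7 + 18 * c₁) * (2 + 4 * c₁) * S ^ 6 * H * Y := by
    calc 48 * (T' : ℝ) * (D + 1) ≤ 48 * ((7 + 18 * c₁) * S ^ 2 * H * Y) * ((2 + 4 * c₁) * S) := by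
          gcongr
      _ = 48 * (7 + 18 * c₁) * (2 + 4 * c₁) * S ^ 3 * H * Y := by ring
      _ ≤ 48 * (7 + 18 * c₁) * (2 + 4 * c₁) * S ^ 6 * H * Y := by
          have : S ^ 3 ≤ S ^ 6 := pow_le_pow_right₀ hS1 (by norm_num)
          gcongr
  push_cast
  have := add_le_add (add_le_add hpart1 hpart2) hpart3
  refine le_trans (le_of_eq ?_) (this.trans (le_of_eq ?_))
  · push_cast; ring
  · ring

end D5

open D5 in
theorem main (hQ : CSQ) (hR : CSR) (hA : XAlg) (hL : XLower) (hC : CertExists) : Main := by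
  intro η hη0 hη1
  -- constants
  set k : ℕ := ⌈16 / η⌉₊ with hk
  have hk16 : 16 ≤ η * ((k : ℝ) + 1) := by
    have h1 : 16 / η ≤ (k : ℝ) := Nat.le_ceil _
    rw [div_le_iff₀ hη0] at h1
    nlinarith
  have hk1 : 1 ≤ k := by
    rw [hk, Nat.one_le_ceil_iff]
    positivity
  obtain ⟨c₁, hc₁⟩ := hC k
  set ε₀ : ℝ := η / (200 * ((k : ℝ) + 1)) with hε₀
  have hkp : 0 < (k : ℝ) + 1 := by positivity
  have hε₀p : 0 < ε₀ := by rw [hε₀]; positivity
  obtain ⟨s₁, hs₁⟩ := hL η k ε₀ hη0 hη1 hk1 hk16 hε₀p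
  set K₀ : ℝ := 12 * (96 + 36 * ((k : ℝ) + 1)) + 19 + 48 * (7 + 18 * (c₁ : ℝ)) * (2 + 4 * c₁)
    with hK₀
  have hK₀p : 0 < K₀ := by rw [hK₀]; positivity
  obtain ⟨s₂, hs₂⟩ := grow 6 (η * (94 / 100)) (64 * K₀) (by positivity)
  obtain ⟨s₃, hs₃⟩ := grow 3 1 288 (by norm_num)
  obtain ⟨s₄, hs₄⟩ := grow 1 ε₀ 12 hε₀p
  obtain ⟨s₅, hs₅⟩ := grow 1 (4 / 10) 768 (by norm_num)
  refine ⟨max (max s₁ s₂) (max (max s₃ s₄) (max s₅ (⌈200 * ((k : ℝ) + 1) / η⌉₊ + 1))),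
    fun s hs => ?_⟩
  have hsa : s₁ ≤ s := le_trans (le_trans (le_max_left _ _) (le_max_left _ _)) hs
  have hsb : s₂ ≤ s := le_trans (le_trans (le_max_right _ _) (le_max_left _ _)) hs
  have hsr := le_trans (le_max_right _ _) hs
  have hsc : s₃ ≤ s := le_trans (le_trans (le_max_left _ _) (le_max_left _ _)) hsr
  have hsd : s₄ ≤ s := le_trans (le_trans (le_max_right _ _) (le_max_left _ _)) hsr
  have hsr2 := le_trans (le_max_right _ _) hsr
  have hse : s₅ ≤ s := le_trans (le_max_left _ _) hsr2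
  have hsf : ⌈200 * ((k : ℝ) + 1) / η⌉₊ + 1 ≤ s := le_trans (le_max_right _ _) hsr2
  have hs1 : 1 ≤ s := by omega
  have hsR : (0 : ℝ) < s := by exact_mod_cast hs1
  have hs1R : (1 : ℝ) ≤ s := by exact_mod_cast hs1
  -- x = η s / (100 (k+1)) ≥ 2
  set x : ℝ := η * s / (100 * ((k : ℝ) + 1)) with hx
  have hx2 : 2 ≤ x := by
    rw [hx, le_div_iff₀ (by positivity)]
    have h1 : 200 * ((k : ℝ) + 1) / η ≤ s := by
      refine (Nat.le_ceil _).trans ?_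
      exact_mod_cast (by omega : ⌈200 * ((k : ℝ) + 1) / η⌉₊ ≤ s)
    rw [div_le_iff₀ hη0] at h1
    nlinarith
  set g : ℕ := ⌊x⌋₊ with hg
  have hgx : (g : ℝ) ≤ x := Nat.floor_le (by linarith)
  have hgx' : x < (g : ℝ) + 1 := Nat.lt_floor_add_one x
  have hg1 : 1 ≤ g := by
    rw [hg]
    exact (Nat.one_le_floor_iff x).mpr (by linarith)
  have hgε : ε₀ * s ≤ g := by
    have h1 : ε₀ * s = x / 2 := by rw [hε₀, hx]; field_simp; ring
    rw [h1]; linarith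
  have hg100 : 100 * ((k : ℝ) + 1) * g ≤ η * s := by
    calc 100 * ((k : ℝ) + 1) * g ≤ 100 * ((k : ℝ) + 1) * x := by gcongr
      _ = η * s := by rw [hx]; field_simp
  set y : ℕ := g * (k + 1) with hy
  have hyR : (y : ℝ) ≤ η * s / 100 := by
    rw [hy]; push_cast; nlinarith
  have hy1 : (y : ℝ) ≤ s / 1000 := by nlinarith
  -- parameters
  obtain ⟨CM, CE, fCM, fCE, hcard, ⟨C⟩⟩ := hc₁ s (3 * s) (eP k g) (th1 k g) (th0 s) hs1
  set e : ℕ := eP k g with he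
  have hey : e ≤ 2 * y + 2 := by
    rw [he, hy]; unfold eP; nlinarith
  set Kt : ℕ := 2 ^ (4 * g * k + g + 4) with hKt
  set t : ℕ := (s + 2) / 2 with ht
  set T : ℕ := 2 ^ t with hT
  set D : ℕ := c₁ * (s + e + 1) with hD
  have hth1p : 0 ≤ th1 k g := by unfold th1; positivity
  have hth1 : th1 k g ≤ 1 := by unfold th1; exact pow_le_one₀ (by norm_num) (by norm_num)
  have hth0 : 0 ≤ th0 s := by unfold th0; positivity
  have hg2 : (2 : ℝ) ^ (ε₀ * (s : ℝ)) ≤ (2 : ℝ) ^ g := by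
    rw [← Real.rpow_natCast]
    exact Real.rpow_le_rpow_of_exponent_le (by norm_num) hgε
  -- condition 1
  have hcond1 : ((3 * s : ℕ) : ℝ) * (1 - th1 k g ^ 2) ^ Kt ≤ 1 / 4 := by
    have h1 : (1 - th1 k g ^ 2) ^ Kt ≤ Real.exp (-(Kt * th1 k g ^ 2)) :=
      pow_le_exp_neg _ _ (pow_le_one₀ hth1p hth1)
    have h2 : (Kt : ℝ) * th1 k g ^ 2 = 2 ^ g := by
      rw [hKt]; unfold th1
      push_cast
      rw [← pow_mul, show 4 * g * k + g + 4 = g + (2 * g * k + 2) * 2 by ring, pow_add, mul_assoc,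
        ← mul_pow]
      norm_num
    rw [h2] at h1
    have h3 : Real.exp (-(2 : ℝ) ^ g) ≤ 1 / 2 ^ g := exp_neg_le _ (by positivity)
    have h4 := hs₄ s hsd
    rw [pow_one] at h4
    have h5 : 12 * ((s : ℝ) + 1) ≤ 2 ^ g := h4.trans hg2
    have h6 : (0 : ℝ) < 2 ^ g := by positivity
    push_cast
    calc 3 * (s : ℝ) * (1 - th1 k g ^ 2) ^ Kt ≤ 3 * s * (1 / 2 ^ g) := by
          gcongr; exact h1.trans h3
      _ ≤ 1 / 4 := by
          rw [mul_one_div, div_le_iff₀ h6]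
          linarith
  have hpow2 : ∀ n : ℕ, ((2 : ℝ) ^ n) = (2 : ℝ) ^ (n : ℝ) := fun n => (Real.rpow_natCast 2 n).symm
  have hcond2 : ((3 * s : ℕ) : ℝ) * 2 ^ e * Kt * th0 s ^ 2 ≤ 1 / 4 := by
    have h1 : th0 s ^ 2 = (2 : ℝ) ^ (-(s : ℝ) / 2) := by
      unfold th0
      rw [← Real.rpow_natCast, ← Real.rpow_mul (by norm_num)]
      congr 1; push_cast; ring
    have h2 : ((2 : ℝ) ^ e * (Kt : ℝ)) ≤ 64 * (2 : ℝ) ^ (6 * (y : ℝ)) := by
      rw [hKt]; push_cast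
      rw [← pow_add]
      calc (2 : ℝ) ^ (e + (4 * g * k + g + 4)) ≤ 2 ^ (6 * y + 6) := by
            refine pow_le_pow_right₀ (by norm_num) ?_
            rw [he, hy]; unfold eP; nlinarith
        _ = 64 * (2 : ℝ) ^ (6 * (y : ℝ)) := by
            rw [pow_add, hpow2 (6 * y)]; push_cast; ring
    have h3 := hs₅ s hse
    rw [pow_one] at h3
    have h4 : (2 : ℝ) ^ (6 * (y : ℝ)) * (2 : ℝ) ^ (4 / 10 * (s : ℝ)) * (2 : ℝ) ^ (-(s : ℝ) / 2) ≤ 1 := by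
      rw [← Real.rpow_add (by norm_num), ← Real.rpow_add (by norm_num)]
      refine Real.rpow_le_one_of_one_le_of_nonpos (by norm_num) ?_
      linarith
    rw [h1]
    push_cast
    have hpos1 : (0 : ℝ) < (2 : ℝ) ^ (6 * (y : ℝ)) := by positivity
    have hpos2 : (0 : ℝ) < (2 : ℝ) ^ (-(s : ℝ) / 2) := by positivity
    calc 3 * (s : ℝ) * 2 ^ e * Kt * (2 : ℝ) ^ (-(s : ℝ) / 2)
        = 3 * (s : ℝ) * (2 ^ e * Kt) * (2 : ℝ) ^ (-(s : ℝ) / 2) := by ring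
      _ ≤ 3 * (s : ℝ) * (64 * (2 : ℝ) ^ (6 * (y : ℝ))) * (2 : ℝ) ^ (-(s : ℝ) / 2) := by gcongr
      _ = (192 * (s : ℝ)) * ((2 : ℝ) ^ (6 * (y : ℝ)) * (2 : ℝ) ^ (-(s : ℝ) / 2)) := by ring
      _ ≤ (1 / 4 * (2 : ℝ) ^ (4 / 10 * (s : ℝ))) *
          ((2 : ℝ) ^ (6 * (y : ℝ)) * (2 : ℝ) ^ (-(s : ℝ) / 2)) :=
            mul_le_mul_of_nonneg_right (by linarith) (by positivity)
      _ = 1 / 4 * ((2 : ℝ) ^ (6 * (y : ℝ)) * (2 : ℝ) ^ (4 / 10 * (s : ℝ)) *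
          (2 : ℝ) ^ (-(s : ℝ) / 2)) := by ring
      _ ≤ 1 / 4 * 1 := by gcongr
      _ = 1 / 4 := by ring
  have hTsq : 2 * 2 ^ s ≤ T ^ 2 := by
    rw [hT, ← pow_mul, ← pow_succ']
    exact Nat.pow_le_pow_right (by norm_num) (by omega)
  obtain ⟨P, hP1, hP2⟩ := hA k s (3 * s) e Kt T s D (th1 k g) (th0 s) CM CE C hth1p hth1 hth0
    (by exact_mod_cast hcond1) (by exact_mod_cast hcond2) hTsq
  -- the error
  have herr : ((2 * s + 6 : ℕ) : ℝ) * errF s (3 * s) s ≤ 1 / 12 := by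
    unfold errF
    have h1 := hs₃ s hsc
    rw [one_mul, ← hpow2] at h1
    have h2 : (0 : ℝ) < 2 ^ s := by positivity
    push_cast
    rw [div_pow, one_pow]
    have h3 : (2 * (s : ℝ) + 6) * (((s : ℝ) + 1) * (3 * s + s + 2) * (1 / 2 ^ s))
        = ((2 * (s : ℝ) + 6) * (((s : ℝ) + 1) * (3 * s + s + 2))) / 2 ^ s := by ring
    rw [h3, div_le_iff₀ h2]
    have h4 : (2 * (s : ℝ) + 6) * (((s : ℝ) + 1) * (3 * s + s + 2)) ≤ 24 * ((s : ℝ) + 1) ^ 3 := by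
      have ha : 2 * (s : ℝ) + 6 ≤ 6 * ((s : ℝ) + 1) := by linarith
      have hb : 3 * (s : ℝ) + s + 2 ≤ 4 * ((s : ℝ) + 1) := by linarith
      calc (2 * (s : ℝ) + 6) * (((s : ℝ) + 1) * (3 * s + s + 2))
          ≤ (6 * ((s : ℝ) + 1)) * (((s : ℝ) + 1) * (4 * ((s : ℝ) + 1))) := by gcongr
        _ = 24 * ((s : ℝ) + 1) ^ 3 := by ring
    linarith
  have hEn : Nonempty (B s ⊕ CE) := ⟨Sum.inl (fun _ => false)⟩
  have hVn : Nonempty (VX k s (3 * s) e CM) := ⟨Sum.inr (Sum.inl (fun _ => false, fun _ => false))⟩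
  set nE : ℕ := Fintype.card (B s ⊕ CE) with hnE
  set T' : ℕ := Nat.sqrt ((2 * s + 6) * nE) + 1 with hT'
  have hT'sq : (2 * s + 6) * nE ≤ T' ^ 2 := by
    rw [hT']
    exact (Nat.lt_succ_sqrt' _).le
  have hQC := hQ (VX k s (3 * s) e CM) (B s ⊕ CE) (2 * s + 6) (3 * s) (s + 1 + D)
    (costF s (3 * s) s T (s + 1) (3 * s * 2 ^ e * Kt * (k + 1))) T' (errF s (3 * s) s)
    (chkX C) P (by omega) (fun β r x => depth_chkX C β r x) hP1 hP2 herr hT'sq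
  refine ⟨VC (VX k s (3 * s) e CM) (2 * s + 6) (3 * s), inferInstance,
    FCS (c := 2 * s + 6) (chkX C), ⟨_, ?_, hQC⟩, ?_⟩
  · -- cost
    have hH : (2 : ℝ) ^ s = ((2 : ℝ) ^ ((s : ℝ) / 2)) ^ 2 := by
      rw [← Real.rpow_natCast ((2 : ℝ) ^ ((s : ℝ) / 2)) 2, ← Real.rpow_mul (by norm_num), hpow2]
      congr 1; push_cast; ring
    have hcb := cost_bound k c₁ s g T T' nE e Kt (s + 1 + D) ((2 : ℝ) ^ ((s : ℝ) / 2))
      (64 * (2 : ℝ) ^ (6 * (y : ℝ))) hs1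
      (Real.one_le_rpow (by norm_num) (by positivity))
      (by
        have : (1 : ℝ) ≤ (2 : ℝ) ^ (6 * (y : ℝ)) := Real.one_le_rpow (by norm_num) (by positivity)
        linarith)
      (by
        rw [hT]; push_cast
        rw [hpow2 t, show (2 : ℝ) * (2 : ℝ) ^ ((s : ℝ) / 2) = (2 : ℝ) ^ ((s : ℝ) / 2 + 1) by
          rw [Real.rpow_add (by norm_num), Real.rpow_one]; ring]
        refine Real.rpow_le_rpow_of_exponent_le (by norm_num) ?_
        have : 2 * t ≤ s + 2 := by omega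
        have h2 : 2 * (t : ℝ) ≤ s + 2 := by exact_mod_cast this
        linarith)
      (by
        rw [hKt]; push_cast
        rw [← pow_add]
        calc (2 : ℝ) ^ (e + (4 * g * k + g + 4)) ≤ 2 ^ (6 * y + 6) := by
              refine pow_le_pow_right₀ (by norm_num) ?_
              rw [he, hy]; unfold eP; nlinarith
          _ = 64 * (2 : ℝ) ^ (6 * (y : ℝ)) := by
              rw [pow_add, hpow2 (6 * y)]; push_cast; ring)
      (by
        calc (2 : ℝ) ^ e ≤ 2 ^ (6 * y + 6) := by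
              refine pow_le_pow_right₀ (by norm_num) ?_
              omega
          _ = 64 * (2 : ℝ) ^ (6 * (y : ℝ)) := by
              rw [pow_add, hpow2 (6 * y)]; push_cast; ring)
      (by
        have h1 : (e : ℝ) ≤ 2 * y + 2 := by exact_mod_cast hey
        linarith)
      hH
      (by
        rw [hnE, Fintype.card_sum]
        push_cast
        have h1 : (Fintype.card CE : ℝ) ≤ c₁ * (s + 1) * (3 * s + 1) * 2 ^ e * 2 ^ s := by
          have := hcard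
          have h2 : ((Fintype.card CE : ℕ) : ℝ) ≤
              ((c₁ * (s + 1) * (3 * s + 1) * 2 ^ e * 2 ^ s : ℕ) : ℝ) := by exact_mod_cast this
          refine h2.trans (le_of_eq ?_)
          push_cast; ring
        have h2 : (Fintype.card (B s) : ℝ) = 2 ^ s := by simp
        linarith)
      hT' (by rw [hD])
    refine hcb.trans ?_
    have h2 := hs₂ s hsb
    have h3 : (2 : ℝ) ^ (6 * (y : ℝ)) ≤ (2 : ℝ) ^ (η * s * (6 / 100)) :=
      Real.rpow_le_rpow_of_exponent_le (by norm_num) (by linarith)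
    rw [← hK₀]
    calc K₀ * ((s : ℝ) + 1) ^ 6 * (2 : ℝ) ^ ((s : ℝ) / 2) * (64 * (2 : ℝ) ^ (6 * (y : ℝ)))
        = (64 * K₀ * ((s : ℝ) + 1) ^ 6) * (2 : ℝ) ^ ((s : ℝ) / 2) * (2 : ℝ) ^ (6 * (y : ℝ)) := by
          ring
      _ ≤ (2 : ℝ) ^ (η * (94 / 100) * (s : ℝ)) * (2 : ℝ) ^ ((s : ℝ) / 2) *
          (2 : ℝ) ^ (η * s * (6 / 100)) := by gcongr
      _ = (2 : ℝ) ^ ((s : ℝ) * (1 / 2 + η)) := by
          rw [← Real.rpow_add (by norm_num), ← Real.rpow_add (by norm_num)]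
          congr 1; ring
  · -- lower bound
    intro r hr
    by_contra hcon
    push Not at hcon
    obtain ⟨Ω, fΩ, w, Xr, pt, ν, h1, h2, h3, h4, h5, h6⟩ :=
      hs₁ s hsa g hg1 hgε hg100 CM CE D r C hcon.le
    refine hR (VX k s (3 * s) e CM) (B s ⊕ CE) (2 * s + 6) (3 * s) r (chkX C) Ω w Xr pt ν
      (1 / (200 * s)) (1 / (200 * s)) h1 h2 h3 h4 (by positivity) (by positivity) h5 h6 ?_ hr
    have hr2 : (r : ℝ) ≤ 2 ^ (2 * s) := by
      refine hcon.le.trans ?_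
      rw [hpow2]
      refine Real.rpow_le_rpow_of_exponent_le (by norm_num) ?_
      push_cast
      nlinarith
    have h7 : (r : ℝ) / 2 ^ (2 * s + 6) ≤ 1 / 64 := by
      rw [div_le_iff₀ (by positivity), pow_add]
      linarith
    have h8 : ((2 * s + 6 : ℕ) : ℝ) * (1 / (200 * s) + 1 / (200 * s)) ≤ 8 / 100 := by
      have : (1 : ℝ) / (200 * s) + 1 / (200 * s) = 1 / (100 * s) := by field_simp; ring
      rw [this, mul_one_div, div_le_iff₀ (by positivity)]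
      push_cast
      linarith
    have : (8 : ℝ) / 100 + 1 / 64 < 1 / 3 := by norm_num
    linarith

end Crest.Agent.R350
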