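import Crest.Agent.R350.Defs

/-!
# Row 350, task D6: `Main` and `Transport` give the final statement.
-/

set_option autoImplicit false

namespace Crest.Agent.R350

theorem top (hM : Main) (hT : Transport) : Top := by
  intro k hk
  have hk0 : (0 : ℝ) < k := by
    have : 0 < k := by omega
    exact_mod_cast this
  have hk1 : (1 : ℝ) ≤ k := by
    have : 1 ≤ k := by omega
    exact_mod_cast this
  obtain ⟨η, hη⟩ : ∃ η : ℝ, η = 1 / (10 * k) := ⟨_, rfl⟩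
  have hη0 : 0 < η := by rw [hη]; positivity
  have hηk : η * (10 * k) = 1 := by rw [hη]; field_simp
  have hη1 : η ≤ 1 / 10 := by
    nlinarith
  obtain ⟨s₀, hs₀⟩ := hM η hη0 hη1
  refine ⟨1 / 4, 1, 1, by norm_num, by norm_num, by norm_num, 4 ^ (s₀ + 1), ?_⟩
  rintro m hm ⟨j, rfl⟩
  have hj : s₀ + 1 ≤ j := (Nat.pow_le_pow_iff_right (by norm_num)).1 hm
  have hjr : (s₀ : ℝ) + 1 ≤ j := by exact_mod_cast hj
  have hs0r : (0 : ℝ) ≤ s₀ := Nat.cast_nonneg _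
  have hden : (0 : ℝ) < 1 + 2 * η := by linarith
  obtain ⟨s, hsdef⟩ : ∃ s : ℕ, s = ⌊(2 * j / (1 + 2 * η) : ℝ)⌋₊ := ⟨_, rfl⟩
  have h1 : (s : ℝ) ≤ 2 * j / (1 + 2 * η) := by
    rw [hsdef]; exact Nat.floor_le (by positivity)
  have h2 : (2 * j / (1 + 2 * η) : ℝ) < s + 1 := by
    rw [hsdef]; exact Nat.lt_floor_add_one _
  have h1' : (s : ℝ) * (1 + 2 * η) ≤ 2 * j := by
    rwa [le_div_iff₀ hden] at h1
  have h2' : 2 * (j : ℝ) < (s + 1) * (1 + 2 * η) := by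
    rwa [div_lt_iff₀ hden] at h2
  have hs : s₀ ≤ s := by
    have : (s₀ : ℝ) ≤ s := by
      by_contra hc
      push Not at hc
      nlinarith
    exact_mod_cast this
  obtain ⟨V, hV, F, ⟨q, hq, hQ⟩, hR⟩ := hs₀ s hs
  let e : Fin (Fintype.card V) ≃ V := (Fintype.equivFin V).symm
  have h4 : (4 : ℝ) = 2 ^ (2 : ℝ) := by norm_num
  have hm4 : (((4 ^ j : ℕ)) : ℝ) = (2 : ℝ) ^ (2 * (j : ℝ)) := by
    push_cast
    rw [Real.rpow_mul (by norm_num), ← h4, Real.rpow_natCast]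
  have hsq : Real.sqrt ((4 ^ j : ℕ) : ℝ) = (2 : ℝ) ^ (j : ℝ) := by
    rw [hm4, Real.sqrt_eq_rpow, ← Real.rpow_mul (by norm_num)]
    congr 1; ring
  have hj1 : (1 : ℝ) ≤ j := by linarith
  have hlog : 1 ≤ Real.log ((4 ^ j : ℕ) : ℝ) := by
    rw [hm4, Real.log_rpow (by norm_num)]
    have := Real.log_two_gt_d9
    nlinarith
  refine ⟨Fintype.card V, fun x => F (fun v => x (e.symm v)), ⟨q, ?_, hT.q V F q _ e hQ⟩,
    fun r hr => ?_⟩
  · -- quantum upper bound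
    have hexp : (s : ℝ) * (1 / 2 + η) ≤ j := by nlinarith
    have hle : (2 : ℝ) ^ ((s : ℝ) * (1 / 2 + η)) ≤ (2 : ℝ) ^ (j : ℝ) :=
      Real.rpow_le_rpow_of_exponent_le (by norm_num) hexp
    rw [hsq, Real.rpow_one, one_mul]
    have hpos : (0 : ℝ) < (2 : ℝ) ^ (j : ℝ) := by positivity
    nlinarith
  · -- randomized lower bound
    have hr' := hR r (hT.r V F r _ e hr)
    have hexp : 2 * (j : ℝ) * (2 - 1 / (k : ℝ)) - 2 ≤ (s : ℝ) * (2 - η) := by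
      have hinv : (1 : ℝ) / k = 10 * η := by
        rw [hη]; field_simp
      rw [hinv]
      have hs1 : 2 * (j : ℝ) - (1 + 2 * η) ≤ s * (1 + 2 * η) := by linarith
      have hjj : (0 : ℝ) ≤ j := by linarith
      -- multiply
      have key : (2 * (j : ℝ) * (2 - 10 * η) - 2) * (1 + 2 * η) ≤
          (s : ℝ) * (1 + 2 * η) * (2 - η) := by
        have h3 : (2 * (j : ℝ) - (1 + 2 * η)) * (2 - η) ≤ s * (1 + 2 * η) * (2 - η) :=
          mul_le_mul_of_nonneg_right hs1 (by linarith)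
        refine le_trans ?_ h3
        have e1 : (2 * (j : ℝ) - (1 + 2 * η)) * (2 - η)
            - (2 * (j : ℝ) * (2 - 10 * η) - 2) * (1 + 2 * η)
            = 2 * j * (5 * η + 20 * η ^ 2) + η * (1 + 2 * η) := by ring
        have e2 : 0 ≤ 2 * (j : ℝ) * (5 * η + 20 * η ^ 2) + η * (1 + 2 * η) := by positivity
        linarith
      by_contra hc
      push Not at hc
      have := mul_lt_mul_of_pos_right hc hden
      nlinarith
    have hle : (2 : ℝ) ^ (2 * (j : ℝ) * (2 - 1 / (k : ℝ)) - 2) ≤ (2 : ℝ) ^ ((s : ℝ) * (2 - η)) :=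
      Real.rpow_le_rpow_of_exponent_le (by norm_num) hexp
    have hsplit : (2 : ℝ) ^ (2 * (j : ℝ) * (2 - 1 / (k : ℝ)) - 2)
        = 1 / 4 * (((4 ^ j : ℕ)) : ℝ) ^ (2 - 1 / (k : ℝ)) := by
      rw [hm4, ← Real.rpow_mul (by norm_num), Real.rpow_sub (by norm_num)]
      rw [show (2 : ℝ) ^ (2 : ℝ) = 4 by norm_num]
      ring
    have hnn : 0 ≤ 1 / 4 * (((4 ^ j : ℕ)) : ℝ) ^ (2 - 1 / (k : ℝ)) := by positivity
    have hlog2 : 1 ≤ Real.log ((4 ^ j : ℕ) : ℝ) ^ 2 := one_le_pow₀ hlog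
    calc 1 / 4 * (((4 ^ j : ℕ)) : ℝ) ^ (2 - 1 / (k : ℝ)) / Real.log ((4 ^ j : ℕ) : ℝ) ^ 2
        ≤ 1 / 4 * (((4 ^ j : ℕ)) : ℝ) ^ (2 - 1 / (k : ℝ)) := div_le_self hnn hlog2
      _ = (2 : ℝ) ^ (2 * (j : ℝ) * (2 - 1 / (k : ℝ)) - 2) := hsplit.symm
      _ ≤ (2 : ℝ) ^ ((s : ℝ) * (2 - η)) := hle
      _ ≤ r := hr'

end Crest.Agent.R350
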